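import Vale.Agent.P097F.J.Defs

/-!
# P097F.J: extension of a branch to the right, and the branch on one side of a fold
-/

set_option linter.all false

noncomputable section

namespace Vale.Agent.P097F.J

open Filter Topology Set Metric Complex MeasureTheory
open Vale.Agent.P097Mo (Sf)

namespace Bx

theorem re_kap (μ : ℂ) : (3 * kap * μ).re = 3 * (μ.re - μ.im) := by
  simp [kap]
  ring

theorem im_kap (μ : ℂ) : (3 * kap * μ).im = 3 * (μ.re + μ.im) := by
  simp [kap]
  ring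

theorem inj_h {σ : ℂ} (hσ : σ ≠ 0) :
    InjOn (fun μ : ℂ => σ * exp (3 * kap * μ)) {μ | |μ.im| < 1 / 10} := by
  intro a ha b hb hab
  have h1 : exp (3 * kap * a) = exp (3 * kap * b) := mul_left_cancel₀ hσ hab
  obtain ⟨n, hn⟩ := Complex.exp_eq_exp_iff_exists_int.1 h1
  have hr := congrArg Complex.re hn
  have hi := congrArg Complex.im hn
  rw [add_re, re_kap, re_kap] at hr
  rw [add_im, im_kap, im_kap] at hi
  have e1 : ((n : ℂ) * (2 * Real.pi * I)).re = 0 := by simp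
  have e2 : ((n : ℂ) * (2 * Real.pi * I)).im = n * (2 * Real.pi) := by simp
  rw [e1] at hr
  rw [e2] at hi
  have ha' : |a.im| < 1 / 10 := ha
  have hb' : |b.im| < 1 / 10 := hb
  rw [abs_lt] at ha' hb'
  have hpi := Real.pi_gt_three
  have hn0 : n = 0 := by
    rcases lt_trichotomy n 0 with h | h | h
    · have : (n : ℝ) ≤ -1 := by exact_mod_cast (by omega : n ≤ -1)
      nlinarith
    · exact h
    · have : (1 : ℝ) ≤ n := by exact_mod_cast (by omega : 1 ≤ n)
      nlinarith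
  rw [hn0] at hi
  simp only [Int.cast_zero, zero_mul, add_zero] at hi hr
  exact Complex.ext (by linarith) (by linarith)

theorem diff_h (σ : ℂ) : Differentiable ℂ fun μ : ℂ => σ * exp (3 * kap * μ) :=
  (differentiable_const σ).mul ((differentiable_const _).mul differentiable_id).cexp

theorem norm_h (σ μ : ℂ) : ‖σ * exp (3 * kap * μ)‖ = ‖σ‖ * Real.exp (3 * (μ.re - μ.im)) := by
  rw [norm_mul, Complex.norm_exp, re_kap]

theorem seg_mem {C : Set ℂ} (hC : Convex ℝ C) {p q : ℂ} (hp : p ∈ C) (hq : q ∈ C) {t : ℝ}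
    (ht : t ∈ Icc (0 : ℝ) 1) : p + t * (q - p) ∈ C := by
  have := hC.add_smul_sub_mem hp hq ht
  rwa [Complex.real_smul] at this

theorem cont_seg (p q : ℂ) : Continuous fun t : ℝ => p + t * (q - p) :=
  continuous_const.add (Complex.continuous_ofReal.mul continuous_const)

theorem cone {w : ℂ} {r : ℝ} (hr : 0 < r) (ha : 9 * r / 10 ≤ w.re) (hb : |w.im| ≤ r / 5) :
    ‖3 * kap * w‖ ≤ 2 * (3 * kap * w).re := by
  rw [abs_le] at hb
  have h0 : 0 ≤ 2 * (3 * kap * w).re := by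
    rw [re_kap]
    linarith
  refine abs_le_of_sq_le_sq' ?_ h0 |>.2
  rw [Complex.sq_norm, normSq_apply, re_kap, im_kap]
  nlinarith [mul_nonneg (by linarith : 0 ≤ w.re) (by linarith : 0 ≤ w.re - 4 * w.im),
    sq_nonneg w.im]

theorem clus {ι : Type} {F : Filter ι} {Γ c : ι → ℂ} {z w : ℂ} (hz : MapClusterPt z F Γ)
    (he : ∀ᶠ t in F, Sf (Γ t) = c t) (hc : Tendsto c F (𝓝 w)) (hS : ContinuousAt Sf z) :
    Sf z = w := by
  have h1 : MapClusterPt (Sf z) F (Sf ∘ Γ) := hz.continuousAt_comp hS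
  have h2 : Tendsto (Sf ∘ Γ) F (𝓝 w) := hc.congr' (he.mono fun t ht => ht.symm)
  exact eq_of_nhds_neBot (h1.clusterPt.mono h2)

theorem sin_ne {k : ℤ} {z : ℂ} (h0 : z ≠ (k : ℂ) * Real.pi) (h1 : ‖z - k * Real.pi‖ ≤ 1) :
    sin z ≠ 0 := by
  intro h
  obtain ⟨n, rfl⟩ := Complex.sin_eq_zero_iff.1 h
  have hn : n - k ≠ 0 := fun e => h0 (by rw [sub_eq_zero.1 e])
  have e : (n : ℂ) * Real.pi - k * Real.pi = ((((n - k : ℤ) : ℝ) * Real.pi : ℝ) : ℂ) := by
    push_cast
    ring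
  rw [e, Complex.norm_real, Real.norm_eq_abs, abs_mul, abs_of_pos Real.pi_pos] at h1
  have h2 : (1 : ℝ) ≤ |((n - k : ℤ) : ℝ)| := by
    rw [← Int.cast_abs]
    exact_mod_cast Int.one_le_abs hn
  nlinarith [Real.pi_gt_three]

theorem isol (hD : ∀ z, HasDerivAt Sf (z * sin z) z) (k : ℤ) {ε : ℝ} (hε : 0 < ε) :
    ∃ e : ℝ, 0 < e ∧ e < ε ∧ ∀ z : ℂ, z ≠ (k : ℂ) * Real.pi → ‖z - k * Real.pi‖ ≤ e →
      sin z ≠ 0 ∧ Sf z ≠ Sf (k * Real.pi) := by
  have hd : Differentiable ℂ Sf := fun z => (hD z).differentiableAt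
  have hne : ∀ᶠ z in 𝓝[≠] ((k : ℂ) * Real.pi), Sf z ≠ Sf (k * Real.pi) := by
    rcases (hd.analyticAt ((k : ℂ) * Real.pi)).eventually_eq_or_eventually_ne
      (analyticAt_const (v := Sf ((k : ℂ) * Real.pi))) with h | h
    · exfalso
      have h1 : ∀ᶠ z in 𝓝 ((k : ℂ) * Real.pi), z * sin z = 0 := by
        filter_upwards [h.eventually_nhds] with z hz
        have h2 : HasDerivAt Sf 0 z :=
          (hasDerivAt_const z (Sf ((k : ℂ) * Real.pi))).congr_of_eventuallyEq hz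
        exact (hD z).unique h2
      have h3 : ∀ᶠ z : ℂ in 𝓝 ((k : ℂ) * Real.pi), ‖z - k * Real.pi‖ ≤ 1 := by
        filter_upwards [closedBall_mem_nhds ((k : ℂ) * Real.pi) one_pos] with z hz
        rwa [mem_closedBall, dist_eq_norm] at hz
      obtain ⟨z, ⟨a, b⟩, c⟩ := (((h1.and h3).filter_mono nhdsWithin_le_nhds).and
        (self_mem_nhdsWithin (a := (k : ℂ) * Real.pi) (s := {(k : ℂ) * Real.pi}ᶜ))).exists
      have hs := sin_ne c b
      rcases mul_eq_zero.1 a with h | h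
      · exact hs (by rw [h, Complex.sin_zero])
      · exact hs h
    · exact h
  rw [eventually_nhdsWithin_iff, Metric.eventually_nhds_iff] at hne
  obtain ⟨e, he, H⟩ := hne
  refine ⟨min (e / 2) (min (ε / 2) 1), lt_min (by linarith) (lt_min (by linarith) one_pos),
    ((min_le_right _ _).trans (min_le_left _ _)).trans_lt (by linarith), fun z hz hn => ⟨?_, ?_⟩⟩
  · exact sin_ne hz (hn.trans ((min_le_right _ _).trans (min_le_right _ _)))
  · refine H ?_ hz
    rw [dist_eq_norm]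
    exact (hn.trans (min_le_left _ _)).trans_lt (by linarith)

theorem open_Sd (s δ r : ℝ) : IsOpen (Sd s δ ∩ {μ : ℂ | μ.re < r}) :=
  ((isOpen_lt continuous_const continuous_re).inter
    ((isOpen_lt continuous_const (continuous_const.mul continuous_im)).inter
      (isOpen_lt (continuous_const.mul continuous_im) continuous_const))).inter
    (isOpen_lt continuous_re continuous_const)

theorem convex_Sd (s δ r : ℝ) : Convex ℝ (Sd s δ ∩ {μ : ℂ | μ.re < r}) := by
  have hl : IsLinearMap ℝ fun μ : ℂ => s * μ.im :=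
    ⟨fun x y => by rw [add_im, mul_add], fun c x => by
      rw [Complex.smul_im, smul_eq_mul, smul_eq_mul]
      ring⟩
  exact ((convex_halfSpace_re_gt _).inter ((convex_halfSpace_gt hl 0).inter
    (convex_halfSpace_lt hl δ))).inter (convex_halfSpace_re_lt _)

end Bx

open Bx

theorem bext : S_UNIQ → S_STAR → S_TRAP → S_BND → S_BEXT := by
  intro hU hS hT ⟨hRg, _, hdec, hbd, _⟩ σ p ρ r C Δ₀ hσ hr hr1 hCo hCc him hdis hp hpn hΔ hlaw
    hρ ⟨M, hM⟩
  have hpre : |p.re| < r / 10 := (abs_re_le_norm p).trans_lt hpn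
  have hpr : p.re < r := by
    rw [abs_lt] at hpre
    linarith
  have hC' : Convex ℝ (C ∩ {μ : ℂ | μ.re < r}) := hCc.inter (convex_halfSpace_re_lt _)
  have hinj : InjOn (fun μ : ℂ => σ * exp (3 * kap * μ)) C :=
    (inj_h hσ).mono fun μ hμ => (him μ hμ).trans_le (by linarith)
  obtain ⟨φ, hφ, hφl, hφp⟩ := hS Sf (fun μ : ℂ => σ * exp (3 * kap * μ)) US C p (Δ₀ p) hRg
    (diff_h σ) hCo hCc hp hinj (hlaw p hp hpr).1 (hlaw p hp hpr).2 (by
      intro q hq
      rcases lt_or_ge q.re r with hqr | hqr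
      · have hm : ∀ t ∈ Icc (0 : ℝ) 1, p + t * (q - p) ∈ C ∩ {μ : ℂ | μ.re < r} :=
          fun t ht => seg_mem hC' ⟨hp, hpr⟩ ⟨hq, hqr⟩ ht
        refine ⟨fun t => Δ₀ (p + t * (q - p)), ?_, fun t ht => (hlaw _ (hm t ht).1 (hm t ht).2).1,
          fun t ht => (hlaw _ (hm t ht).1 (hm t ht).2).2, ?_⟩
        · exact hΔ.continuousOn.comp (cont_seg p q).continuousOn hm
        · simp
      · have he : ∀ t : ℝ, Sf (Δ₀ p) * exp (t * (3 * kap * (q - p))) =
            σ * exp (3 * kap * (p + t * (q - p))) := by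
          intro t
          rw [(hlaw p hp hpr).2, mul_assoc, ← Complex.exp_add]
          congr 2
          ring
        have hcone : ‖3 * kap * (q - p)‖ ≤ 2 * (3 * kap * (q - p)).re := by
          have a1 := him p hp
          have a2 := him q hq
          rw [abs_lt] at a1 a2 hpre
          refine cone hr ?_ ?_
          · rw [sub_re]
            linarith
          · rw [sub_im, abs_le]
            constructor <;> linarith
        obtain ⟨Γ, h1, h2, h3, h4⟩ := hT ρ (Δ₀ p) (3 * kap * (q - p)) (hlaw p hp hpr).1 hρ hcone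
          (by
            intro k hk hkρ t ht e
            rw [he] at e
            exact Set.disjoint_left.1 hdis (seg_mem hCc hp hq ht) ⟨k, hk, hkρ, e⟩)
          (by
            rw [(hlaw p hp hpr).2]
            exact mul_ne_zero hσ (Complex.exp_ne_zero _))
        exact ⟨Γ, h1, h2, fun t ht => (h3 t ht).trans (he t), h4⟩)
  have heq : EqOn φ Δ₀ (C ∩ {μ : ℂ | μ.re < r}) :=
    hU Sf US ℂ _ φ Δ₀ p hRg hC'.isPreconnected (hφ.continuousOn.mono inter_subset_left)
      hΔ.continuousOn (fun μ hμ => (hφl μ hμ.1).1)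
      (fun μ hμ => (hφl μ hμ.1).2.trans (hlaw μ hμ.1 hμ.2).2.symm) ⟨hp, hpr⟩ hφp
  have hσp : 0 < ‖σ‖ := norm_pos_iff.2 hσ
  refine ⟨fun μ => (2 * φ μ)⁻¹, ⟨?_, ?_, ?_⟩, fun μ hμ hμr => ?_⟩
  · refine (hφ.const_mul 2).inv fun μ hμ => mul_ne_zero two_ne_zero fun e => (hφl μ hμ).1 ?_
    rw [e, Complex.sin_zero]
  · obtain ⟨M', hM'⟩ := hbd ‖σ‖ hσp
    refine ⟨max M M', fun μ hμ => ?_⟩
    rcases lt_or_ge μ.re r with h | h
    · show ‖(2 * φ μ)⁻¹‖ ≤ _
      rw [heq ⟨hμ, h⟩]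
      exact (hM μ hμ h).trans (le_max_left _ _)
    · refine (hM' (φ μ) ?_).trans (le_max_right _ _)
      have a := him μ hμ
      rw [abs_lt] at a
      rw [(hφl μ hμ).2, norm_h]
      exact le_mul_of_one_le_right hσp.le (Real.one_le_exp (by linarith))
  · intro ε hε
    obtain ⟨R, hR⟩ := hdec ε hε
    refine ⟨|R| / ‖σ‖, fun μ hμ h => hR (φ μ) ?_⟩
    have a := him μ hμ
    rw [abs_lt] at a
    have h0 : 0 ≤ μ.re := (div_nonneg (abs_nonneg R) hσp.le).trans h
    rw [div_le_iff₀ hσp] at h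
    have h1 := Real.add_one_le_exp (3 * (μ.re - μ.im))
    rw [(hφl μ hμ).2, norm_h]
    have h2 : μ.re ≤ Real.exp (3 * (μ.re - μ.im)) := by linarith
    nlinarith [le_abs_self R, mul_le_mul_of_nonneg_left h2 hσp.le]
  · show (2 * φ μ)⁻¹ = _
    rw [heq ⟨hμ, hμr⟩]

theorem halfB : S_UNIQ → S_STAR → S_LIFT → S_BND → S_HALF := by
  intro _ hS hL ⟨hRg, hD, _, _, hk0⟩ k ε hk hε
  have hcont : Continuous Sf := continuous_iff_continuousAt.2 fun z => (hD z).continuousAt
  obtain ⟨e, he, heε, hiso⟩ := isol hD k hε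
  set a : ℂ := (k : ℂ) * Real.pi with ha
  have hσ : Sf a ≠ 0 := hk0 k hk
  obtain ⟨c₀, hc₀, hc⟩ := (isCompact_sphere a e).exists_forall_le'
    (f := fun z => ‖Sf z - Sf a‖) (hcont.sub continuous_const).norm.continuousOn (a := 0) (by
      intro z hz
      rw [mem_sphere, dist_eq_norm] at hz
      refine norm_pos_iff.2 (sub_ne_zero.2 (hiso z ?_ hz.le).2)
      intro e'
      rw [e', sub_self, norm_zero] at hz
      exact he.ne hz)
  have h00 : Sf a * exp (3 * kap * 0) = Sf a := by simp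
  obtain ⟨r₁, hr₁, hnear⟩ := Metric.continuousAt_iff.1 ((diff_h (Sf a)).continuous.continuousAt
    (x := 0)) c₀ hc₀
  refine ⟨min (r₁ / 2) 1, lt_min (by linarith) one_pos, min_le_right _ _, ?_⟩
  have hr : 0 < min (r₁ / 2) 1 := lt_min (by linarith) one_pos
  have hr1 : min (r₁ / 2) 1 ≤ 1 := min_le_right _ _
  have hr2 : min (r₁ / 2) 1 ≤ r₁ / 2 := min_le_left _ _
  generalize min (r₁ / 2) 1 = r at hr hr1 hr2
  filter_upwards [ball_mem_nhds a he] with d hd s p hs hp hpn hdp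
  set C : Set ℂ := Sd s (r / 10) ∩ {μ : ℂ | μ.re < r} with hC
  have him : ∀ μ ∈ C, 0 < |μ.im| ∧ |μ.im| < r / 10 := by
    rintro μ ⟨⟨_, h1, h2⟩, _⟩
    rcases hs with rfl | rfl
    · rw [one_mul] at h1 h2
      rw [abs_of_pos h1]
      exact ⟨h1, h2⟩
    · rw [neg_one_mul] at h1 h2
      rw [abs_of_neg (by linarith)]
      exact ⟨h1, h2⟩
  have hsub : C ⊆ {μ : ℂ | |μ.im| < 1 / 10} := fun μ hμ => (him μ hμ).2.trans_le (by linarith)
  have hne : ∀ μ ∈ C, Sf a * exp (3 * kap * μ) ≠ Sf a := by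
    intro μ hμ e'
    have h0 : (0 : ℂ) ∈ {μ : ℂ | |μ.im| < 1 / 10} := by simp
    have := inj_h hσ (hsub hμ) h0 (e'.trans h00.symm)
    have h1 := (him μ hμ).1
    rw [this] at h1
    simp at h1
  have hsm : ∀ μ ∈ C, ‖Sf a * exp (3 * kap * μ) - Sf a‖ < c₀ := by
    intro μ hμ
    have h1 : dist μ 0 < r₁ := by
      rw [dist_zero_right]
      have h2 := (him μ hμ).2
      have h3 : |μ.re| < r := by
        have h4 : -(r / 10) < μ.re := hμ.1.1
        have h5 : μ.re < r := hμ.2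
        rw [abs_lt]
        constructor <;> linarith
      exact (norm_le_abs_re_add_abs_im μ).trans_lt (by linarith)
    have := hnear h1
    rwa [dist_eq_norm, h00] at this
  have hin : ∀ μ ∈ C, ∀ z ∈ closedBall a e, Sf z = Sf a * exp (3 * kap * μ) → z ∈ ball a e ∩ US := by
    intro μ hμ z hz e'
    refine ⟨?_, (hiso z ?_ (by rwa [mem_closedBall, dist_eq_norm] at hz)).1⟩
    · refine mem_ball.2 (lt_of_le_of_ne (mem_closedBall.1 hz) fun h => ?_)
      have h1 := hc z (mem_sphere.2 h)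
      have h2 := hsm μ hμ
      rw [← e'] at h2
      exact absurd h1 (not_le.2 h2)
    · intro h
      rw [h] at e'
      exact hne μ hμ e'.symm
  have hRg' : Rg Sf (ball a e ∩ US) := ⟨isOpen_ball.inter hRg.1, hRg.2.1.mono inter_subset_right,
    fun y hy => hRg.2.2 y hy.2⟩
  have hpC : p ∈ C := by
    refine ⟨hp, ?_⟩
    have := (abs_lt.1 ((abs_re_le_norm p).trans_lt hpn)).2
    show p.re < r
    linarith
  have hdU : d ∈ ball a e ∩ US := hin p hpC d (ball_subset_closedBall hd) hdp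
  obtain ⟨φ, hφ, hφl, hφp⟩ := hS Sf (fun μ : ℂ => Sf a * exp (3 * kap * μ)) (ball a e ∩ US) C p d
    hRg' (diff_h _) (open_Sd _ _ _) (convex_Sd _ _ _) hpC ((inj_h hσ).mono hsub) hdU hdp (by
      intro q hq
      have hcc : Continuous fun t : ℝ => Sf a * exp (3 * kap * (p + t * (q - p))) :=
        (diff_h (Sf a)).continuous.comp (cont_seg p q)
      refine hL Sf _ _ d hRg' hcc.continuousOn hdU (by simpa using hdp) ?_
      intro T hT Γ ⟨_, h2, h3, _⟩
      have hI : Ico (0 : ℝ) T ∈ 𝓝[<] T := Ico_mem_nhdsLT hT.1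
      obtain ⟨z, hz, hzc⟩ := (isCompact_closedBall a e).exists_mapClusterPt (f := 𝓝[<] T) (u := Γ)
        (by
          rw [le_principal_iff, mem_map]
          exact mem_of_superset hI fun t ht => ball_subset_closedBall (h2 ht).1)
      refine ⟨z, hin _ (seg_mem (convex_Sd _ _ _) hpC hq ⟨hT.1.le, hT.2⟩) z hz ?_, hzc⟩
      exact clus hzc (mem_of_superset hI fun t ht => h3 t ht)
        (hcc.continuousAt.tendsto.mono_left nhdsWithin_le_nhds) hcont.continuousAt)
  refine ⟨φ, hφ, hφp, fun μ hμ hμr => ⟨(hφl μ ⟨hμ, hμr⟩).1.2, ?_, (hφl μ ⟨hμ, hμr⟩).2⟩, ?_⟩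
  · have := (hφl μ ⟨hμ, hμr⟩).1.1
    rw [mem_ball, dist_eq_norm] at this
    exact this.trans heε
  · refine (isCompact_closedBall a e).tendsto_nhds_of_unique_mapClusterPt ?_ ?_
    · filter_upwards [self_mem_nhdsWithin] with μ hμ
      exact ball_subset_closedBall (hφl μ hμ).1.1
    · intro z hz hzc
      have h1 : Sf z = Sf a * exp (3 * kap * 0) :=
        clus hzc (by
          filter_upwards [self_mem_nhdsWithin] with μ hμ
          exact (hφl μ hμ).2)
          ((diff_h (Sf a)).continuous.continuousAt.tendsto.mono_left nhdsWithin_le_nhds)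
          hcont.continuousAt
      by_contra h
      exact (hiso z h (by rwa [mem_closedBall, dist_eq_norm] at hz)).2 (h1.trans h00)

end Vale.Agent.P097F.J
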