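import Vale.Agent.P097F.J.Defs

/-!
# P097F.J: the model function, the discrete set of fold times, generic nodes, local inverses
-/

set_option linter.all false

noncomputable section

namespace Vale.Agent.P097F.J

open Filter Topology Set Metric Complex MeasureTheory
open Vale.Agent.P097Mo (Sf)

theorem bnd_der (z : ℂ) : HasDerivAt Sf (z * sin z) z := by
  have h := (hasDerivAt_sin z).sub ((hasDerivAt_id z).mul (hasDerivAt_cos z))
  exact h.congr_deriv (by simp)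

theorem bnd_dif : Differentiable ℂ Sf := fun z => (bnd_der z).differentiableAt

theorem bnd_inv {z : ℂ} {δ : ℝ} (hδ : 0 < δ) (h : δ ≤ ‖z‖) : ‖(2 * z)⁻¹‖ ≤ δ⁻¹ := by
  rw [norm_inv, norm_mul, Complex.norm_two]
  exact inv_anti₀ hδ (by linarith)

theorem bnd_fold {k : ℤ} (hk : k ≠ 0) : Sf (k * Real.pi) ≠ 0 := by
  have h1 : sin ((k : ℂ) * Real.pi) = 0 := Complex.sin_int_mul_pi k
  have h2 : cos ((k : ℂ) * Real.pi) ≠ 0 := by
    intro e
    have := Complex.sin_sq_add_cos_sq ((k : ℂ) * Real.pi)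
    rw [h1, e] at this
    norm_num at this
  have h3 : (k : ℂ) * Real.pi ≠ 0 :=
    mul_ne_zero (Int.cast_ne_zero.2 hk) (ofReal_ne_zero.2 Real.pi_ne_zero)
  unfold Sf
  rw [h1, zero_sub]
  exact neg_ne_zero.2 (mul_ne_zero h3 h2)

theorem bnd : S_BND := by
  refine ⟨⟨isOpen_ne_fun continuous_sin continuous_const, bnd_dif.differentiableOn, fun y hy => ?_⟩,
    bnd_der, fun ε hε => ?_, fun r hr => ?_, fun k hk => bnd_fold hk⟩
  · rw [(bnd_der y).deriv]
    have h : sin y ≠ 0 := hy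
    refine mul_ne_zero ?_ h
    rintro rfl
    exact h Complex.sin_zero
  · obtain ⟨M, hM⟩ := (isCompact_closedBall (0 : ℂ) ε⁻¹).exists_bound_of_continuousOn
      bnd_dif.continuous.continuousOn
    refine ⟨M + 1, fun z hz => ?_⟩
    have h : ε⁻¹ ≤ ‖z‖ := by
      by_contra hc
      have := hM z (mem_closedBall_zero_iff.2 (not_le.1 hc).le)
      linarith
    have := bnd_inv (inv_pos.2 hε) h
    rwa [inv_inv] at this
  · obtain ⟨δ, hδ, h⟩ := Metric.continuousAt_iff.1 (bnd_dif.continuous.continuousAt (x := 0)) r hr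
    refine ⟨δ⁻¹, fun z hz => bnd_inv hδ ?_⟩
    by_contra hc
    have a := h (x := z) (by simpa using hc)
    have b : Sf 0 = 0 := by simp [Sf]
    rw [b, dist_zero_right] at a
    linarith

theorem disc_kap : kap ≠ 0 := by
  intro e
  have := congrArg Complex.re e
  simp [kap] at this

/-- the solutions form a lattice line -/
theorem disc_one (σ S : ℂ) (hS : S ≠ 0) : ∃ x : ℂ, ∀ μ, σ * exp (3 * kap * μ) = S →
    ∃ n : ℤ, μ = x + n * ((Real.pi / 3 : ℝ) * kap) := by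
  by_cases h : ∃ x, σ * exp (3 * kap * x) = S
  · obtain ⟨x, hx⟩ := h
    refine ⟨x, fun μ hμ => ?_⟩
    have h0 : σ ≠ 0 := by
      rintro rfl
      exact hS (by rw [← hx, zero_mul])
    obtain ⟨n, hn⟩ := Complex.exp_eq_exp_iff_exists_int.1 (mul_left_cancel₀ h0 (hμ.trans hx.symm))
    refine ⟨n, mul_left_cancel₀ (mul_ne_zero three_ne_zero disc_kap) ?_⟩
    have e : kap ^ 2 = 2 * I := by
      unfold kap
      linear_combination I_sq
    rw [hn]
    push_cast
    linear_combination (-(n : ℂ) * Real.pi) * e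
  · exact ⟨0, fun μ hμ => (h ⟨μ, hμ⟩).elim⟩

theorem disc_lat (x c : ℝ) (hc : 0 < c) :
    ∀ᶠ δ in 𝓝[>] (0 : ℝ), ∀ n : ℤ, |x + n * c| < δ → x + n * c = 0 := by
  have key : ∃ δ > 0, ∀ n : ℤ, |x + n * c| < δ → x + n * c = 0 := by
    by_cases h : ∃ m : ℤ, x + m * c = 0
    · obtain ⟨m, hm⟩ := h
      refine ⟨c, hc, fun n hn => ?_⟩
      have e : x + n * c = ((n - m : ℤ) : ℝ) * c := by
        push_cast
        linarith
      rw [e, abs_mul, abs_of_pos hc, mul_lt_iff_lt_one_left hc, ← Int.cast_abs] at hn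
      have a : |n - m| < 1 := by exact_mod_cast hn
      rw [e, Int.abs_lt_one_iff.1 a]
      simp
    · have a1 : (⌊x / c⌋ : ℝ) * c ≤ x := (le_div_iff₀ hc).1 (Int.floor_le _)
      have a2 : x < (⌊x / c⌋ + 1) * c := (div_lt_iff₀ hc).1 (Int.lt_floor_add_one _)
      have a3 : (⌊x / c⌋ : ℝ) * c ≠ x := fun e => h ⟨-⌊x / c⌋, by push_cast; linarith⟩
      have a4 := lt_of_le_of_ne a1 a3
      refine ⟨min (x - ⌊x / c⌋ * c) ((⌊x / c⌋ + 1) * c - x), lt_min (by linarith) (by linarith),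
        fun n hn => ?_⟩
      exfalso
      rw [lt_min_iff, abs_lt, abs_lt] at hn
      rcases le_or_gt (-n) ⌊x / c⌋ with b | b
      · have b' : (-n : ℝ) ≤ ⌊x / c⌋ := by exact_mod_cast b
        nlinarith [hn.1.2]
      · have b' : (⌊x / c⌋ + 1 : ℝ) ≤ -n := by exact_mod_cast b
        nlinarith [hn.2.1]
  obtain ⟨δ, hδ, h⟩ := key
  filter_upwards [Ioo_mem_nhdsGT hδ] with t ht n hn using h n (hn.trans ht.2)

theorem disc_fin (ρ : ℝ) : {k : ℤ | k ≠ 0 ∧ |(k : ℝ)| * Real.pi ≤ ρ + 10}.Finite := by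
  refine (finite_Icc (-⌈ρ + 10⌉) ⌈ρ + 10⌉).subset fun k hk => ?_
  have a : |(k : ℝ)| ≤ ⌈ρ + 10⌉ := by
    have b := Int.le_ceil (ρ + 10)
    have b2 := Real.pi_gt_three
    nlinarith [hk.2, abs_nonneg (k : ℝ)]
  rw [← Int.cast_abs] at a
  exact abs_le.1 (by exact_mod_cast a)

theorem disc : S_DISC := by
  intro σ ρ
  have h : ∀ᶠ δ in 𝓝[>] (0 : ℝ), ∀ k ∈ {k : ℤ | k ≠ 0 ∧ |(k : ℝ)| * Real.pi ≤ ρ + 10}, ∀ μ : ℂ,
      σ * exp (3 * kap * μ) = Sf (k * Real.pi) →
        (|μ.im| < δ → μ.im = 0) ∧ (|μ.re| < δ → μ.re = 0) := by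
    refine (eventually_all_finite (disc_fin ρ)).2 fun k hk => ?_
    obtain ⟨x, hx⟩ := disc_one σ _ (bnd_fold hk.1)
    have hc : 0 < Real.pi / 3 := by positivity
    filter_upwards [disc_lat x.im _ hc, disc_lat x.re _ hc] with δ h1 h2 μ hμ
    obtain ⟨n, hn⟩ := hx μ hμ
    have e1 : μ.im = x.im + n * (Real.pi / 3) := by
      rw [hn]
      simp [kap]
    have e2 : μ.re = x.re + n * (Real.pi / 3) := by
      rw [hn]
      simp [kap]
    rw [e1, e2]
    exact ⟨h1 n, h2 n⟩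
  obtain ⟨δ, h1, h2⟩ := (h.and self_mem_nhdsWithin).exists
  refine ⟨δ, h2, fun μ ⟨k, k0, k1, hk⟩ => ?_⟩
  have a := h1 k ⟨k0, k1⟩ μ hk
  exact ⟨a.1, fun hμ => Complex.ext (a.2 ((abs_re_le_norm μ).trans_lt hμ))
    (a.1 ((abs_im_le_norm μ).trans_lt hμ))⟩

/-- the fold times are countable -/
theorem disc_count (σ : ℂ) (ρ : ℝ) : (Sg σ ρ).Countable := by
  have h : ∀ k : ℤ, {μ : ℂ | k ≠ 0 ∧ σ * exp (3 * kap * μ) = Sf (k * Real.pi)}.Countable := by
    intro k
    by_cases hk : k = 0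
    · simp [hk]
    · obtain ⟨x, hx⟩ := disc_one σ _ (bnd_fold hk)
      refine (countable_range fun n : ℤ => x + n * ((Real.pi / 3 : ℝ) * kap)).mono fun μ hμ => ?_
      obtain ⟨n, hn⟩ := hx μ hμ.2
      exact ⟨n, hn.symm⟩
  refine (countable_iUnion h).mono fun μ hμ => ?_
  obtain ⟨k, k0, _, hk⟩ := hμ
  exact mem_iUnion.2 ⟨k, And.intro k0 hk⟩

theorem gen (CH : S_CH) : S_GEN := by
  intro g W₀ y ρ hg hy h0 h1
  obtain ⟨r, hr, E, hE, E0, hv⟩ := (CH g y hg hy h0 h1).1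
  have hd := ((disc_count (sg g W₀ y) ρ).image Complex.im).dense_compl ℝ
  have c1 : Tendsto (fun t : ℝ => -((t : ℂ) * I)) (𝓝 0) (𝓝 0) := by
    have : Continuous fun t : ℝ => -((t : ℂ) * I) := by fun_prop
    simpa using this.tendsto 0
  have c2 : Tendsto (fun t : ℝ => E (-((t : ℂ) * I))) (𝓝 0) (𝓝 y) := by
    rw [← E0]
    exact (hE.differentiableAt (ball_mem_nhds _ hr)).continuousAt.tendsto.comp c1
  refine c2.frequently (((mem_closure_iff_frequently.1 (hd 0)).and_eventually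
    (c1.eventually (ball_mem_nhds _ hr))).mono fun t ht τ ⟨k, k0, k1, hk⟩ => ht.1 ?_)
  refine ⟨τ + t * I, ⟨k, k0, k1, ?_⟩, by simp⟩
  rw [← hk]
  unfold sg
  rw [(hv _ ht.2).2.2]
  have e : exp (3 * kap * (τ + t * I)) = exp (-(kap * -(t * I))) ^ 3 * exp (3 * kap * τ) := by
    rw [← Complex.exp_nat_mul, ← Complex.exp_add]
    exact congrArg exp (by push_cast; ring)
  rw [e]
  ring

theorem dv : S_DV := by
  refine ⟨fun d hd => ?_, fun d D D' h h' => ?_, fun d D h => ?_⟩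
  · have hf : AnalyticAt ℂ Sf d := bnd_dif.analyticAt d
    have h : deriv Sf d ≠ 0 := by rwa [(bnd_der d).deriv]
    exact Classical.epsilon_spec (p := IsDv d)
      ⟨hf.hasStrictDerivAt.localInverse _ _ _ h, hf.analyticAt_localInverse h,
        HasStrictFDerivAt.localInverse_apply_image ..,
        hf.hasStrictDerivAt.eventually_right_inverse h,
        hf.hasStrictDerivAt.eventually_left_inverse h⟩
  · have c : Tendsto D' (𝓝 (Sf d)) (𝓝 d) := by
      have := h'.1.continuousAt.tendsto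
      rwa [h'.2.1] at this
    filter_upwards [c.eventually h.2.2.2, h'.2.2.1] with σ a b
    rwa [b] at a
  · have c : Tendsto Sf (𝓝 d) (𝓝 (Sf d)) := bnd_dif.continuous.tendsto d
    filter_upwards [c.eventually h.1.eventually_analyticAt, h.2.2.2,
      c.eventually h.2.2.1.eventually_nhds, h.2.2.2.eventually_nhds] with d' a1 a2 a3 a4
    exact ⟨a1, a2, a3, a4⟩

end Vale.Agent.P097F.J
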