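import Vale.Agent.P097Mo.Defs

/-!
# P097F.J: two obstacles of the model leaf are not linked (definitions and statements)

The step ratio moves on the spiral `W₀ * exp (kap * z)`, `z` near the positive real axis.
-/

set_option linter.all false

noncomputable section

namespace Vale.Agent.P097F.J

open Filter Topology Set Metric Complex MeasureTheory
open Vale.Agent.P097Mo (Sf)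

def kap : ℂ := 1 + I

/-- the lower half plane -/
def LH : Set ℂ := {y | y.im < 0}

/-- a thin rectangle round `[0, R]` -/
def Rc (R η : ℝ) : Set ℂ := {z | -η < z.re ∧ z.re < R + η ∧ |z.im| < η}

/-- the germ of `P` at `0` continues along the positive axis and tends to `0` -/
def Dec (P : ℂ → ℂ) : Prop := ∀ ε : ℝ, 0 < ε → ∀ᶠ R : ℝ in atTop, ∃ η : ℝ, 0 < η ∧
  ∃ F : ℂ → ℂ, DifferentiableOn ℂ F (Rc R η) ∧ F =ᶠ[𝓝 0] P ∧ ‖F R‖ ≤ ε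

/-- one side of the positive axis -/
def Sd (s δ : ℝ) : Set ℂ := {μ | -δ < μ.re ∧ 0 < s * μ.im ∧ s * μ.im < δ}

/-- holomorphic, bounded, small far to the right -/
def Dk (B : ℂ → ℂ) (C : Set ℂ) : Prop := DifferentiableOn ℂ B C ∧ (∃ M : ℝ, ∀ μ ∈ C, ‖B μ‖ ≤ M) ∧
  ∀ ε : ℝ, 0 < ε → ∃ R : ℝ, ∀ μ ∈ C, R ≤ μ.re → ‖B μ‖ ≤ ε

/-- a local biholomorphism on `U` -/
def Rg (f : ℂ → ℂ) (U : Set ℂ) : Prop :=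
  IsOpen U ∧ DifferentiableOn ℂ f U ∧ ∀ y ∈ U, deriv f y ≠ 0

/-- a lift of the path `c` through `f` on the set of times `T` -/
def Lft (f : ℂ → ℂ) (U : Set ℂ) (c : ℝ → ℂ) (y₀ : ℂ) (T : Set ℝ) (Γ : ℝ → ℂ) : Prop :=
  ContinuousOn Γ T ∧ MapsTo Γ T U ∧ (∀ t ∈ T, f (Γ t) = c t) ∧ Γ 0 = y₀

/-- off the critical points of `Sf` -/
def US : Set ℂ := {z | sin z ≠ 0}

/-- the times at which a fold of index at most `ρ + 10` may be met -/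
def Sg (σ : ℂ) (ρ : ℝ) : Set ℂ := {μ | ∃ k : ℤ, k ≠ 0 ∧ |(k : ℝ)| * Real.pi ≤ ρ + 10 ∧
  σ * exp (3 * kap * μ) = Sf (k * Real.pi)}

def sg (g : ℂ → ℂ) (W y : ℂ) : ℂ := (W * g y) ^ 3 / 24

def Ww (W₀ z : ℂ) : ℂ := W₀ * exp (kap * z)

/-- the trail from `y` is infinite and has finite length -/
def Desc (g : ℂ → ℂ) (y : ℂ) : Prop := ∃ Γ : ℝ → ℂ, ContinuousOn Γ (Ici 0) ∧ Γ 0 = y ∧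
  (∀ τ : ℝ, 0 ≤ τ → Γ τ ∈ LH ∧ deriv g (Γ τ) ≠ 0 ∧ g (Γ τ) = g y * exp (-(kap * τ))) ∧
  IntegrableOn (fun τ : ℝ => ‖g (Γ τ) ^ 2 / deriv g (Γ τ)‖) (Ici 0)

def Aim (g : ℂ → ℂ) (W₀ : ℂ) (ρ : ℝ) (y : ℂ) : Prop :=
  ∃ τ : ℝ, 0 ≤ τ ∧ (τ : ℂ) ∈ Sg (sg g W₀ y) ρ

def Gen (g : ℂ → ℂ) (W₀ : ℂ) (ρ : ℝ) (y : ℂ) : Prop := ∀ τ : ℝ, (τ : ℂ) ∉ Sg (sg g W₀ y) ρ

/-- a local inverse of `Sf` at `d` -/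
def IsDv (d : ℂ) (D : ℂ → ℂ) : Prop := AnalyticAt ℂ D (Sf d) ∧ D (Sf d) = d ∧
  (∀ᶠ σ in 𝓝 (Sf d), Sf (D σ) = σ) ∧ ∀ᶠ z in 𝓝 d, D (Sf z) = z

def Dv (d : ℂ) : ℂ → ℂ := Classical.epsilon (IsDv d)

/-- the time along a straight segment -/
def rho (g D : ℂ → ℂ) (W a b : ℂ) : ℂ := ∫ t in (0 : ℝ)..1,
  (b - a) * (g (a + t * (b - a)) * (2 * D (sg g W (a + t * (b - a))))⁻¹)

/-- a regular state -/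
def St (g : ℂ → ℂ) (W₀ : ℂ) (ρ : ℝ) (y d : ℂ) : Prop :=
  y ∈ LH ∧ g y ≠ 0 ∧ deriv g y ≠ 0 ∧ sin d ≠ 0 ∧ Sf d = sg g W₀ y ∧ ‖d‖ < ρ

/-- a family of model leaves in the variables `(x, W)` -/
structure Fam (g : ℂ → ℂ) (Ω : Set (ℂ × ℂ)) (Y D : ℂ × ℂ → ℂ) : Prop where
  op : IsOpen Ω
  cY : ContinuousOn Y Ω
  cD : ContinuousOn D Ω
  lh : MapsTo Y Ω LH
  ode : ∀ p ∈ Ω, ∃ Y' : ℂ, HasDerivAt (fun x => Y (x, p.2)) Y' p.1 ∧ p.2 * g (Y p) * Y' = 2 * D p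
  law : ∀ p ∈ Ω, Sf (D p) = sg g p.2 (Y p)

/-- a continuous family of paths whose states extend to the ends -/
structure Pth (g : ℂ → ℂ) (Ω : Set (ℂ × ℂ)) (Y D : ℂ × ℂ → ℂ) (W₀ : ℂ) (ρ : ℝ) (V : Set ℂ)
    (ξ y d : ℝ × ℂ → ℂ) : Prop where
  nb : V ∈ 𝓝 W₀
  cx : ContinuousOn ξ (Icc 0 1 ×ˢ V)
  cy : ContinuousOn y (Icc 0 1 ×ˢ V)
  cd : ContinuousOn d (Icc 0 1 ×ˢ V)
  mem : ∀ t ∈ Ioo (0 : ℝ) 1, ∀ W ∈ V,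
    (ξ (t, W), W) ∈ Ω ∧ y (t, W) = Y (ξ (t, W), W) ∧ d (t, W) = D (ξ (t, W), W)
  reg : ∀ t ∈ Ioo (0 : ℝ) 1, St g W₀ ρ (y (t, W₀)) (d (t, W₀))
  aim : ∀ t ∈ Icc (0 : ℝ) 1, Aim g W₀ ρ (y (t, W₀)) → Desc g (y (t, W₀))

/-- the common part of the two kinds of obstacles -/
def Ob0 (g : ℂ → ℂ) (ρ : ℝ) (y d : ℂ) : Prop := y ∈ LH ∧ deriv g y ≠ 0 ∧ d ≠ 0 ∧ ‖d‖ < ρ

/-- the end `e` of the paths is an obstacle -/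
def Ob (g : ℂ → ℂ) (W₀ : ℂ) (ρ : ℝ) (V : Set ℂ) (y d : ℝ × ℂ → ℂ) (e : ℝ) : Prop :=
  Ob0 g ρ (y (e, W₀)) (d (e, W₀)) ∧ ((∀ W ∈ V, g (y (e, W)) = 0) ∨ ∀ W ∈ V, sin (d (e, W)) = 0)

/-- the time from `X` to the generic nodes near the point of parameter `t` decays -/
def Gd (g : ℂ → ℂ) (W₀ : ℂ) (ρ : ℝ) (ξ y d : ℝ × ℂ → ℂ) (X : ℂ → ℂ) (t : ℝ) : Prop :=
  ∀ᶠ b in 𝓝 (y (t, W₀)), Gen g W₀ ρ b → Dec fun z => (ξ (t, Ww W₀ z) - X (Ww W₀ z)) / Ww W₀ z +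
    rho g (Dv (d (t, W₀))) (Ww W₀ z) (y (t, Ww W₀ z)) b

/-- the statement of the block -/
def Spec_J0 : Prop := ∀ (g : ℂ → ℂ) (Ω : Set (ℂ × ℂ)) (Y D : ℂ × ℂ → ℂ) (W₀ c : ℂ) (ρ : ℝ)
  (V : Set ℂ) (ξ y d : ℝ × ℂ → ℂ), DifferentiableOn ℂ g LH → W₀ ≠ 0 → Fam g Ω Y D →
  Pth g Ω Y D W₀ ρ V ξ y d → Ob g W₀ ρ V y d 0 → Ob g W₀ ρ V y d 1 →
  (∀ᶠ W in 𝓝 W₀, ξ (1, W) - ξ (0, W) = c * W) → c = 0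

/-! ## The rows -/

def S_UNIQ : Prop := ∀ (f : ℂ → ℂ) (U : Set ℂ) (X : Type) [TopologicalSpace X] (T : Set X)
  (Γ₁ Γ₂ : X → ℂ) (x₀ : X), Rg f U → IsPreconnected T → ContinuousOn Γ₁ T → ContinuousOn Γ₂ T →
  MapsTo Γ₁ T U → (∀ x ∈ T, f (Γ₁ x) = f (Γ₂ x)) → x₀ ∈ T → Γ₁ x₀ = Γ₂ x₀ → EqOn Γ₁ Γ₂ T

def S_THIN : Prop := ∀ (f h : ℂ → ℂ) (U : Set ℂ) (p q y₀ : ℂ) (Γ : ℝ → ℂ), Rg f U →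
  Differentiable ℂ h → p ≠ q → InjOn h (segment ℝ p q) →
  Lft f U (fun t => h (p + t * (q - p))) y₀ (Icc 0 1) Γ →
  ∃ δ : ℝ, 0 < δ ∧ ∃ φ : ℂ → ℂ, DifferentiableOn ℂ φ (thickening δ (segment ℝ p q)) ∧
    (∀ m ∈ thickening δ (segment ℝ p q), φ m ∈ U ∧ f (φ m) = h m) ∧
    ∀ t ∈ Icc (0 : ℝ) 1, φ (p + t * (q - p)) = Γ t

def S_STAR : Prop := ∀ (f h : ℂ → ℂ) (U C : Set ℂ) (p y₀ : ℂ), Rg f U → Differentiable ℂ h →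
  IsOpen C → Convex ℝ C → p ∈ C → InjOn h C → y₀ ∈ U → f y₀ = h p →
  (∀ q ∈ C, ∃ Γ, Lft f U (fun t => h (p + t * (q - p))) y₀ (Icc 0 1) Γ) →
  ∃ φ : ℂ → ℂ, DifferentiableOn ℂ φ C ∧ (∀ m ∈ C, φ m ∈ U ∧ f (φ m) = h m) ∧ φ p = y₀

def S_RAY : Prop := ∀ (g : ℂ → ℂ) (y : ℂ), DifferentiableOn ℂ g LH → g y ≠ 0 → Desc g y →
  ∃ (O : Set ℂ) (E : ℂ → ℂ), IsOpen O ∧ (∀ t : ℝ, 0 ≤ t → (t : ℂ) ∈ O) ∧ DifferentiableOn ℂ E O ∧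
    (∀ ζ ∈ O, E ζ ∈ LH ∧ deriv g (E ζ) ≠ 0 ∧ g (E ζ) = g y * exp (-(kap * ζ))) ∧ E 0 = y ∧
    IntegrableOn (fun t : ℝ => ‖g (E t) * deriv E t‖) (Ici 0)

/-- a chart without a trail, and the chart covers a neighbourhood -/
def S_CH : Prop := ∀ (g : ℂ → ℂ) (y : ℂ), DifferentiableOn ℂ g LH → y ∈ LH → g y ≠ 0 →
  deriv g y ≠ 0 →
  (∃ r : ℝ, 0 < r ∧ ∃ E : ℂ → ℂ, DifferentiableOn ℂ E (ball 0 r) ∧ E 0 = y ∧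
    ∀ ζ ∈ ball (0 : ℂ) r, E ζ ∈ LH ∧ deriv g (E ζ) ≠ 0 ∧ g (E ζ) = g y * exp (-(kap * ζ))) ∧
  ∀ (r : ℝ) (E : ℂ → ℂ), 0 < r → DifferentiableOn ℂ E (ball 0 r) → E 0 = y →
    (∀ ζ ∈ ball (0 : ℂ) r, g (E ζ) = g y * exp (-(kap * ζ))) →
    ∀ᶠ b in 𝓝 y, ∃ a ∈ ball (0 : ℂ) r, E a = b

def S_LIFT : Prop := ∀ (f : ℂ → ℂ) (U : Set ℂ) (c : ℝ → ℂ) (y₀ : ℂ), Rg f U →
  ContinuousOn c (Icc 0 1) → y₀ ∈ U → f y₀ = c 0 →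
  (∀ T ∈ Ioc (0 : ℝ) 1, ∀ Γ, Lft f U c y₀ (Ico 0 T) Γ → ∃ z ∈ U, MapClusterPt z (𝓝[<] T) Γ) →
  ∃ Γ, Lft f U c y₀ (Icc 0 1) Γ

def S_TRAP : Prop := ∀ (ρ : ℝ) (d v : ℂ), d ∈ US → ‖d‖ ≤ ρ → ‖v‖ ≤ 2 * v.re →
  (∀ k : ℤ, k ≠ 0 → |(k : ℝ)| * Real.pi ≤ ρ + 10 → ∀ t ∈ Icc (0 : ℝ) 1,
    Sf d * exp (t * v) ≠ Sf (k * Real.pi)) → Sf d ≠ 0 →
  ∃ Γ, Lft Sf US (fun t => Sf d * exp (t * v)) d (Icc 0 1) Γ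

def S_BND : Prop := Rg Sf US ∧ (∀ z, HasDerivAt Sf (z * sin z) z) ∧
  (∀ ε : ℝ, 0 < ε → ∃ R : ℝ, ∀ z, R ≤ ‖Sf z‖ → ‖(2 * z)⁻¹‖ ≤ ε) ∧
  (∀ r : ℝ, 0 < r → ∃ M : ℝ, ∀ z, r ≤ ‖Sf z‖ → ‖(2 * z)⁻¹‖ ≤ M) ∧
  ∀ k : ℤ, k ≠ 0 → Sf (k * Real.pi) ≠ 0

def S_DISC : Prop := ∀ (σ : ℂ) (ρ : ℝ), ∃ δ : ℝ, 0 < δ ∧
  ∀ μ ∈ Sg σ ρ, (|μ.im| < δ → μ.im = 0) ∧ (‖μ‖ < δ → μ = 0)

def S_GEN : Prop := ∀ (g : ℂ → ℂ) (W₀ y : ℂ) (ρ : ℝ), DifferentiableOn ℂ g LH → y ∈ LH →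
  g y ≠ 0 → deriv g y ≠ 0 → ∃ᶠ b in 𝓝 y, Gen g W₀ ρ b

def S_DV : Prop := (∀ d : ℂ, d * sin d ≠ 0 → IsDv d (Dv d)) ∧
  (∀ d D D', IsDv d D → IsDv d D' → D =ᶠ[𝓝 (Sf d)] D') ∧
  ∀ d D, IsDv d D → ∀ᶠ d' in 𝓝 d, IsDv d' D

def S_PURE : Prop := ∀ (T : Set ℝ) (a φ : ℝ → ℂ) (B : ℂ → ℂ) (C : Set ℂ) (η : ℝ),
  MeasurableSet T → IntegrableOn a T → ContinuousOn φ T → IsOpen C → Dk B C → 0 < η →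
  (∀ t ∈ T, ∀ z : ℂ, -η < z.re → |z.im| < η → φ t + z ∈ C) →
  Dec fun z => ∫ t in T, a t * B (φ t + z)

/-- primitives on convex sets -/
def S_PRIM : Prop := ∀ (f : ℂ → ℂ) (C : Set ℂ), IsOpen C → Convex ℝ C → DifferentiableOn ℂ f C →
  ∃ G : ℂ → ℂ, (∀ z ∈ C, HasDerivAt G (f z) z) ∧ ∀ a ∈ C, ∀ b ∈ C,
    ∫ t in (0 : ℝ)..1, (b - a) * f (a + t * (b - a)) = G b - G a

def S_STRAND : Prop := ∀ (s δ : ℝ) (A B : ℂ → ℂ) (O : Set ℂ) (a : ℂ), (s = 1 ∨ s = -1) → 0 < δ →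
  IsOpen O → (∀ t : ℝ, 0 ≤ t → (t : ℂ) ∈ O) → ball 0 δ ⊆ O → DifferentiableOn ℂ A O →
  IntegrableOn (fun t : ℝ => ‖A t‖) (Ici 0) → Dk B (Sd s δ) → ‖a‖ < δ / 2 → s * a.im < 0 →
  Dec fun z => ∫ u in (0 : ℝ)..1, (z - a) * (A (a + u * (z - a)) * B ((1 - u) * (z - a)))

def S_BEXT : Prop := ∀ (σ p : ℂ) (ρ r : ℝ) (C : Set ℂ) (Δ₀ : ℂ → ℂ), σ ≠ 0 → 0 < r → r ≤ 1 →
  IsOpen C → Convex ℝ C → (∀ μ ∈ C, |μ.im| < r / 10) → Disjoint C (Sg σ ρ) → p ∈ C →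
  ‖p‖ < r / 10 → DifferentiableOn ℂ Δ₀ (C ∩ {μ | μ.re < r}) →
  (∀ μ ∈ C, μ.re < r → Δ₀ μ ∈ US ∧ Sf (Δ₀ μ) = σ * exp (3 * kap * μ)) → ‖Δ₀ p‖ ≤ ρ →
  (∃ M : ℝ, ∀ μ ∈ C, μ.re < r → ‖(2 * Δ₀ μ)⁻¹‖ ≤ M) →
  ∃ B : ℂ → ℂ, Dk B C ∧ ∀ μ ∈ C, μ.re < r → B μ = (2 * Δ₀ μ)⁻¹

def S_RHO : Prop := ∀ (g D : ℂ → ℂ) (W₀ y : ℂ), DifferentiableOn ℂ g LH → y ∈ LH →
  AnalyticAt ℂ D (sg g W₀ y) → D (sg g W₀ y) ≠ 0 → ∃ r : ℝ, 0 < r ∧ ball y r ⊆ LH ∧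
    ∀ᶠ W in 𝓝 W₀, ∃ G : ℂ → ℂ,
      (∀ b ∈ ball y r, D (sg g W b) ≠ 0 ∧ HasDerivAt G (g b * (2 * D (sg g W b))⁻¹) b) ∧
      ∀ a ∈ ball y r, ∀ b ∈ ball y r, rho g D W a b = G b - G a

def S_LOC : Prop := ∀ (g : ℂ → ℂ) (W₀ y d : ℂ) (ρ : ℝ), DifferentiableOn ℂ g LH → W₀ ≠ 0 →
  St g W₀ ρ y d → (Aim g W₀ ρ y → Desc g y) → ∀ᶠ p : ℂ × ℂ in 𝓝 (y, y),
    Gen g W₀ ρ p.1 → Gen g W₀ ρ p.2 → Dec fun z => rho g (Dv d) (Ww W₀ z) p.1 p.2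

def S_STEP : Prop := ∀ (g : ℂ → ℂ) (Ω : Set (ℂ × ℂ)) (Y D : ℂ × ℂ → ℂ) (W₀ : ℂ) (ρ : ℝ)
  (V : Set ℂ) (ξ y d : ℝ × ℂ → ℂ) (X : ℂ → ℂ), DifferentiableOn ℂ g LH → W₀ ≠ 0 → Fam g Ω Y D →
  Pth g Ω Y D W₀ ρ V ξ y d → ∀ t₀ ∈ Ioo (0 : ℝ) 1, ∀ᶠ t in 𝓝 t₀,
    (Gd g W₀ ρ ξ y d X t ↔ Gd g W₀ ρ ξ y d X t₀)

def S_ZEND : Prop := ∀ (g : ℂ → ℂ) (Ω : Set (ℂ × ℂ)) (Y D : ℂ × ℂ → ℂ) (W₀ : ℂ) (ρ : ℝ)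
  (V : Set ℂ) (ξ y d : ℝ × ℂ → ℂ), DifferentiableOn ℂ g LH → W₀ ≠ 0 → Fam g Ω Y D →
  Pth g Ω Y D W₀ ρ V ξ y d → Ob0 g ρ (y (0, W₀)) (d (0, W₀)) → (∀ W ∈ V, g (y (0, W)) = 0) →
  ∃ t ∈ Ioo (0 : ℝ) 1, Gd g W₀ ρ ξ y d (fun W => ξ (0, W)) t

def S_FEND : Prop := ∀ (g : ℂ → ℂ) (Ω : Set (ℂ × ℂ)) (Y D : ℂ × ℂ → ℂ) (W₀ : ℂ) (ρ : ℝ)
  (V : Set ℂ) (ξ y d : ℝ × ℂ → ℂ), DifferentiableOn ℂ g LH → W₀ ≠ 0 → Fam g Ω Y D →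
  Pth g Ω Y D W₀ ρ V ξ y d → Ob0 g ρ (y (0, W₀)) (d (0, W₀)) → (∀ W ∈ V, sin (d (0, W)) = 0) →
  ∃ t ∈ Ioo (0 : ℝ) 1, Gd g W₀ ρ ξ y d (fun W => ξ (0, W)) t

/-- the branch near a fold on one side of the axis -/
def S_HALF : Prop := ∀ (k : ℤ) (ε : ℝ), k ≠ 0 → 0 < ε → ∃ r : ℝ, 0 < r ∧ r ≤ 1 ∧
  ∀ᶠ d in 𝓝 ((k : ℂ) * Real.pi), ∀ (s : ℝ) (p : ℂ), (s = 1 ∨ s = -1) → p ∈ Sd s (r / 10) →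
    ‖p‖ < r / 10 → Sf d = Sf (k * Real.pi) * exp (3 * kap * p) →
    ∃ Δ : ℂ → ℂ, DifferentiableOn ℂ Δ (Sd s (r / 10) ∩ {μ | μ.re < r}) ∧ Δ p = d ∧
      (∀ μ ∈ Sd s (r / 10), μ.re < r → Δ μ ∈ US ∧ ‖Δ μ - k * Real.pi‖ < ε ∧
        Sf (Δ μ) = Sf (k * Real.pi) * exp (3 * kap * μ)) ∧
      Tendsto Δ (𝓝[Sd s (r / 10) ∩ {μ | μ.re < r}] 0) (𝓝 ((k : ℂ) * Real.pi))

theorem Dec.congr {P Q : ℂ → ℂ} (h : Dec P) (e : P =ᶠ[𝓝 0] Q) : Dec Q := fun ε hε =>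
  (h ε hε).mono fun R ⟨η, hη, F, hF, hP, hR⟩ => ⟨η, hη, F, hF, hP.trans e, hR⟩

theorem Rc_mono {R η η' : ℝ} (h : η ≤ η') : Rc R η ⊆ Rc R η' := fun z ⟨a, b, c⟩ =>
  ⟨by linarith, by linarith, by linarith⟩

theorem Dec.add {P Q : ℂ → ℂ} (h : Dec P) (k : Dec Q) : Dec fun z => P z + Q z := by
  intro ε hε
  filter_upwards [h (ε / 2) (by linarith), k (ε / 2) (by linarith)] with R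
    ⟨η, hη, F, hF, hP, hR⟩ ⟨η', hη', F', hF', hP', hR'⟩
  refine ⟨min η η', lt_min hη hη', fun z => F z + F' z,
    (hF.mono (Rc_mono (min_le_left _ _))).add (hF'.mono (Rc_mono (min_le_right _ _))), ?_, ?_⟩
  · filter_upwards [hP, hP'] with z a b
    rw [a, b]
  · exact (norm_add_le _ _).trans (by linarith)

theorem Dec.neg {P : ℂ → ℂ} (h : Dec P) : Dec fun z => -P z := by
  intro ε hε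
  filter_upwards [h ε hε] with R ⟨η, hη, F, hF, hP, hR⟩
  refine ⟨η, hη, fun z => -F z, hF.neg, ?_, by simpa using hR⟩
  filter_upwards [hP] with z a
  rw [a]

theorem Dec.sub {P Q : ℂ → ℂ} (h : Dec P) (k : Dec Q) : Dec fun z => P z - Q z := by
  simpa [sub_eq_add_neg] using h.add k.neg

theorem Dec.const {c : ℂ} (h : Dec fun _ => c) : c = 0 := by
  refine norm_le_zero_iff.1 (le_of_forall_pos_le_add fun ε hε => ?_)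
  obtain ⟨R, ⟨η, hη, F, hF, hP, hR⟩, R0⟩ := ((h ε hε).and (eventually_ge_atTop 0)).exists
  have ho : IsOpen (Rc R η) := by
    refine (isOpen_lt continuous_const continuous_re).inter
      ((isOpen_lt continuous_re continuous_const).inter ?_)
    exact isOpen_lt (continuous_abs.comp continuous_im) continuous_const
  have hc : Convex ℝ (Rc R η) := by
    have e : Rc R η = ({z : ℂ | -η < z.re} ∩ {z : ℂ | z.re < R + η}) ∩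
        ({z : ℂ | -η < z.im} ∩ {z : ℂ | z.im < η}) := by
      ext z
      simp only [Rc, mem_setOf_eq, mem_inter_iff, abs_lt, and_assoc]
    rw [e]
    exact ((convex_halfSpace_re_gt _).inter (convex_halfSpace_re_lt _)).inter
      ((convex_halfSpace_im_gt _).inter (convex_halfSpace_im_lt _))
  have h0 : (0 : ℂ) ∈ Rc R η := ⟨by simpa using hη, by simp; linarith, by simpa using hη⟩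
  have hR' : (R : ℂ) ∈ Rc R η := ⟨by simp; linarith, by simpa using hη, by simpa using hη⟩
  have := (hF.analyticOnNhd ho).eqOn_of_preconnected_of_eventuallyEq
    (analyticOnNhd_const (v := c)) hc.isPreconnected h0 hP hR'
  have e : F R = c := this
  rw [zero_add, ← e]
  exact hR

end Vale.Agent.P097F.J
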