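import Vale.Agent.P097F.J.Defs

/-!
# P097F.J: the end of the path at a fold
-/

set_option linter.all false

noncomputable section

namespace Vale.Agent.P097F.J

open Filter Topology Set Metric Complex MeasureTheory
open Vale.Agent.P097Mo (Sf)

namespace Fend

lemma kap0 : kap ≠ 0 := fun h => by simpa [kap] using congrArg Complex.re h

lemma lh_op : IsOpen LH := isOpen_lt continuous_im continuous_const

lemma dSf : Differentiable ℂ Sf := by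
  unfold Sf
  fun_prop

lemma bconst {h : ℂ → ℂ} {x a b : ℂ} {r : ℝ} (H : ∀ w ∈ ball x r, HasDerivAt h 0 w)
    (ha : a ∈ ball x r) (hb : b ∈ ball x r) : h a = h b :=
  isOpen_ball.is_const_of_deriv_eq_zero (convex_ball x r).isPreconnected
    (fun w hw => (H w hw).differentiableAt.differentiableWithinAt) (fun w hw => (H w hw).deriv) ha hb

/-- the time of a half angle -/
def mu (σ δ : ℂ) : ℂ := log (Sf δ / σ) / (3 * kap)

def AA (g E : ℂ → ℂ) (ζ : ℂ) : ℂ := g (E ζ) * deriv E ζ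

/-- the integrand in the coordinate of the half angle -/
def ff (g E : ℂ → ℂ) (σ z δ : ℂ) : ℂ := -(AA g E (z - mu σ δ) * deriv (mu σ) δ) * (2 * δ)⁻¹

/-- the local data at the fold -/
structure Lc (g E : ℂ → ℂ) (W₀ y₀ σ c : ℂ) (η δ₁ e : ℝ) : Prop where
  dg : DifferentiableOn ℂ g LH
  W0 : W₀ ≠ 0
  σ0 : σ ≠ 0
  hσ : σ = sg g W₀ y₀
  lh : ball y₀ η ⊆ LH
  inj : InjOn (fun y => g y ^ 3) (ball y₀ η)
  dE : DifferentiableOn ℂ E (ball 0 δ₁)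
  val : ∀ ζ ∈ ball (0 : ℂ) δ₁, E ζ ∈ ball y₀ η ∧ g (E ζ) = g y₀ * exp (-(kap * ζ))
  ang : ∀ δ ∈ ball c e, Sf δ / σ ∈ slitPlane ∧ ‖mu σ δ‖ < δ₁ / 2 ∧ 1 ≤ ‖δ‖

variable {g E : ℂ → ℂ} {W₀ y₀ σ c z : ℂ} {η δ₁ e : ℝ}

lemma exp_mu (σ0 : σ ≠ 0) {δ : ℂ} (h : Sf δ / σ ∈ slitPlane) :
    σ * exp (3 * kap * mu σ δ) = Sf δ := by
  have := kap0
  rw [mu, show 3 * kap * (log (Sf δ / σ) / (3 * kap)) = log (Sf δ / σ) by field_simp,
    exp_log (slitPlane_ne_zero h)]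
  field_simp

namespace Lc

lemma sgE (H : Lc g E W₀ y₀ σ c η δ₁ e) (z : ℂ) {ζ : ℂ} (h : ζ ∈ ball (0 : ℂ) δ₁) :
    sg g (Ww W₀ z) (E ζ) = σ * exp (3 * kap * (z - ζ)) := by
  rw [H.hσ, sg, sg, Ww, (H.val ζ h).2, show 3 * kap * (z - ζ) =
    (3 : ℕ) * (kap * z) + (3 : ℕ) * (-(kap * ζ)) by push_cast; ring, exp_add, exp_nat_mul,
    exp_nat_mul]
  ring

lemma mem (H : Lc g E W₀ y₀ σ c η δ₁ e) (hz : ‖z‖ < δ₁ / 2) {δ : ℂ} (hδ : δ ∈ ball c e) :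
    z - mu σ δ ∈ ball (0 : ℂ) δ₁ := by
  have := (H.ang δ hδ).2.1
  rw [mem_ball_zero_iff]
  linarith [norm_sub_le z (mu σ δ)]

lemma dmu (H : Lc g E W₀ y₀ σ c η δ₁ e) : DifferentiableOn ℂ (mu σ) (ball c e) :=
  ((dSf.differentiableOn.div_const σ).clog fun δ hδ => (H.ang δ hδ).1).div_const _

lemma dA (H : Lc g E W₀ y₀ σ c η δ₁ e) : DifferentiableOn ℂ (AA g E) (ball 0 δ₁) :=
  (H.dg.comp H.dE fun ζ h => H.lh (H.val ζ h).1).mul (H.dE.deriv isOpen_ball)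

lemma ne (H : Lc g E W₀ y₀ σ c η δ₁ e) {δ : ℂ} (hδ : δ ∈ ball c e) : δ ≠ 0 :=
  norm_pos_iff.1 (one_pos.trans_le (H.ang δ hδ).2.2)

lemma dff (H : Lc g E W₀ y₀ σ c η δ₁ e) (hz : ‖z‖ < δ₁ / 2) :
    DifferentiableOn ℂ (ff g E σ z) (ball c e) :=
  ((H.dA.comp (H.dmu.const_sub z) fun δ hδ => H.mem hz hδ).mul (H.dmu.deriv isOpen_ball)).neg.mul
    ((differentiableOn_id.const_mul 2).inv fun δ hδ => mul_ne_zero two_ne_zero (H.ne hδ))

/-- the point is a function of the half angle -/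
lemma st (H : Lc g E W₀ y₀ σ c η δ₁ e) (hz : ‖z‖ < δ₁ / 2) {y δ : ℂ} (hy : y ∈ ball y₀ η)
    (hδ : δ ∈ ball c e) (h : Sf δ = sg g (Ww W₀ z) y) : y = E (z - mu σ δ) := by
  have m := H.mem hz hδ
  have h1 := H.sgE z m
  rw [sub_sub_cancel, exp_mu H.σ0 (H.ang δ hδ).1, h, sg, sg] at h1
  have w : Ww W₀ z ^ 3 ≠ 0 := pow_ne_zero 3 (mul_ne_zero H.W0 (exp_ne_zero _))
  refine H.inj hy (H.val _ m).1 (mul_left_cancel₀ w ?_)
  linear_combination (-24) * h1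

/-- the primitive along a holomorphic curve of states -/
lemma der (H : Lc g E W₀ y₀ σ c η δ₁ e) (hz : ‖z‖ < δ₁ / 2) {Ψ Y D : ℂ → ℂ} {Y' s : ℂ}
    (hΨ : ∀ δ ∈ ball c e, HasDerivAt Ψ (ff g E σ z δ) δ) (hY : HasDerivAt Y Y' s)
    (hD : DifferentiableAt ℂ D s) (h : ∀ᶠ s' in 𝓝 s, Y s' ∈ ball y₀ η ∧ D s' ∈ ball c e ∧
      Sf (D s') = sg g (Ww W₀ z) (Y s')) :
    HasDerivAt (fun s => Ψ (D s)) (g (Y s) * Y' * (2 * D s)⁻¹) s := by
  have e1 : Y =ᶠ[𝓝 s] fun s => E (z - mu σ (D s)) := h.mono fun s' h => H.st hz h.1 h.2.1 h.2.2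
  have m := h.self_of_nhds.2.1
  have m' := H.mem hz m
  have d1 := ((H.dmu _ m).differentiableAt (isOpen_ball.mem_nhds m)).hasDerivAt.comp s hD.hasDerivAt
  have d2 := ((H.dE _ m').differentiableAt (isOpen_ball.mem_nhds m')).hasDerivAt.comp s
    (d1.const_sub z)
  have e2 := hY.unique (d2.congr_of_eventuallyEq e1)
  refine ((hΨ _ m).comp s hD.hasDerivAt).congr_deriv ?_
  rw [e2, e1.eq_of_nhds, ff, AA]
  ring

/-- the time along the path -/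
lemma path (H : Lc g E W₀ y₀ σ c η δ₁ e) (hz : ‖z‖ < δ₁ / 2) {Ψ : ℂ → ℂ}
    (hΨ : ∀ δ ∈ ball c e, HasDerivAt Ψ (ff g E σ z δ) δ) {Ω : Set (ℂ × ℂ)} {Y D : ℂ × ℂ → ℂ}
    {ρ t₀ : ℝ} {V : Set ℂ} {ξ y d : ℝ × ℂ → ℂ} {W : ℂ} (hW : W = Ww W₀ z) (F : Fam g Ω Y D)
    (P : Pth g Ω Y D W₀ ρ V ξ y d) (hV : W ∈ V) (t0 : 0 < t₀) (t1 : t₀ < 1)
    (h : ∀ t ∈ Icc 0 t₀, y (t, W) ∈ ball y₀ η ∧ d (t, W) ∈ ball c e) :
    (ξ (t₀, W) - ξ (0, W)) / W = Ψ (d (t₀, W)) - Ψ (d (0, W)) := by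
  have W0 : W ≠ 0 := hW ▸ mul_ne_zero H.W0 (exp_ne_zero _)
  have sl : Continuous fun x : ℂ => (x, W) := continuous_id.prodMk continuous_const
  have sl' : Continuous fun t : ℝ => (t, W) := continuous_id.prodMk continuous_const
  have o1 : IsOpen {x : ℂ | (x, W) ∈ Ω} := F.op.preimage sl
  have dY : DifferentiableOn ℂ (fun x => Y (x, W)) {x : ℂ | (x, W) ∈ Ω} := fun x hx =>
    (F.ode _ hx).choose_spec.1.differentiableAt.differentiableWithinAt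
  have dD : DifferentiableOn ℂ (fun x => D (x, W)) {x : ℂ | (x, W) ∈ Ω} := by
    refine ((((H.dg.comp dY fun x hx => F.lh hx).const_mul W).mul (dY.deriv o1)).div_const 2).congr
      fun x hx => ?_
    obtain ⟨Y', h1, h2⟩ := F.ode _ hx
    have := h1.deriv
    simp only [Function.comp, Pi.mul_apply] at this h2 ⊢
    rw [this, h2]
    ring
  have o2 : IsOpen {x : ℂ | (x, W) ∈ Ω ∧ Y (x, W) ∈ ball y₀ η ∧ D (x, W) ∈ ball c e} := by
    have := (dY.continuousOn.prodMk dD.continuousOn).isOpen_inter_preimage o1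
      ((isOpen_ball (x := y₀) (ε := η)).prod (isOpen_ball (x := c) (ε := e)))
    exact this
  have d0 : ∀ x : ℂ, (x, W) ∈ Ω ∧ Y (x, W) ∈ ball y₀ η ∧ D (x, W) ∈ ball c e →
      HasDerivAt (fun x => x / W - Ψ (D (x, W))) 0 x := fun x hx => by
    obtain ⟨Y', h1, h2⟩ := F.ode _ hx.1
    have := H.der hz hΨ h1 ((dD x hx.1).differentiableAt (o1.mem_nhds hx.1))
      (Filter.eventually_of_mem (o2.mem_nhds hx) fun x hx =>
        ⟨hx.2.1, hx.2.2, hW ▸ F.law _ hx.1⟩)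
    refine (((hasDerivAt_id x).div_const W).sub this).congr_deriv ?_
    have n := H.ne hx.2.2
    simp only at h2 ⊢
    field_simp
    linear_combination -h2
  have sub : MapsTo (fun t : ℝ => (t, W)) (Icc 0 1) (Icc 0 1 ×ˢ V) := fun t ht => ⟨ht, hV⟩
  have cξ := P.cx.comp sl'.continuousOn sub
  have cd := P.cd.comp sl'.continuousOn sub
  have inc : Icc 0 t₀ ⊆ Icc (0 : ℝ) 1 := Icc_subset_Icc_right t1.le
  have cΨ : ContinuousOn Ψ (ball c e) := fun δ hδ => (hΨ δ hδ).continuousAt.continuousWithinAt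
  have := intervalIntegral.integral_eq_sub_of_hasDerivAt_of_le
    (f := fun t => ξ (t, W) / W - Ψ (d (t, W))) (f' := fun _ => 0) t0.le
    (((cξ.mono inc).div_const W).sub (cΨ.comp (cd.mono inc) fun t ht => (h t ht).2))
    (fun t ht => ?_) intervalIntegrable_const
  · simp only [intervalIntegral.integral_zero] at this
    rw [sub_div]
    linear_combination -this
  have ht' : t ∈ Ioo (0 : ℝ) 1 := ⟨ht.1, ht.2.trans t1⟩
  obtain ⟨m1, m2, m3⟩ := P.mem t ht' W hV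
  obtain ⟨m4, m5⟩ := h t (Ioo_subset_Icc_self ht)
  obtain ⟨r, r0, hr⟩ := Metric.isOpen_iff.1 o2 (ξ (t, W)) ⟨m1, m2 ▸ m4, m3 ▸ m5⟩
  have c1 : ContinuousAt (fun t => ξ (t, W)) t := cξ.continuousAt (Icc_mem_nhds ht'.1 ht'.2)
  refine (hasDerivAt_const t (ξ (t, W) / W - Ψ (D (ξ (t, W), W)))).congr_of_eventuallyEq ?_
  filter_upwards [c1.eventually (ball_mem_nhds _ r0), Ioo_mem_nhds ht'.1 ht'.2] with u h1 h2
  rw [(P.mem u h2 W hV).2.2]
  exact bconst (fun w hw => d0 w (hr hw)) h1 (mem_ball_self r0)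

/-- the time along a straight segment -/
lemma seg (H : Lc g E W₀ y₀ σ c η δ₁ e) (hz : ‖z‖ < δ₁ / 2) {Ψ D G : ℂ → ℂ}
    (hΨ : ∀ δ ∈ ball c e, HasDerivAt Ψ (ff g E σ z δ) δ) {W y₁ a b : ℂ} {r : ℝ}
    (hW : W = Ww W₀ z) (h : ∀ w ∈ ball y₁ r, w ∈ ball y₀ η ∧ D (sg g W w) ∈ ball c e ∧
      Sf (D (sg g W w)) = sg g W w ∧ DifferentiableAt ℂ D (sg g W w))
    (hG : ∀ w ∈ ball y₁ r, HasDerivAt G (g w * (2 * D (sg g W w))⁻¹) w) (ha : a ∈ ball y₁ r)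
    (hb : b ∈ ball y₁ r) : G b - G a = Ψ (D (sg g W b)) - Ψ (D (sg g W a)) := by
  have := bconst (h := fun w => G w - Ψ (D (sg g W w))) (fun w hw => ?_) ha hb
  · linear_combination -this
  have l := H.lh (h w hw).1
  have d1 : DifferentiableAt ℂ (sg g W) w :=
    ((((H.dg w l).differentiableAt (lh_op.mem_nhds l)).const_mul W).pow 3).div_const 24
  have := H.der hz hΨ (hasDerivAt_id w) ((h w hw).2.2.2.comp w d1)
    (Filter.eventually_of_mem (isOpen_ball.mem_nhds hw) fun w hw =>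
      ⟨(h w hw).1, (h w hw).2.1, hW ▸ (h w hw).2.2.1⟩)
  exact ((hG w hw).sub this).congr_deriv (by simp)

/-- the time along the strand -/
lemma str (H : Lc g E W₀ y₀ σ c η δ₁ e) (hz : ‖z‖ < δ₁ / 2) {Ψ Δ B : ℂ → ℂ} {C : Set ℂ} {a : ℂ}
    (hΨ : ∀ δ ∈ ball c e, HasDerivAt Ψ (ff g E σ z δ) δ) (e0 : 0 < e) (ha : ‖a‖ < δ₁ / 2)
    (oC : IsOpen C) (dΔ : DifferentiableOn ℂ Δ C)
    (hΔ : ∀ μ ∈ C, Δ μ ∈ ball c e ∧ Sf (Δ μ) = σ * exp (3 * kap * μ) ∧ B μ = (2 * Δ μ)⁻¹)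
    (lim : Tendsto Δ (𝓝[C] 0) (𝓝 c)) (hC : ∀ u ∈ Ico (0 : ℝ) 1, (1 - (u : ℂ)) * (z - a) ∈ C) :
    ∫ u in (0 : ℝ)..1, (z - a) * (AA g E (a + u * (z - a)) * B ((1 - u) * (z - a))) =
      Ψ c - Ψ (Δ (z - a)) := by
  have mb : ∀ u ∈ Icc (0 : ℝ) 1, a + u * (z - a) ∈ ball (0 : ℂ) δ₁ := fun u hu => by
    have := (convex_ball (0 : ℂ) δ₁).add_smul_sub_mem (x := a) (y := z)
      (mem_ball_zero_iff.2 (by linarith [norm_nonneg a]))
      (mem_ball_zero_iff.2 (by linarith [norm_nonneg z])) hu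
    simpa using this
  have cw : Continuous fun u : ℝ => (1 - (u : ℂ)) * (z - a) := by fun_prop
  have dr : ∀ u ∈ Ico (0 : ℝ) 1, HasDerivAt (fun u : ℝ => Ψ (Δ ((1 - u) * (z - a))))
      ((z - a) * (AA g E (a + u * (z - a)) * B ((1 - u) * (z - a)))) u := fun u hu => by
    have m := hC u hu
    have m' := mb u (Ico_subset_Icc_self hu)
    have q : z - (1 - (u : ℂ)) * (z - a) = a + u * (z - a) := by ring
    have d1 : HasDerivAt (fun w => E (z - w)) (deriv E (a + u * (z - a)) * -1)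
        ((1 - (u : ℂ)) * (z - a)) :=
      HasDerivAt.comp_of_eq _ ((H.dE _ m').differentiableAt (isOpen_ball.mem_nhds m')).hasDerivAt
        ((hasDerivAt_id _).const_sub z) q.symm
    have n : ∀ᶠ w in 𝓝 ((1 - (u : ℂ)) * (z - a)), z - w ∈ ball (0 : ℂ) δ₁ :=
      (continuous_const.sub continuous_id).continuousAt.eventually
        (isOpen_ball.mem_nhds (show z - (1 - (u : ℂ)) * (z - a) ∈ _ from q.symm ▸ m'))
    have d2 := H.der hz hΨ d1 ((dΔ _ m).differentiableAt (oC.mem_nhds m)) (by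
      filter_upwards [n, oC.mem_nhds m] with w h1 h2
      refine ⟨(H.val _ h1).1, (hΔ w h2).1, ?_⟩
      rw [H.sgE z h1, sub_sub_cancel, (hΔ w h2).2.1])
    have d3 := d2.comp (u : ℂ) (((hasDerivAt_id (u : ℂ)).const_sub 1).mul_const (z - a))
    refine d3.comp_ofReal.congr_deriv ?_
    rw [q, (hΔ _ m).2.2, AA]
    ring
  have cB : ContinuousOn B C :=
    ((dΔ.continuousOn.const_mul 2).inv₀ fun μ h =>
      mul_ne_zero two_ne_zero (H.ne (hΔ μ h).1)).congr fun μ h => (hΔ μ h).2.2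
  refine intervalIntegral.integral_eq_sub_of_hasDerivAt_of_tendsto one_pos
    (fun u hu => dr u (Ioo_subset_Ico_self hu)) (IntervalIntegrable.const_mul ?_ _) ?_ ?_
  · rw [intervalIntegrable_iff_integrableOn_Ioo_of_le zero_le_one]
    refine Integrable.mul_bdd (c := 1) ?_ ?_ ?_
    · exact ((H.dA.continuousOn.comp (by fun_prop) mb).integrableOn_Icc).mono_set
        Ioo_subset_Icc_self
    · exact (cB.comp cw.continuousOn fun u hu =>
        hC u (Ioo_subset_Ico_self hu)).aestronglyMeasurable measurableSet_Ioo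
    · refine (ae_restrict_mem measurableSet_Ioo).mono fun u hu => ?_
      have m := hΔ _ (hC u (Ioo_subset_Ico_self hu))
      have := (H.ang _ m.1).2.2
      rw [m.2.2, norm_inv, norm_mul, Complex.norm_ofNat]
      exact inv_le_one_of_one_le₀ (by linarith)
  · simpa using (dr 0 ⟨le_rfl, one_pos⟩).continuousAt.tendsto.mono_left nhdsWithin_le_nhds
  · refine (hΨ c (mem_ball_self e0)).continuousAt.tendsto.comp (lim.comp
      (tendsto_nhdsWithin_iff.2 ⟨?_, ?_⟩))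
    · simpa using (cw.tendsto 1).mono_left nhdsWithin_le_nhds
    · filter_upwards [Ioo_mem_nhdsLT one_pos] with u hu using hC u (Ioo_subset_Ico_self hu)

end Lc

lemma zero_eq {k : ℤ} {δ : ℂ} (h : sin δ = 0) (h' : dist δ (k * Real.pi) < 1) :
    δ = k * Real.pi := by
  obtain ⟨j, rfl⟩ := Complex.sin_eq_zero_iff.1 h
  rw [dist_eq_norm, ← sub_mul, norm_mul, ← Int.cast_sub, norm_intCast, norm_real,
    Real.norm_of_nonneg Real.pi_pos.le, ← Int.cast_abs] at h'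
  have h1 : ((|j - k| : ℤ) : ℝ) < 1 := by
    by_contra hc
    nlinarith [Real.pi_gt_three, not_lt.1 hc]
  have h2 : |j - k| < 1 := by exact_mod_cast h1
  rw [sub_eq_zero.1 (Int.abs_lt_one_iff.1 h2)]

lemma sd_op (s δ : ℝ) : IsOpen (Sd s δ) :=
  (isOpen_lt continuous_const continuous_re).inter
    ((isOpen_lt continuous_const (continuous_const.mul continuous_im)).inter
      (isOpen_lt (continuous_const.mul continuous_im) continuous_const))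

lemma sd_cx (s δ : ℝ) : Convex ℝ (Sd s δ) :=
  have L : IsLinearMap ℝ fun μ : ℂ => s * μ.im := ⟨fun x y => by simp [mul_add], fun c x => by
    simp only [smul_im, smul_eq_mul]; ring⟩
  (convex_halfSpace_re_gt _).inter ((convex_halfSpace_gt L 0).inter (convex_halfSpace_lt L δ))

lemma sd_mem {s δ : ℝ} {w : ℂ} (hs : s = 1 ∨ s = -1) (h : ‖w‖ < δ) (h' : 0 < s * w.im) :
    w ∈ Sd s δ := by
  have h1 := abs_le.1 (abs_re_le_norm w)
  have h2 := abs_le.1 (abs_im_le_norm w)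
  refine ⟨by linarith, h', ?_⟩
  rcases hs with rfl | rfl <;> linarith

lemma mu_ev {c : ℂ} (h : Sf c ≠ 0) {ε : ℝ} (ε0 : 0 < ε) :
    ∀ᶠ δ in 𝓝 c, Sf δ / Sf c ∈ slitPlane ∧ ‖mu (Sf c) δ‖ < ε := by
  have c1 : ContinuousAt (fun δ => Sf δ / Sf c) c := (dSf.continuous.div_const _).continuousAt
  have s1 : Sf c / Sf c ∈ slitPlane := by rw [div_self h]; exact one_mem_slitPlane
  have c2 : ContinuousAt (fun δ => ‖mu (Sf c) δ‖) c := ((c1.clog s1).div_const _).norm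
  exact (c1.eventually (isOpen_slitPlane.mem_nhds s1)).and
    (c2.eventually (gt_mem_nhds (by simpa [mu, div_self h] using ε0)))

end Fend

open Fend

theorem fend (hRAY : S_RAY) (_hCH : S_CH) (hDISC : S_DISC) (hDV : S_DV) (hBND : S_BND)
    (hPRIM : S_PRIM) (hSTR : S_STRAND) (hBEXT : S_BEXT) (hHALF : S_HALF) (hRHO : S_RHO)
    (_hU : S_UNIQ) : S_FEND := by
  intro g Ω Y D W₀ ρ V ξ y d hg W0 F P ⟨o1, o2, o3, o4⟩ hs
  have V0 : W₀ ∈ V := mem_of_mem_nhds P.nb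
  obtain ⟨k, hk⟩ := Complex.sin_eq_zero_iff.1 (hs W₀ V0)
  have k0 : k ≠ 0 := fun h => o3 (by simp [hk, h])
  obtain ⟨c, hc⟩ : ∃ c : ℂ, c = k * Real.pi := ⟨_, rfl⟩
  obtain ⟨y₀, hy₀⟩ : ∃ y₀, y₀ = y (0, W₀) := ⟨_, rfl⟩
  rw [← hc] at hk
  rw [hk] at o3 o4
  rw [← hy₀] at o1 o2
  have σ0 : Sf c ≠ 0 := hc ▸ hBND.2.2.2.2 k k0
  have nc : ‖c‖ = |(k : ℝ)| * Real.pi := by
    rw [hc, norm_mul, norm_intCast, norm_real, Real.norm_of_nonneg Real.pi_pos.le]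
  have nc1 : 1 < ‖c‖ := by
    have : (1 : ℝ) ≤ |(k : ℝ)| := by exact_mod_cast Int.one_le_abs k0
    nlinarith [Real.pi_gt_three]
  have ag := hg.analyticAt (lh_op.mem_nhds o1)
  have z01 : (0 : ℝ) ∈ Icc (0 : ℝ) 1 := ⟨le_rfl, zero_le_one⟩
  have hσ : Sf c = sg g W₀ y₀ := by
    have T : Tendsto (fun t : ℝ => (t, W₀)) (𝓝[>] 0) (𝓝[Icc 0 1 ×ˢ V] (0, W₀)) :=
      tendsto_nhdsWithin_iff.2
        ⟨((continuous_id.prodMk continuous_const).tendsto 0).mono_left nhdsWithin_le_nhds,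
          Filter.eventually_of_mem (Icc_mem_nhdsGT one_pos) fun t ht => ⟨ht, V0⟩⟩
    have T1 := (P.cy (0, W₀) ⟨z01, V0⟩).tendsto.comp T
    have T2 := (P.cd (0, W₀) ⟨z01, V0⟩).tendsto.comp T
    rw [← hy₀] at T1
    rw [hk] at T2
    refine tendsto_nhds_unique_of_eventuallyEq ((dSf.continuous.tendsto c).comp T2)
      ((((ag.continuousAt.tendsto.comp T1).const_mul W₀).pow 3).div_const 24) ?_
    filter_upwards [Ioo_mem_nhdsGT one_pos] with t ht using (P.reg t ht).2.2.2.2.1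
  have g0 : g y₀ ≠ 0 := fun h => σ0 (by simp [hσ, sg, h])
  obtain ⟨O, E, oO, O0, dE, vE, E0, iE⟩ := hRAY g y₀ hg g0 (hy₀ ▸ P.aim 0 z01
    ⟨0, le_rfl, k, k0, by linarith, by simp [← hy₀, ← hσ, hc]⟩)
  obtain ⟨η, η0, hη⟩ := Metric.eventually_nhds_iff_ball.1
    (((ag.hasStrictDerivAt.pow 3).eventually_left_inverse (by simp [g0, o2])).and
      (lh_op.mem_nhds o1))
  have O00 : O ∈ 𝓝 (0 : ℂ) := oO.mem_nhds (O0 0 le_rfl)
  obtain ⟨δ₁, δ₁0, hδ₁⟩ := Metric.eventually_nhds_iff_ball.1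
    (((dE.continuousOn.continuousAt O00).eventually (ball_mem_nhds _ η0)).and O00)
  rw [E0] at hδ₁
  obtain ⟨e, e0, he⟩ := Metric.eventually_nhds_iff_ball.1 ((mu_ev σ0 (half_pos δ₁0)).and
    ((continuous_norm.continuousAt.eventually (lt_mem_nhds nc1)).and (ball_mem_nhds c one_pos)))
  have H : Lc g E W₀ y₀ (Sf c) c η δ₁ e :=
    ⟨hg, W0, σ0, hσ, fun w hw => (hη w hw).2, fun a ha b hb h => by
        rw [← (hη a ha).1, ← (hη b hb).1]
        exact congrArg _ h,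
      dE.mono fun ζ h => (hδ₁ ζ h).2, fun ζ h => ⟨(hδ₁ ζ h).1, (vE ζ (hδ₁ ζ h).2).2.2⟩,
      fun δ h => ⟨(he δ h).1.1, (he δ h).1.2, (he δ h).2.1.le⟩⟩
  obtain ⟨r, r0, r1, hr⟩ := hHALF k e k0 e0
  rw [← hc] at hr
  obtain ⟨δD, δD0, hD⟩ := hDISC (Sf c) ρ
  obtain ⟨δ', δ'0, p1, p2, p3⟩ : ∃ δ' : ℝ, 0 < δ' ∧ δ' ≤ r / 10 ∧ δ' ≤ δD ∧ δ' ≤ δ₁ :=
    ⟨min (r / 10) (min δD δ₁), lt_min (by linarith) (lt_min δD0 δ₁0), min_le_left _ _,
      (min_le_right _ _).trans (min_le_left _ _), (min_le_right _ _).trans (min_le_right _ _)⟩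
  obtain ⟨e', e'0, he'⟩ := Metric.eventually_nhds_iff_ball.1 (hr.and ((mu_ev σ0 (half_pos δ'0)).and
    ((continuous_norm.continuousAt.eventually (gt_mem_nhds o4)).and (ball_mem_nhds c e0))))
  obtain ⟨ε, ε0, hε⟩ := Metric.eventually_nhds_iff.1 (eventually_nhdsWithin_iff.1
    (((P.cy (0, W₀) ⟨z01, V0⟩).tendsto.eventually (ball_mem_nhds _ η0)).and
      ((P.cd (0, W₀) ⟨z01, V0⟩).tendsto.eventually (ball_mem_nhds _ e'0))))
  rw [← hy₀, hk] at hε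
  obtain ⟨t₀, t0, t1, t2⟩ : ∃ t₀ : ℝ, 0 < t₀ ∧ t₀ < 1 ∧ t₀ < ε :=
    ⟨min (ε / 2) (1 / 2), lt_min (by linarith) (by norm_num),
      (min_le_right _ _).trans_lt (by norm_num), (min_le_left _ _).trans_lt (by linarith)⟩
  have nr : ∀ W ∈ V, dist W W₀ < ε → ∀ t ∈ Icc 0 t₀,
      y (t, W) ∈ ball y₀ η ∧ d (t, W) ∈ ball c e' := fun W hW h t ht =>
    hε (y := (t, W)) (by
      rw [Prod.dist_eq]
      exact max_lt (by rw [Real.dist_eq, sub_zero, abs_of_nonneg ht.1]; linarith [ht.2]) h)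
      ⟨⟨ht.1, by linarith [ht.2]⟩, hW⟩
  have tm : t₀ ∈ Icc 0 t₀ := ⟨t0.le, le_rfl⟩
  refine ⟨t₀, ⟨t0, t1⟩, ?_⟩
  obtain ⟨s1, -, -, s4, s5, -⟩ := P.reg t₀ ⟨t0, t1⟩
  obtain ⟨n1, n2⟩ := nr W₀ V0 (by simpa using ε0) t₀ tm
  have sl : Continuous fun W : ℂ => (t₀, W) := continuous_const.prodMk continuous_id
  have mp : MapsTo (fun W : ℂ => (t₀, W)) V (Icc 0 1 ×ˢ V) := fun W h => ⟨⟨t0.le, t1.le⟩, h⟩
  have cy := ((P.cy.comp sl.continuousOn mp).continuousAt P.nb).tendsto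
  have cd := ((P.cd.comp sl.continuousOn mp).continuousAt P.nb).tendsto
  simp only [Function.comp_def] at cy cd
  unfold Gd
  generalize y (t₀, W₀) = y₁ at s1 s5 n1 cy ⊢
  generalize d (t₀, W₀) = d₁ at s4 s5 n2 cd ⊢
  have d0 := H.ne (he' _ n2).2.2.2
  obtain ⟨i1, i2, i3, i4⟩ := hDV.1 d₁ (mul_ne_zero d0 s4)
  generalize Dv d₁ = D₁ at i1 i2 i3 i4 ⊢
  obtain ⟨r₁, r₁0, -, hG⟩ := hRHO g D₁ W₀ y₁ hg s1 (s5 ▸ i1) (by rwa [← s5, i2])
  have T1 : Tendsto (fun q : ℂ × ℂ => sg g q.1 q.2) (𝓝 (W₀, y₁)) (𝓝 (Sf d₁)) := by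
    rw [s5]
    exact ((continuousAt_fst.mul ((hg.continuousOn.continuousAt (lh_op.mem_nhds s1)).comp
      continuousAt_snd)).pow 3).div_const 24
  have T2 := i1.continuousAt.tendsto.comp T1
  rw [i2] at T2
  obtain ⟨r₂, r₂0, hr₂⟩ := Metric.eventually_nhds_iff.1
    ((continuousAt_snd.eventually (isOpen_ball.mem_nhds n1)).and
      ((T2.eventually (isOpen_ball.mem_nhds n2)).and ((T1.eventually i3).and
        ((T1.eventually i1.eventually_analyticAt).and (T2.eventually i4.eventually_nhds)))))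
  have r₃0 : 0 < min r₁ r₂ := lt_min r₁0 r₂0
  have bx : ∀ W : ℂ, dist W W₀ < r₂ → ∀ w ∈ ball y₁ (min r₁ r₂), dist (W, w) (W₀, y₁) < r₂ :=
    fun W h w hw => by
      rw [Prod.dist_eq]
      exact max_lt h (ball_subset_ball (min_le_right _ _) hw)
  filter_upwards [ball_mem_nhds y₁ r₃0] with b hb hgen
  obtain ⟨b1, b2, b3, -, b5⟩ := hr₂ (bx W₀ (by simpa using r₂0) b hb)
  simp only [Function.comp_def] at b1 b2 b3 b5
  generalize D₁ (sg g W₀ b) = δ₀ at b2 b3 b5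
  obtain ⟨q1, ⟨q2, q3⟩, q4, q5⟩ := he' _ b2
  have w0 : Ww W₀ 0 = W₀ := by simp [Ww]
  have eb := H.st (z := 0) (by simpa using δ₁0) b1 q5 (by rwa [w0])
  have ep := (exp_mu σ0 q2).symm
  generalize mu (Sf c) δ₀ = p at q3 eb ep
  rw [zero_sub] at eb
  have sb : ∀ z, sg g (Ww W₀ z) b = Sf c * exp (3 * kap * (z - -p)) := fun z =>
    eb ▸ H.sgE z (mem_ball_zero_iff.2 (by rw [norm_neg]; linarith))
  have pim : p.im ≠ 0 := fun h => hgen (-p.re) ⟨k, k0, by linarith, by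
    have : ((-p.re : ℝ) : ℂ) = -p := by apply Complex.ext <;> simp [h]
    rw [← b3, ep, this, mul_assoc, ← exp_add, ← hc]
    simp⟩
  obtain ⟨s, hs1, hs2⟩ : ∃ s : ℝ, (s = 1 ∨ s = -1) ∧ 0 < s * p.im :=
    (lt_or_gt_of_ne pim).elim (fun h => ⟨-1, .inr rfl, by linarith⟩)
      fun h => ⟨1, .inl rfl, by linarith⟩
  obtain ⟨Δ, dΔ, Δp, vΔ, lΔ⟩ := q1 s p hs1 (sd_mem hs1 (by linarith) hs2) (by linarith) ep
  have inc : Sd s δ' ⊆ Sd s (r / 10) := fun μ h => ⟨by linarith [h.1], h.2.1, by linarith [h.2.2]⟩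
  have ab : ∀ μ ∈ Sd s δ', |μ.im| < δ' ∧ μ.im ≠ 0 := fun μ ⟨_, h1, h2⟩ =>
    ⟨by rcases hs1 with rfl | rfl <;> exact abs_lt.2 ⟨by linarith, by linarith⟩,
      fun h => by simp [h] at h1⟩
  have vb : ∀ μ ∈ Sd s δ', μ.re < r → Δ μ ∈ ball c e := fun μ h h' =>
    mem_ball_iff_norm.2 (vΔ μ (inc h) h').2.1
  have pm : p ∈ Sd s δ' := sd_mem hs1 (by linarith) hs2
  obtain ⟨B, kB, vB⟩ := hBEXT (Sf c) p ρ r (Sd s δ') Δ σ0 r0 r1 (sd_op _ _) (sd_cx _ _)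
    (fun μ h => by linarith [(ab μ h).1])
    (disjoint_left.2 fun μ h h' => (ab μ h).2 ((hD μ h').1 (by linarith [(ab μ h).1]))) pm
    (by linarith) (dΔ.mono (inter_subset_inter_left _ inc))
    (fun μ h h' => ⟨(vΔ μ (inc h) h').1, (vΔ μ (inc h) h').2.2⟩) (by rw [Δp]; exact q4.le)
    ⟨1, fun μ h h' => by
      have := (H.ang _ (vb μ h h')).2.2
      rw [norm_inv, norm_mul, Complex.norm_ofNat]
      exact inv_le_one_of_one_le₀ (by linarith)⟩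
  refine (hSTR s δ' (AA g E) B O (-p) hs1 δ'0 oO O0
    (fun ζ h => (hδ₁ ζ (ball_subset_ball p3 h)).2)
    ((hg.comp dE fun ζ h => (vE ζ h).1).mul (dE.deriv oO)) iE kB (by rwa [norm_neg])
    (by simpa using hs2)).neg.congr ?_
  have TW : Tendsto (Ww W₀) (𝓝 0) (𝓝 W₀) :=
    (by unfold Ww; fun_prop : Continuous (Ww W₀)).tendsto' 0 W₀ w0
  have Tp : Tendsto (fun z : ℂ => z - -p) (𝓝 0) (𝓝 p) :=
    (by fun_prop : Continuous fun z : ℂ => z - -p).tendsto' 0 p (by simp)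
  have oC : IsOpen (Sd s δ' ∩ {μ : ℂ | μ.re < r}) :=
    (sd_op _ _).inter (isOpen_lt continuous_re continuous_const)
  have lt : ∀ w : ℂ, ‖w‖ < δ' → w.re < r := fun w h => by
    linarith [le_abs_self w.re, abs_re_le_norm w]
  have dΔ' := dΔ.mono (inter_subset_inter_left {μ : ℂ | μ.re < r} inc)
  have TΔ := (dΔ'.continuousOn.continuousAt
    (oC.mem_nhds ⟨pm, lt p (by linarith)⟩)).tendsto.comp Tp
  rw [Δp] at TΔ
  filter_upwards [ball_mem_nhds (0 : ℂ) (half_pos δ'0), TW.eventually P.nb,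
    TW.eventually (ball_mem_nhds _ ε0), TW.eventually (ball_mem_nhds _ r₂0), TW.eventually hG,
    (cy.comp TW).eventually (ball_mem_nhds _ r₃0), (cd.comp TW).eventually i4,
    TΔ.eventually b5, Tp.eventually ((sd_op _ _).mem_nhds pm)] with z z1 z2 z3 z4 z5 z6 z7 z8 z9
  simp only [Function.comp_def] at z6 z7 z8
  rw [mem_ball_zero_iff] at z1
  obtain ⟨G, G1, G2⟩ := z5
  have zz : ‖z‖ < δ₁ / 2 := by linarith
  have zp : ‖z - -p‖ < δ' := by linarith [norm_sub_le z (-p), norm_neg p]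
  obtain ⟨Ψ, hΨ, -⟩ := hPRIM _ _ isOpen_ball (convex_ball c e) (H.dff zz)
  have sb1 : ball y₁ (min r₁ r₂) ⊆ ball y₁ r₁ := ball_subset_ball (min_le_left _ _)
  have A1 := H.path zz hΨ rfl F P z2 t0 t1 fun t ht =>
    ⟨(nr _ z2 z3 t ht).1, (he' _ (nr _ z2 z3 t ht).2).2.2.2⟩
  have A2 := H.seg zz hΨ rfl (fun w hw => by
    obtain ⟨c1, c2, c3, c4, -⟩ := hr₂ (bx _ z4 w hw)
    exact ⟨c1, (he' _ c2).2.2.2, c3, c4.differentiableAt⟩) (fun w hw => (G1 w (sb1 hw)).2) z6 hb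
  have A3 := H.str zz hΨ e0 (a := -p) (B := B) (by rw [norm_neg]; linarith) oC dΔ'
    (fun μ h => ⟨vb μ h.1 h.2, (vΔ μ (inc h.1) h.2).2.2, vB μ h.1 h.2⟩)
    (lΔ.mono_left (nhdsWithin_mono _ (inter_subset_inter_left _ inc))) fun u hu => by
      have u1 : 0 < 1 - u := by linarith [hu.2]
      have nn : ‖(1 - (u : ℂ)) * (z - -p)‖ < δ' := by
        rw [norm_mul, ← ofReal_one, ← ofReal_sub, norm_real, Real.norm_of_nonneg u1.le]
        nlinarith [norm_nonneg (z - -p), hu.1]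
      refine ⟨sd_mem hs1 nn ?_, lt _ nn⟩
      rw [← ofReal_one, ← ofReal_sub, im_ofReal_mul, mul_left_comm]
      exact mul_pos u1 z9.2.1
  have A4 : d (0, Ww W₀ z) = c := by
    rw [hc]
    exact zero_eq (hs _ z2) (hc ▸ (he _ (he' _ (nr _ z2 z3 0 ⟨le_rfl, t0.le⟩).2).2.2.2).2.2)
  have A5 : D₁ (sg g (Ww W₀ z) (y (t₀, Ww W₀ z))) = d (t₀, Ww W₀ z) := by
    obtain ⟨m1, m2, m3⟩ := P.mem t₀ ⟨t0, t1⟩ _ z2
    rw [m2, ← F.law _ m1, ← m3, z7]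
  have A6 : D₁ (sg g (Ww W₀ z) b) = Δ (z - -p) := by
    rw [sb, ← (vΔ _ (inc z9) (lt _ zp)).2.2, z8]
  rw [A3, A1, G2 _ (sb1 z6) _ (sb1 hb), A2, A4, A5, A6]
  ring

end Vale.Agent.P097F.J
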