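import Vale.Agent.P097F.J.Bnd

/-!
# P097F.J: the branch near a fold on one side of the axis
-/

set_option linter.all false

noncomputable section

namespace Vale.Agent.P097F.J

open Filter Topology Set Metric Complex MeasureTheory
open Vale.Agent.P097Mo (Sf)

theorem half_inv {f : ℂ → ℂ} {a : ℂ} (hf : AnalyticAt ℂ f a) (h : deriv f a ≠ 0) :
    ∃ ι : ℂ → ℂ, AnalyticAt ℂ ι (f a) ∧ ι (f a) = a ∧ (∀ᶠ y in 𝓝 (f a), f (ι y) = y) ∧
      ∀ᶠ x in 𝓝 a, ι (f x) = x :=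
  ⟨hf.hasStrictDerivAt.localInverse _ _ _ h, hf.analyticAt_localInverse h,
    HasStrictFDerivAt.localInverse_apply_image ..,
    hf.hasStrictDerivAt.eventually_right_inverse h,
    hf.hasStrictDerivAt.eventually_left_inverse h⟩

/-- analytic roots -/
theorem half_root {u : ℂ → ℂ} {a : ℂ} {n : ℕ} (hn : n ≠ 0) (hu : AnalyticAt ℂ u a) (h0 : u a ≠ 0) :
    ∃ ρ : ℂ → ℂ, AnalyticAt ℂ ρ a ∧ ρ a ≠ 0 ∧ ∀ᶠ z in 𝓝 a, ρ z ^ n = u z := by
  obtain ⟨c, hc⟩ := IsAlgClosed.exists_pow_nat_eq (u a) (Nat.pos_of_ne_zero hn)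
  have c0 : c ≠ 0 := by
    rintro rfl
    exact h0 (by rw [← hc, zero_pow hn])
  have hp : AnalyticAt ℂ (fun z : ℂ => z ^ n) c := analyticAt_id.pow n
  obtain ⟨ι, a1, a2, a3, -⟩ := half_inv hp (by
    rw [(hasDerivAt_pow n c).deriv]
    exact mul_ne_zero (Nat.cast_ne_zero.2 hn) (pow_ne_zero _ c0))
  simp only [hc] at a1 a2 a3
  exact ⟨fun z => ι (u z), a1.comp hu, fun e => c0 (a2.symm.trans e), hu.continuousAt.tendsto.eventually a3⟩

/-- a power of a local coordinate -/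
theorem half_pow {m : ℂ → ℂ} {a : ℂ} (hm : AnalyticAt ℂ m a) (h0 : m a = 0)
    (h1 : ¬ ∀ᶠ z in 𝓝 a, m z = 0) : ∃ (n : ℕ) (w ι : ℂ → ℂ), n ≠ 0 ∧ w a = 0 ∧ AnalyticAt ℂ ι 0 ∧
      ι 0 = a ∧ (∀ᶠ t in 𝓝 0, w (ι t) = t) ∧ (∀ᶠ z in 𝓝 a, ι (w z) = z) ∧
      ∀ᶠ z in 𝓝 a, m z = w z ^ n := by
  obtain ⟨n, u, hu, u0, e⟩ := hm.exists_eventuallyEq_pow_smul_nonzero_iff.2 h1
  have hn : n ≠ 0 := by
    rintro rfl
    have := e.self_of_nhds
    rw [h0, pow_zero, one_smul] at this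
    exact u0 this.symm
  obtain ⟨ρ, hρ, ρ0, hr⟩ := half_root hn hu u0
  have hw : AnalyticAt ℂ (fun z => (z - a) * ρ z) a := (analyticAt_id.sub analyticAt_const).mul hρ
  have hd : HasDerivAt (fun z => (z - a) * ρ z) (ρ a) a :=
    (((hasDerivAt_id a).sub_const a).mul hρ.differentiableAt.hasDerivAt).congr_deriv (by simp)
  obtain ⟨ι, a1, a2, a3, a4⟩ := half_inv hw (by rwa [hd.deriv])
  simp only [sub_self, zero_mul] at a1 a2 a3
  refine ⟨n, fun z => (z - a) * ρ z, ι, hn, by simp, a1, a2, a3, a4, ?_⟩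
  filter_upwards [e, hr] with z b1 b2
  rw [b1, mul_pow, b2, smul_eq_mul]

theorem half_rt {n : ℕ} (hn : n ≠ 0) {μ : ℂ} (h : μ ≠ 0) : exp (log μ / n) ^ n = μ := by
  rw [← Complex.exp_nat_mul, mul_div_cancel₀ _ (Nat.cast_ne_zero.2 hn), exp_log h]

theorem half_lt {n : ℕ} {t μ : ℂ} {η : ℝ} (hη : 0 < η) (h : t ^ n = μ) (k : ‖μ‖ < η ^ n) :
    ‖t‖ < η := by
  rw [← h, norm_pow] at k
  exact lt_of_pow_lt_pow_left₀ n hη.le k

theorem half0 : S_HALF := by
  intro k ε hk hε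
  have S0 := bnd_fold hk
  have s0 : sin ((k : ℂ) * Real.pi) = 0 := Complex.sin_int_mul_pi k
  generalize (k : ℂ) * Real.pi = a at S0 s0 ⊢
  have k3 : 3 * kap ≠ 0 := mul_ne_zero three_ne_zero disc_kap
  have hS : ∀ᶠ z in 𝓝 a, Sf z ≠ 0 := bnd_dif.continuous.continuousAt.eventually_ne S0
  have hx : ∀ z, Sf z ≠ 0 → Sf z = Sf a * exp (3 * kap * (log (Sf z / Sf a) / (3 * kap))) := by
    intro z hz
    rw [mul_div_cancel₀ _ k3, exp_log (div_ne_zero hz S0), mul_div_cancel₀ _ S0]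
  have hm : AnalyticAt ℂ (fun z => log (Sf z / Sf a) / (3 * kap)) a :=
    ((bnd_dif.analyticAt a).div_const.clog (by rw [div_self S0]; exact one_mem_slitPlane)).div_const
  obtain ⟨n, w, ι, hn, w0, a1, a2, a3, a4, a5⟩ := half_pow hm (by simp [div_self S0]) (by
    intro h
    have e : Sf =ᶠ[𝓝 a] fun _ => Sf a := by
      filter_upwards [h, hS] with z b1 b2
      have := hx z b2
      rwa [b1, mul_zero, exp_zero, mul_one] at this
    have e2 := AnalyticOnNhd.eq_of_eventuallyEq (fun z _ => bnd_dif.analyticAt z)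
      analyticOnNhd_const e
    exact S0 ((congrFun e2 0).symm.trans (by simp [Sf])))
  have c0 : cos a ≠ 0 := by
    intro e
    have := Complex.sin_sq_add_cos_sq a
    rw [s0, e] at this
    norm_num at this
  have hs : ∀ᶠ z in 𝓝 a, z ≠ a → sin z ≠ 0 :=
    eventually_nhdsWithin_iff.1 ((hasDerivAt_sin a).eventually_ne (c := 0) c0)
  have tι : Tendsto ι (𝓝 0) (𝓝 a) := by
    have := a1.continuousAt.tendsto
    rwa [a2] at this
  obtain ⟨η, hη, hb⟩ := Metric.eventually_nhds_iff.1 (a1.eventually_analyticAt.and (a3.and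
    (tι.eventually (hS.and (hs.and (a5.and (ball_mem_nhds a hε)))))))
  refine ⟨min 1 (η ^ n / 2), lt_min one_pos (by positivity), min_le_left _ _, ?_⟩
  have r1 := min_le_left 1 (η ^ n / 2)
  have r2 := min_le_right 1 (η ^ n / 2)
  generalize min 1 (η ^ n / 2) = r at r1 r2 ⊢
  filter_upwards [a4, a5] with d d1 d2 s p hs' hp hp' hd
  have him : ∀ μ ∈ Sd s (r / 10), μ.im ≠ 0 := fun μ hμ e => by
    have := hμ.2.1
    rw [e, mul_zero] at this
    exact lt_irrefl _ this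
  have hne : ∀ μ ∈ Sd s (r / 10), μ ≠ 0 := fun μ hμ e => him μ hμ (by rw [e, zero_im])
  have e1 : w d ^ n = p := by
    have b : |(3 * kap * p).im| < Real.pi := by
      have b1 : (3 * kap * p).im = 3 * (p.im + p.re) := by
        simp [kap]
        ring
      have b2 := abs_le.1 (abs_im_le_norm p)
      have b3 := abs_le.1 (abs_re_le_norm p)
      have b4 := Real.pi_gt_three
      rw [b1, abs_lt]
      constructor <;> linarith [b2.1, b2.2, b3.1, b3.2]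
    rw [← d2, hd, mul_div_cancel_left₀ _ S0, log_exp (abs_lt.1 b).1 (abs_lt.1 b).2.le,
      mul_div_cancel_left₀ _ k3]
  obtain ⟨ζ, hζ⟩ : ∃ ζ, ζ = w d / exp (log p / n) := ⟨_, rfl⟩
  have e2 : ∀ μ ∈ Sd s (r / 10), (ζ * exp (log μ / n)) ^ n = μ := by
    intro μ hμ
    rw [mul_pow, hζ, div_pow, e1, half_rt hn (hne p hp), half_rt hn (hne μ hμ),
      div_self (hne p hp), one_mul]
  have e3 : ∀ μ ∈ Sd s (r / 10), μ.re < r → dist (ζ * exp (log μ / n)) 0 < η := by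
    intro μ hμ h
    rw [dist_zero_right]
    refine half_lt hη (e2 μ hμ) ((norm_le_abs_re_add_abs_im μ).trans_lt ?_)
    obtain ⟨m1, m2, m3⟩ := hμ
    have b1 : |μ.re| < r := abs_lt.2 ⟨by linarith, h⟩
    have b2 : |μ.im| < r := by
      rcases hs' with rfl | rfl <;> rw [abs_lt] <;> constructor <;> linarith
    linarith
  refine ⟨fun μ => ι (ζ * exp (log μ / n)), fun μ hμ => ?_, ?_, fun μ hμ h => ?_, tι.comp ?_⟩
  · have b : DifferentiableAt ℂ (fun μ => ζ * exp (log μ / n)) μ :=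
      ((differentiableAt_log (mem_slitPlane_iff.2 (Or.inr (him μ hμ.1)))).div_const _).cexp.const_mul
        _
    exact (DifferentiableAt.comp (g := ι) μ (hb (e3 μ hμ.1 hμ.2)).1.differentiableAt
      b).differentiableWithinAt
  · show ι (ζ * exp (log p / n)) = d
    rw [hζ, div_mul_cancel₀ _ (exp_ne_zero _), d1]
  · obtain ⟨-, b1, b2, b3, b4, b5⟩ := hb (e3 μ hμ h)
    refine ⟨b3 fun e => hne μ hμ ?_, mem_ball_iff_norm.1 b5, ?_⟩
    · rw [← e2 μ hμ, ← b1, e, w0, zero_pow hn]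
    · have := hx _ b2
      rwa [b4, b1, e2 μ hμ] at this
  · refine Metric.tendsto_nhdsWithin_nhds.2 fun δ hδ => ⟨δ ^ n, by positivity, fun μ hμ h => ?_⟩
    rw [dist_zero_right] at h ⊢
    exact half_lt hδ (e2 μ hμ.1) h

theorem half (_ : S_UNIQ) (_ : S_STAR) (_ : S_LIFT) (_ : S_BND) : S_HALF := half0

end Vale.Agent.P097F.J
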