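import Vale.Agent.P097F.J.Defs

/-!
# P097F.J: lifting of paths and charts (row 7003)
-/

set_option linter.all false

noncomputable section

namespace Vale.Agent.P097F.J

open Filter Topology Set Metric Complex MeasureTheory

namespace LiftA

/-- a chart inside `U` -/
theorem chart {f : ℂ → ℂ} {U : Set ℂ} (h : Rg f U) {z : ℂ} (hz : z ∈ U) :
    ∃ e : OpenPartialHomeomorph ℂ ℂ, (e : ℂ → ℂ) = f ∧ z ∈ e.source ∧ e.source ⊆ U := by
  have hs := ((h.2.1.analyticOnNhd h.1 z hz).hasStrictDerivAt).hasStrictFDerivAt_equiv (h.2.2 z hz)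
  exact ⟨(hs.toOpenPartialHomeomorph f).restrOpen U h.1, rfl,
    ⟨hs.mem_toOpenPartialHomeomorph_source, hz⟩, fun y hy => hy.2⟩

theorem ext {f : ℂ → ℂ} {U : Set ℂ} {c : ℝ → ℂ} {y₀ : ℂ} {t T : ℝ} {Γ : ℝ → ℂ}
    (e : OpenPartialHomeomorph ℂ ℂ) (he : (e : ℂ → ℂ) = f) (hU : e.source ⊆ U) (t0 : 0 ≤ t)
    (tT : t ≤ T) (hc : ContinuousOn c (Icc t T)) (L : Lft f U c y₀ (Icc 0 t) Γ)
    (h1 : Γ t ∈ e.source) (h2 : ∀ s ∈ Icc t T, c s ∈ e.target) :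
    ∃ Γ', Lft f U c y₀ (Icc 0 T) Γ' := by
  subst he
  set G : ℝ → ℂ := fun s => if s ≤ t then Γ s else e.symm (c s) with hG
  have g1 : EqOn G Γ (Icc 0 t) := fun s hs => if_pos hs.2
  have g2 : EqOn G (fun s => e.symm (c s)) (Icc t T) := fun s hs => by
    rcases hs.1.eq_or_lt with k | k
    · subst k
      show (if t ≤ t then Γ t else e.symm (c t)) = e.symm (c t)
      rw [if_pos le_rfl, ← L.2.2.1 t ⟨t0, le_rfl⟩, e.left_inv h1]
    · exact if_neg (not_le.2 k)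
  refine ⟨G, ?_, fun s hs => ?_, fun s hs => ?_, (g1 ⟨le_rfl, t0⟩).trans L.2.2.2⟩
  · rw [← Icc_union_Icc_eq_Icc t0 tT]
    exact (L.1.congr g1).union_of_isClosed ((e.continuousOn_symm.comp hc h2).congr g2)
      isClosed_Icc isClosed_Icc
  · rcases le_total s t with k | k
    · rw [g1 ⟨hs.1, k⟩]
      exact L.2.1 ⟨hs.1, k⟩
    · rw [g2 ⟨k, hs.2⟩]
      exact hU (e.map_target (h2 s ⟨k, hs.2⟩))
  · rcases le_total s t with k | k
    · rw [g1 ⟨hs.1, k⟩]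
      exact L.2.2.1 s ⟨hs.1, k⟩
    · rw [g2 ⟨k, hs.2⟩]
      exact e.right_inv (h2 s ⟨k, hs.2⟩)

theorem mono {f : ℂ → ℂ} {U : Set ℂ} {c : ℝ → ℂ} {y₀ : ℂ} {S T : Set ℝ} {Γ : ℝ → ℂ}
    (L : Lft f U c y₀ T Γ) (h : S ⊆ T) : Lft f U c y₀ S Γ :=
  ⟨L.1.mono h, L.2.1.mono_left h, fun s hs => L.2.2.1 s (h hs), L.2.2.2⟩

end LiftA

open LiftA in
theorem lift (hq : S_UNIQ) : S_LIFT := by
  intro f U c y₀ hf hc y0 f0 H
  set A : Set ℝ := {T | T ∈ Icc (0 : ℝ) 1 ∧ ∃ Γ, Lft f U c y₀ (Icc 0 T) Γ} with hA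
  have L0 : Lft f U c y₀ (Icc 0 0) fun _ => y₀ :=
    ⟨continuousOn_const, fun _ _ => y0, fun s hs => by rw [le_antisymm hs.2 hs.1, f0], rfl⟩
  have A0 : (0 : ℝ) ∈ A := ⟨⟨le_rfl, zero_le_one⟩, _, L0⟩
  have bA : BddAbove A := ⟨1, fun T hT => hT.1.2⟩
  set T := sSup A with hT
  have T0 : 0 ≤ T := le_csSup bA A0
  have T1 : T ≤ 1 := csSup_le ⟨0, A0⟩ fun s hs => hs.1.2
  have near : ∀ V : Set ℂ, IsOpen V → c T ∈ V → ∃ δ > 0, ∀ s ∈ Icc (0 : ℝ) 1, |s - T| < δ →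
      c s ∈ V := fun V hV h => by
    obtain ⟨δ, δ0, k⟩ := Metric.mem_nhdsWithin_iff.1 (hc T ⟨T0, T1⟩ (hV.mem_nhds h))
    exact ⟨δ, δ0, fun s hs h' => k ⟨h', hs⟩⟩
  have P : ∃ t ∈ Icc 0 T, ∃ Γ, Lft f U c y₀ (Icc 0 t) Γ ∧ ∃ e : OpenPartialHomeomorph ℂ ℂ,
      (e : ℂ → ℂ) = f ∧ e.source ⊆ U ∧ Γ t ∈ e.source ∧ ∀ s ∈ Icc t T, c s ∈ e.target := by
    rcases T0.eq_or_lt with k | k
    · obtain ⟨e, e1, e2, e3⟩ := chart hf y0
      refine ⟨0, ⟨le_rfl, T0⟩, _, L0, e, e1, e3, e2, fun s hs => ?_⟩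
      rw [le_antisymm (hs.2.trans k.ge) hs.1, ← f0, ← e1]
      exact e.map_source e2
    have dn : ∀ s, s ∈ Ico 0 T → ∃ Γ, Lft f U c y₀ (Icc 0 s) Γ := fun s hs => by
      obtain ⟨u, hu, su⟩ := exists_lt_of_lt_csSup ⟨0, A0⟩ hs.2
      obtain ⟨Γ, L⟩ := hu.2
      exact ⟨Γ, mono L (Icc_subset_Icc_right su.le)⟩
    choose! G hG using dn
    have ag : ∀ u ∈ Ico 0 T, EqOn (fun s => G s s) (G u) (Icc 0 u) := fun u hu s hs => by
      have L1 := hG s ⟨hs.1, hs.2.trans_lt hu.2⟩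
      have L2 := mono (hG u hu) (Icc_subset_Icc_right hs.2)
      exact hq f U ℝ (Icc 0 s) (G s) (G u) 0 hf isPreconnected_Icc L1.1 L2.1 L1.2.1
        (fun x hx => (L1.2.2.1 x hx).trans (L2.2.2.1 x hx).symm) ⟨le_rfl, hs.1⟩
        (L1.2.2.2.trans L2.2.2.2.symm) ⟨hs.1, le_rfl⟩
    have L : Lft f U c y₀ (Ico 0 T) fun s => G s s := by
      refine ⟨fun s hs => ?_, fun s hs => (hG s hs).2.1 ⟨hs.1, le_rfl⟩,
        fun s hs => (hG s hs).2.2.1 s ⟨hs.1, le_rfl⟩, (hG 0 ⟨le_rfl, k⟩).2.2.2⟩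
      obtain ⟨u, u1, u2⟩ := exists_between hs.2
      have hu : u ∈ Ico 0 T := ⟨hs.1.trans u1.le, u2⟩
      refine (((hG u hu).1.congr (ag u hu)) s ⟨hs.1, u1.le⟩).mono_of_mem_nhdsWithin ?_
      exact mem_nhdsWithin.2 ⟨Iio u, isOpen_Iio, u1, fun x hx => ⟨hx.2.1, le_of_lt hx.1⟩⟩
    obtain ⟨z, zU, hz⟩ := H T ⟨k, T1⟩ _ L
    obtain ⟨e, e1, e2, e3⟩ := chart hf zU
    have ev : ∀ᶠ s in 𝓝[<] T, s ∈ Ioo 0 T := Ioo_mem_nhdsLT k
    have fz : f z = c T := by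
      have h1 : MapClusterPt (f z) (𝓝[<] T) (f ∘ fun s => G s s) :=
        hz.continuousAt_comp (hf.2.1.continuousOn.continuousAt (hf.1.mem_nhds zU))
      have h2 : Tendsto c (𝓝[<] T) (𝓝 (c T)) := (hc T ⟨T0, T1⟩).mono_of_mem_nhdsWithin
        (mem_of_superset ev fun s hs => ⟨hs.1.le, hs.2.le.trans T1⟩)
      have h3 : Tendsto (f ∘ fun s => G s s) (𝓝[<] T) (𝓝 (c T)) :=
        h2.congr' (ev.mono fun s hs => (L.2.2.1 s ⟨hs.1.le, hs.2⟩).symm)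
      exact eq_of_nhds_neBot (h1.clusterPt.mono h3)
    obtain ⟨δ, δ0, hδ⟩ := near e.target e.open_target (by rw [← fz, ← e1]; exact e.map_source e2)
    have ev2 : ∀ᶠ s in 𝓝[<] T, s ∈ Ioo (T - δ) T := Ioo_mem_nhdsLT (by linarith)
    obtain ⟨t, t1, t2, t3⟩ := ((mapClusterPt_iff_frequently.1 hz _
      (e.open_source.mem_nhds e2)).and_eventually (ev.and ev2)).exists
    exact ⟨t, ⟨t2.1.le, t2.2.le⟩, _, mono L (fun s hs => ⟨hs.1, hs.2.trans_lt t2.2⟩), e, e1, e3, t1,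
      fun s hs => hδ s ⟨t2.1.le.trans hs.1, hs.2.trans T1⟩
        (abs_lt.2 ⟨by linarith [t3.1, hs.1], by linarith [hs.2]⟩)⟩
  obtain ⟨t, ht, Γ, L, e, e1, e2, e3, e4⟩ := P
  obtain ⟨δ, δ0, hδ⟩ := near e.target e.open_target (e4 T ⟨ht.2, le_rfl⟩)
  have m1 : T ≤ min 1 (T + δ / 2) := le_min T1 (by linarith)
  have X := ext (T := min 1 (T + δ / 2)) e e1 e2 ht.1 (ht.2.trans m1)
    (hc.mono (Icc_subset_Icc ht.1 (min_le_left _ _))) L e3 fun s hs => by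
      rcases le_total s T with k | k
      · exact e4 s ⟨hs.1, k⟩
      · exact hδ s ⟨T0.trans k, hs.2.trans (min_le_left _ _)⟩
          (abs_lt.2 ⟨by linarith, by linarith [hs.2.trans (min_le_right _ _)]⟩)
  have m2 : min 1 (T + δ / 2) ≤ T := le_csSup bA ⟨⟨T0.trans m1, min_le_left _ _⟩, X⟩
  rcases min_choice 1 (T + δ / 2) with k | k
  · rwa [k] at X
  · rw [k] at m2
    linarith

open LiftA in
theorem ch : S_CH := by
  intro g y hg hy g0 g1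
  have oL : IsOpen LH := isOpen_lt continuous_im continuous_const
  have an := hg.analyticOnNhd oL
  have dd : ∀ ζ : ℂ, HasDerivAt (fun ζ => g y * exp (-(kap * ζ)))
      (g y * (exp (-(kap * ζ)) * -(kap * 1))) ζ := fun ζ =>
    (((hasDerivAt_id ζ).const_mul kap).neg.cexp).const_mul _
  constructor
  · have hR : Rg g (LH ∩ deriv g ⁻¹' {0}ᶜ) :=
      ⟨an.deriv.continuousOn.isOpen_inter_preimage oL isOpen_compl_singleton,
        hg.mono inter_subset_left, fun z hz => hz.2⟩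
    obtain ⟨e, e1, e2, e3⟩ := chart hR (show y ∈ LH ∩ deriv g ⁻¹' {0}ᶜ from ⟨hy, g1⟩)
    have m : g y * exp (-(kap * 0)) ∈ e.target := by
      rw [mul_zero, neg_zero, exp_zero, mul_one, ← e1]
      exact e.map_source e2
    obtain ⟨r, r0, hr⟩ := Metric.mem_nhds_iff.1 ((dd 0).continuousAt (e.open_target.mem_nhds m))
    refine ⟨r, r0, fun ζ => e.symm (g y * exp (-(kap * ζ))), fun ζ hζ => ?_, ?_, fun ζ hζ => ?_⟩
    · have k := e3 (e.map_target (hr hζ))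
      have h1 := e.hasDerivAt_symm (hr hζ) k.2 (by
        rw [e1]
        exact (an _ k.1).differentiableAt.hasDerivAt)
      exact (h1.comp ζ (dd ζ)).differentiableAt.differentiableWithinAt
    · show e.symm (g y * exp (-(kap * 0))) = y
      rw [mul_zero, neg_zero, exp_zero, mul_one, ← e1]
      exact e.left_inv e2
    · have k := e3 (e.map_target (hr hζ))
      refine ⟨k.1, k.2, ?_⟩
      have := e.right_inv (hr hζ)
      rwa [e1] at this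
  · intro r E r0 hE E0 hγ
    have aE := hE.analyticOnNhd isOpen_ball 0 (mem_ball_self r0)
    have h1 : HasDerivAt (fun ζ => g (E ζ)) (deriv g y * deriv E 0) 0 :=
      HasDerivAt.comp_of_eq 0 (an y hy).differentiableAt.hasDerivAt
        aE.differentiableAt.hasDerivAt E0.symm
    have h2 := h1.unique ((dd 0).congr_of_eventuallyEq
      (eventually_of_mem (ball_mem_nhds 0 r0) hγ))
    have h3 : deriv E 0 ≠ 0 := fun h => by
      rw [h, mul_zero] at h2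
      refine mul_ne_zero g0 (mul_ne_zero (exp_ne_zero _) (neg_ne_zero.2 ?_)) h2.symm
      rw [mul_one]
      exact fun k => by simpa [kap] using congrArg Complex.re k
    rw [← E0, ← aE.hasStrictDerivAt.map_nhds_eq h3]
    exact mem_of_superset (image_mem_map (ball_mem_nhds 0 r0)) fun b hb => hb

end Vale.Agent.P097F.J
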