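import Vale.Agent.P097F.J.Defs

/-! # P097F.J: the local lemma -/

set_option linter.all false

noncomputable section

namespace Vale.Agent.P097F.J

open Filter Topology Set Metric Complex MeasureTheory
open Vale.Agent.P097Mo (Sf)

theorem Ww_tendsto (W₀ : ℂ) : Tendsto (Ww W₀) (𝓝 0) (𝓝 W₀) := by
  have h : Continuous (Ww W₀) := by unfold Ww; fun_prop
  simpa [Ww] using h.tendsto 0

theorem sg_chart {g : ℂ → ℂ} {W₀ y e ζ : ℂ} (z : ℂ) (h : g e = g y * exp (-(kap * ζ))) :
    sg g (Ww W₀ z) e = sg g W₀ y * exp (3 * kap * (z - ζ)) := by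
  have e1 : exp (3 * kap * (z - ζ)) = (exp (kap * z) * exp (-(kap * ζ))) ^ 3 := by
    rw [← Complex.exp_add, ← Complex.exp_nat_mul]
    congr 1
    push_cast
    ring
  rw [e1, sg, sg, Ww, h]
  ring

theorem seg_ball {a b : ℂ} {r : ℝ} (ha : a ∈ ball (0 : ℂ) r) (hb : b ∈ ball (0 : ℂ) r) {u : ℝ}
    (hu : u ∈ Icc (0 : ℝ) 1) : a + u * (b - a) ∈ ball (0 : ℂ) r := by
  have := (convex_ball (0 : ℂ) r).add_smul_sub_mem ha hb hu
  simpa using this

/-- the time along the image of a segment -/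
theorem key {H h : ℂ → ℂ} {r : ℝ} (hH : ∀ ζ ∈ ball (0 : ℂ) r, HasDerivAt H (h ζ) ζ) {a b : ℂ}
    (ha : a ∈ ball (0 : ℂ) r) (hb : b ∈ ball (0 : ℂ) r) :
    ∫ u in (0 : ℝ)..1, (b - a) * h (a + u * (b - a)) = H b - H a := by
  have hd : DifferentiableOn ℂ H (ball 0 r) := fun ζ hζ =>
    (hH ζ hζ).differentiableAt.differentiableWithinAt
  have hc : ContinuousOn h (ball 0 r) :=
    ((hd.deriv isOpen_ball).continuousOn).congr fun ζ hζ => (hH ζ hζ).deriv.symm
  have hl : Continuous fun u : ℝ => a + u * (b - a) := by fun_prop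
  have := intervalIntegral.integral_eq_sub_of_hasDerivAt (a := (0 : ℝ)) (b := 1)
    (f := fun u : ℝ => H (a + u * (b - a))) (f' := fun u : ℝ => (b - a) * h (a + u * (b - a)))
    (fun u hu => by
      rw [uIcc_of_le zero_le_one] at hu
      have h1 : HasDerivAt (fun w : ℂ => a + w * (b - a)) (b - a) (u : ℂ) := by
        simpa using ((hasDerivAt_id (u : ℂ)).mul_const (b - a)).const_add a
      have h2 := ((hH _ (seg_ball ha hb hu)).comp (u : ℂ) h1).comp_ofReal
      rw [mul_comm] at h2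
      exact h2)
    (by
      refine ContinuousOn.intervalIntegrable ?_
      rw [uIcc_of_le zero_le_one]
      exact continuousOn_const.mul (hc.comp hl.continuousOn fun u hu => seg_ball ha hb hu))
  simpa using this

/-- the data near a regular state -/
theorem setup (hD : S_DISC) (hV : S_DV) (hR : S_RHO) {g : ℂ → ℂ} {W₀ y d : ℂ} {ρ : ℝ}
    (hg : DifferentiableOn ℂ g LH) (hs : St g W₀ ρ y d) {r₀ : ℝ} (h0 : 0 < r₀) {E : ℂ → ℂ}
    (hE : DifferentiableOn ℂ E (ball 0 r₀)) (E0 : E 0 = y)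
    (hgE : ∀ ζ ∈ ball (0 : ℂ) r₀, g (E ζ) = g y * exp (-(kap * ζ))) :
    ∃ r : ℝ, 0 < r ∧ r ≤ 1 ∧ r ≤ r₀ ∧
      (∀ μ ∈ Sg (sg g W₀ y) ρ, (|μ.im| < r → μ.im = 0) ∧ (‖μ‖ < r → μ = 0)) ∧
      DifferentiableOn ℂ (fun μ => Dv d (sg g W₀ y * exp (3 * kap * μ))) (ball 0 (2 * r)) ∧
      (∀ μ ∈ ball (0 : ℂ) (2 * r), Dv d (sg g W₀ y * exp (3 * kap * μ)) ∈ US ∧
        Sf (Dv d (sg g W₀ y * exp (3 * kap * μ))) = sg g W₀ y * exp (3 * kap * μ) ∧
        ‖Dv d (sg g W₀ y * exp (3 * kap * μ))‖ ≤ ρ ∧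
        ‖(2 * Dv d (sg g W₀ y * exp (3 * kap * μ)))⁻¹‖ ≤ ‖d‖⁻¹) ∧
      ∀ᶠ z in 𝓝 (0 : ℂ), ∃ H : ℂ → ℂ, ∀ a ∈ ball (0 : ℂ) r, ∀ b ∈ ball (0 : ℂ) r,
        rho g (Dv d) (Ww W₀ z) (E a) (E b) = H b - H a ∧
        ∫ u in (0 : ℝ)..1, (b - a) * (g (E (a + u * (b - a))) * deriv E (a + u * (b - a)) *
          (2 * Dv d (sg g W₀ y * exp (3 * kap * (z - (a + u * (b - a))))))⁻¹) = H b - H a := by
  obtain ⟨hy, gy, gy', sd, hS, hρ⟩ := hs
  have d0 : d ≠ 0 := by
    rintro rfl
    simp at sd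
  obtain ⟨an, dv, e1, e2⟩ := hV.1 d (mul_ne_zero d0 sd)
  rw [hS] at an dv e1
  obtain ⟨δ, hδ, hdisc⟩ := hD (sg g W₀ y) ρ
  obtain ⟨r₁, h1, -, hrho⟩ := hR g (Dv d) W₀ y hg hy an (by rw [dv]; exact d0)
  have Ec : ContinuousAt E 0 := (hE.differentiableAt (ball_mem_nhds _ h0)).continuousAt
  have Eb : ∀ᶠ ζ in 𝓝 (0 : ℂ), E ζ ∈ ball y r₁ := Ec (by rw [E0]; exact ball_mem_nhds _ h1)
  set σ := sg g W₀ y with hσ
  have ha : AnalyticAt ℂ (fun μ : ℂ => σ * exp (3 * kap * μ)) 0 := by fun_prop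
  have ht : Tendsto (fun μ : ℂ => σ * exp (3 * kap * μ)) (𝓝 0) (𝓝 σ) := by
    simpa using ha.continuousAt.tendsto
  have hΔ : AnalyticAt ℂ (fun μ : ℂ => Dv d (σ * exp (3 * kap * μ))) 0 :=
    AnalyticAt.comp (g := Dv d) (f := fun μ : ℂ => σ * exp (3 * kap * μ)) (by simpa using an) ha
  have hΔt : Tendsto (fun μ : ℂ => Dv d (σ * exp (3 * kap * μ))) (𝓝 0) (𝓝 d) := by
    have := hΔ.continuousAt.tendsto
    simpa [dv] using this
  have ev1 : ∀ᶠ w in 𝓝 d, sin w ≠ 0 := continuous_sin.continuousAt.eventually_ne sd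
  have ev2 : ∀ᶠ w in 𝓝 d, ‖w‖ < ρ := continuous_norm.continuousAt.eventually_lt continuousAt_const hρ
  have dp : 0 < ‖d‖ := norm_pos_iff.2 d0
  have ev3 : ∀ᶠ w in 𝓝 d, ‖d‖ / 2 < ‖w‖ :=
    continuousAt_const.eventually_lt continuous_norm.continuousAt (by linarith)
  obtain ⟨r₂, h2, hb⟩ := Metric.eventually_nhds_iff_ball.1 (Eb.and (hΔ.eventually_analyticAt.and
    ((ht.eventually e1).and (hΔt.eventually (ev1.and (ev2.and ev3))))))
  refine ⟨min (min 1 r₀) (min δ (r₂ / 2)), by positivity,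
    (min_le_left _ _).trans (min_le_left _ _), (min_le_left _ _).trans (min_le_right _ _), ?_⟩
  set r := min (min 1 r₀) (min δ (r₂ / 2)) with hr
  have r0 : r ≤ r₀ := (min_le_left _ _).trans (min_le_right _ _)
  have rδ : r ≤ δ := (min_le_right _ _).trans (min_le_left _ _)
  have r2 : r ≤ r₂ / 2 := (min_le_right _ _).trans (min_le_right _ _)
  have s2 : ball (0 : ℂ) (2 * r) ⊆ ball 0 r₂ := ball_subset_ball (by linarith)
  have s1 : ball (0 : ℂ) r ⊆ ball 0 r₂ := ball_subset_ball (by linarith)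
  refine ⟨fun μ hμ => ⟨fun h => (hdisc μ hμ).1 (h.trans_le rδ), fun h => (hdisc μ hμ).2
    (h.trans_le rδ)⟩, fun μ hμ => (hb μ (s2 hμ)).2.1.differentiableAt.differentiableWithinAt,
    fun μ hμ => ?_, ?_⟩
  · obtain ⟨-, -, a1, a2, a3, a4⟩ := hb μ (s2 hμ)
    refine ⟨a2, a1, a3.le, ?_⟩
    rw [norm_inv, norm_mul, Complex.norm_two]
    exact inv_anti₀ dp (by linarith)
  filter_upwards [(Ww_tendsto W₀).eventually hrho] with z ⟨G, hG, hG'⟩
  refine ⟨fun ζ => G (E ζ), fun a ha b hb' => ⟨hG' _ (hb a (s1 ha)).1 _ (hb b (s1 hb')).1, ?_⟩⟩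
  refine key (H := fun ζ => G (E ζ)) (h := fun ζ => g (E ζ) * deriv E ζ *
    (2 * Dv d (σ * exp (3 * kap * (z - ζ))))⁻¹) (fun ζ hζ => ?_) ha hb'
  have hζ0 : ζ ∈ ball (0 : ℂ) r₀ := ball_subset_ball r0 hζ
  have d1 := (hE.differentiableAt (isOpen_ball.mem_nhds hζ0)).hasDerivAt
  have d2 := (hG _ (hb ζ (s1 hζ)).1).2.comp ζ d1
  rw [sg_chart z (hgE ζ hζ0)] at d2
  rw [mul_right_comm]
  exact d2

theorem Sd_open (s δ : ℝ) : IsOpen (Sd s δ) :=
  (isOpen_lt continuous_const continuous_re).inter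
    ((isOpen_lt continuous_const (continuous_const.mul continuous_im)).inter
      (isOpen_lt (continuous_const.mul continuous_im) continuous_const))

theorem Sd_convex (s δ : ℝ) : Convex ℝ (Sd s δ) := by
  have l : IsLinearMap ℝ fun μ : ℂ => s * μ.im :=
    ⟨fun a b => by simp [mul_add], fun c a => by simp; ring⟩
  exact (convex_halfSpace_re_gt _).inter ((convex_halfSpace_gt l 0).inter (convex_halfSpace_lt l δ))

theorem mem_two {μ : ℂ} {r : ℝ} (h1 : -(r / 10) < μ.re) (h2 : μ.re < r) (h3 : |μ.im| < r / 10) :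
    μ ∈ ball (0 : ℂ) (2 * r) := by
  rw [mem_ball_zero_iff]
  have := Complex.norm_le_abs_re_add_abs_im μ
  have h4 : 0 ≤ |μ.im| := abs_nonneg _
  have h5 : |μ.re| < r := abs_lt.2 ⟨by linarith, h2⟩
  linarith

theorem loc (hRay : S_RAY) (hC : S_CH) (hD : S_DISC) (hV : S_DV) (hB : S_BND) (hP : S_PURE)
    (hS : S_STRAND) (hX : S_BEXT) (hR : S_RHO) : S_LOC := by
  intro g W₀ y d ρ hg W0 hs haim
  have hs' := hs
  obtain ⟨hy, gy, gy', sd, hSf, hρ⟩ := hs'
  have σ0 : sg g W₀ y ≠ 0 := div_ne_zero (pow_ne_zero _ (mul_ne_zero W0 gy)) (by norm_num)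
  have go : IsOpen LH := isOpen_lt continuous_im continuous_const
  by_cases hA : Aim g W₀ ρ y
  · obtain ⟨O, E, Oo, Oray, hE, hgE, E0, hint⟩ := hRay g y hg gy (haim hA)
    obtain ⟨r₀, h0, hO⟩ := Metric.isOpen_iff.1 Oo 0 (by simpa using Oray 0 le_rfl)
    obtain ⟨r, rp, r1, r0, hdisc, hΔ, hΔ', hH⟩ := setup hD hV hR hg hs h0 (hE.mono hO) E0
      fun ζ hζ => (hgE ζ (hO hζ)).2.2
    have sb : ball (0 : ℂ) (r / 10 / 2) ⊆ ball 0 r₀ := ball_subset_ball (by linarith)
    have cov := (hC g y hg hy gy gy').2 (r / 10 / 2) E (by positivity) (hE.mono (sb.trans hO)) E0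
      fun ζ hζ => (hgE ζ (hO (sb hζ))).2.2
    have hA' : DifferentiableOn ℂ (fun ζ => g (E ζ) * deriv E ζ) O :=
      (hg.comp hE fun ζ hζ => (hgE ζ hζ).1).mul (hE.deriv Oo)
    have one : ∀ a ∈ ball (0 : ℂ) (r / 10 / 2), Gen g W₀ ρ (E a) →
        Dec fun z => rho g (Dv d) (Ww W₀ z) (E a) (E z) := by
      intro a ha hG
      have an : ‖a‖ < r / 10 / 2 := mem_ball_zero_iff.1 ha
      have aim : a.im ≠ 0 := by
        intro h
        obtain ⟨τ, -, k, k0, k1, k2⟩ := hA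
        refine hG (τ + a.re) ⟨k, k0, k1, ?_⟩
        have e := sg_chart (W₀ := W₀) 0 (hgE a (hO (sb ha))).2.2
        have ea : (a.re : ℂ) = a := Complex.ext (by simp) (by simp [h])
        simp only [Ww, mul_zero, Complex.exp_zero, mul_one] at e
        rw [e, ← k2, mul_assoc, ← Complex.exp_add]
        push_cast
        rw [ea]
        congr 2
        ring
      obtain ⟨s, hs1, hs2⟩ : ∃ s : ℝ, (s = 1 ∨ s = -1) ∧ s * a.im < 0 := by
        rcases lt_or_gt_of_ne aim with h | h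
        · exact ⟨1, Or.inl rfl, by linarith⟩
        · exact ⟨-1, Or.inr rfl, by linarith⟩
      have sabs : ∀ x : ℝ, |s * x| = |x| := fun x => by rcases hs1 with h | h <;> simp [h]
      have him : ∀ μ ∈ Sd s (r / 10), |μ.im| < r / 10 := fun μ hμ => by
        rw [← sabs, abs_of_pos hμ.2.1]
        exact hμ.2.2
      have are := (Complex.abs_re_le_norm a).trans_lt an
      have aie := (Complex.abs_im_le_norm a).trans_lt an
      have pa : -a ∈ Sd s (r / 10) := by
        refine ⟨?_, by simpa using hs2, ?_⟩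
        · have := (abs_lt.1 are).2
          simp only [neg_re]
          linarith
        · have := (abs_lt.1 ((sabs a.im).trans_lt aie)).1
          simp only [neg_im, mul_neg]
          linarith
      obtain ⟨B, hBk, hBe⟩ := hX (sg g W₀ y) (-a) ρ r (Sd s (r / 10))
        (fun μ => Dv d (sg g W₀ y * exp (3 * kap * μ))) σ0 rp r1 (Sd_open _ _) (Sd_convex _ _) him
        (Set.disjoint_left.2 fun μ hμ hμ' => by
          have := (hdisc μ hμ').1 ((him μ hμ).trans (by linarith))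
          have h2 := hμ.2.1
          rw [this, mul_zero] at h2
          exact lt_irrefl _ h2) pa (by rw [norm_neg]; linarith)
        (hΔ.mono fun μ hμ => mem_two hμ.1.1 hμ.2 (him μ hμ.1))
        (fun μ hμ h => ⟨(hΔ' μ (mem_two hμ.1 h (him μ hμ))).1,
          (hΔ' μ (mem_two hμ.1 h (him μ hμ))).2.1⟩)
        (hΔ' _ (by rw [mem_ball_zero_iff, norm_neg]; linarith)).2.2.1
        ⟨_, fun μ hμ h => (hΔ' μ (mem_two hμ.1 h (him μ hμ))).2.2.2⟩
      refine (hS s (r / 10) _ B O a hs1 (by positivity) Oo Oray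
        ((ball_subset_ball (by linarith)).trans hO) hA' hint hBk an hs2).congr ?_
      have m0 : 0 < min (r / 10 / 2) |a.im| := lt_min (by positivity) (abs_pos.2 aim)
      filter_upwards [hH, ball_mem_nhds (0 : ℂ) m0] with z ⟨H, hH⟩ hz
      have zn : ‖z‖ < r / 10 / 2 := (mem_ball_zero_iff.1 hz).trans_le (min_le_left _ _)
      have zi : |z.im| < |a.im| := (Complex.abs_im_le_norm z).trans_lt
        ((mem_ball_zero_iff.1 hz).trans_le (min_le_right _ _))
      obtain ⟨q1, q2⟩ := hH a (ball_subset_ball (by linarith) ha) z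
        (mem_ball_zero_iff.2 (by linarith))
      rw [q1, ← q2]
      refine intervalIntegral.integral_congr_ae ?_
      have ne1 : ∀ᵐ u : ℝ, u ≠ 1 := by simp [ae_iff]
      filter_upwards [ne1] with u hu1 hu
      rw [uIoc_of_le zero_le_one] at hu
      have u1 : 0 < 1 - u := sub_pos.2 (lt_of_le_of_ne hu.2 hu1)
      have u2 : 1 - u ≤ 1 := by linarith [hu.1]
      have zre := (Complex.abs_re_le_norm z).trans_lt zn
      have zie := (Complex.abs_im_le_norm z).trans_lt zn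
      have ere : (((1 : ℂ) - u) * (z - a)).re = (1 - u) * (z.re - a.re) := by simp
      have eim : (((1 : ℂ) - u) * (z - a)).im = (1 - u) * (z.im - a.im) := by simp
      have b1 : |z.re - a.re| < r / 10 := (abs_sub _ _).trans_lt (by linarith)
      have b2 : |(1 - u) * (z.re - a.re)| < r / 10 := by
        rw [abs_mul, abs_of_pos u1]
        exact (mul_le_of_le_one_left (abs_nonneg _) u2).trans_lt b1
      have b3 : 0 < s * (z.im - a.im) := by
        have := (abs_lt.1 ((sabs z.im).trans_lt zi)).1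
        rw [← sabs a.im, abs_of_neg hs2] at this
        linarith
      have b4 : s * (z.im - a.im) < r / 10 := by
        have := (abs_lt.1 ((sabs z.im).trans_lt zie)).2
        have := (abs_lt.1 ((sabs a.im).trans_lt aie)).1
        linarith
      have mem : ((1 : ℂ) - u) * (z - a) ∈ Sd s (r / 10) := by
        refine ⟨by rw [ere]; exact (abs_lt.1 b2).1, ?_, ?_⟩
        · rw [eim, mul_left_comm]
          exact mul_pos u1 b3
        · rw [eim, mul_left_comm]
          exact (mul_le_of_le_one_left b3.le u2).trans_lt b4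
      have e : z - (a + u * (z - a)) = (1 - u) * (z - a) := by ring
      rw [hBe _ mem (by rw [ere]; linarith [(abs_lt.1 b2).2]), e]
    filter_upwards [cov.prod_nhds cov] with p ⟨⟨a, ha, ea⟩, ⟨b, hb, eb⟩⟩ g1 g2
    rw [← ea] at g1 ⊢
    rw [← eb] at g2 ⊢
    refine ((one a ha g1).sub (one b hb g2)).congr ?_
    filter_upwards [hH, ball_mem_nhds (0 : ℂ) rp] with z ⟨H, hH⟩ hz
    have ha' : a ∈ ball (0 : ℂ) r := ball_subset_ball (by linarith) ha
    have hb' : b ∈ ball (0 : ℂ) r := ball_subset_ball (by linarith) hb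
    rw [(hH a ha' z hz).1, (hH b hb' z hz).1, (hH a ha' b hb').1]
    ring
  · obtain ⟨r₀, h0, E, hE, E0, hgE⟩ := (hC g y hg hy gy gy').1
    obtain ⟨r, rp, r1, r0, hdisc, hΔ, hΔ', hH⟩ := setup hD hV hR hg hs h0 hE E0
      fun ζ hζ => (hgE ζ hζ).2.2
    have sb : ball (0 : ℂ) (r / 10 / 2) ⊆ ball 0 r₀ := ball_subset_ball (by linarith)
    have cov := (hC g y hg hy gy gy').2 (r / 10 / 2) E (by positivity) (hE.mono sb) E0
      fun ζ hζ => (hgE ζ (sb hζ)).2.2
    have hA' : DifferentiableOn ℂ (fun ζ => g (E ζ) * deriv E ζ) (ball 0 r₀) :=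
      (hg.comp hE fun ζ hζ => (hgE ζ hζ).1).mul (hE.deriv isOpen_ball)
    set C : Set ℂ := {μ | -(r / 10) < μ.re} ∩ ({μ | -(r / 10) < μ.im} ∩ {μ | μ.im < r / 10})
      with hCd
    have Co : IsOpen C := (isOpen_lt continuous_const continuous_re).inter
      ((isOpen_lt continuous_const continuous_im).inter (isOpen_lt continuous_im continuous_const))
    have Cc : Convex ℝ C := (convex_halfSpace_re_gt _).inter
      ((convex_halfSpace_im_gt _).inter (convex_halfSpace_im_lt _))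
    have him : ∀ μ ∈ C, |μ.im| < r / 10 := fun μ hμ => abs_lt.2 hμ.2
    have r10 : 0 < r / 10 := by positivity
    obtain ⟨B, hBk, hBe⟩ := hX (sg g W₀ y) 0 ρ r C
      (fun μ => Dv d (sg g W₀ y * exp (3 * kap * μ))) σ0 rp r1 Co Cc him
      (Set.disjoint_left.2 fun μ hμ hμ' => by
        have h1 := (hdisc μ hμ').1 ((him μ hμ).trans (by linarith))
        have eμ : (μ.re : ℂ) = μ := Complex.ext (by simp) (by simp [h1])
        refine hA ⟨μ.re, ?_, by rw [eμ]; exact hμ'⟩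
        by_contra h
        have h2 : -(r / 10) < μ.re := hμ.1
        have h3 : ‖μ‖ < r := by
          rw [← eμ, Complex.norm_real, Real.norm_eq_abs, abs_lt]
          constructor <;> linarith
        have := (hdisc μ hμ').2 h3
        rw [this] at h
        simp at h)
      ⟨by simpa using rp, by simpa using rp, by simpa using rp⟩ (by simpa using rp)
      (hΔ.mono fun μ hμ => mem_two hμ.1.1 hμ.2 (him μ hμ.1))
      (fun μ hμ h => ⟨(hΔ' μ (mem_two hμ.1 h (him μ hμ))).1,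
        (hΔ' μ (mem_two hμ.1 h (him μ hμ))).2.1⟩)
      (hΔ' _ (mem_ball_self (by positivity))).2.2.1
      ⟨_, fun μ hμ h => (hΔ' μ (mem_two hμ.1 h (him μ hμ))).2.2.2⟩
    filter_upwards [cov.prod_nhds cov] with p ⟨⟨a, ha, ea⟩, ⟨b, hb, eb⟩⟩ _ _
    rw [← ea, ← eb]
    have hl : Continuous fun u : ℝ => a + u * (b - a) := by fun_prop
    have inC : ∀ t ∈ Ioc (0 : ℝ) 1, ∀ z : ℂ, -(r / 10 / 2) < z.re → |z.im| < r / 10 / 2 →
        -(a + t * (b - a)) + z ∈ C := by
      intro t ht z z1 z2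
      have hn := mem_ball_zero_iff.1 (seg_ball ha hb (Ioc_subset_Icc_self ht))
      have a1 := abs_lt.1 ((Complex.abs_re_le_norm _).trans_lt hn)
      have a2 := abs_lt.1 ((Complex.abs_im_le_norm _).trans_lt hn)
      have a3 := abs_lt.1 z2
      generalize a + t * (b - a) = w at a1 a2 ⊢
      refine ⟨?_, ?_, ?_⟩ <;> simp only [mem_setOf_eq, add_re, neg_re, add_im, neg_im] <;> linarith
    refine (hP (Ioc 0 1) (fun t => (b - a) * (g (E (a + t * (b - a))) * deriv E (a + t * (b - a))))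
      (fun t => -(a + t * (b - a))) B C (r / 10 / 2) measurableSet_Ioc ?_ hl.neg.continuousOn Co hBk
      (by positivity) inC).congr ?_
    · refine (ContinuousOn.integrableOn_Icc ?_).mono_set Ioc_subset_Icc_self
      exact continuousOn_const.mul (hA'.continuousOn.comp hl.continuousOn
        fun u hu => sb (seg_ball ha hb hu))
    filter_upwards [hH, ball_mem_nhds (0 : ℂ) (show 0 < r / 10 / 2 by positivity)] with z
      ⟨H, hH⟩ hz
    obtain ⟨q1, q2⟩ := hH a (ball_subset_ball (by linarith) ha) b (ball_subset_ball (by linarith) hb)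
    rw [q1, ← q2, intervalIntegral.integral_of_le zero_le_one]
    refine setIntegral_congr_fun measurableSet_Ioc fun t ht => ?_
    have zn := mem_ball_zero_iff.1 hz
    have z1 := abs_lt.1 ((Complex.abs_re_le_norm z).trans_lt zn)
    have hn := mem_ball_zero_iff.1 (seg_ball ha hb (Ioc_subset_Icc_self ht))
    have a1 := abs_lt.1 ((Complex.abs_re_le_norm _).trans_lt hn)
    have lt : (-(a + t * (b - a)) + z).re < r := by
      generalize a + t * (b - a) = w at a1 ⊢
      simp only [add_re, neg_re]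
      linarith
    have e : z - (a + t * (b - a)) = -(a + t * (b - a)) + z := by ring
    rw [hBe _ (inC t ht z z1.1 ((Complex.abs_im_le_norm z).trans_lt zn)) lt, e]
    ring

end Vale.Agent.P097F.J
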