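import Vale.Agent.P097F.J.Defs

/-!
# P097F.J: holomorphic parameter integrals, primitives, the time along a segment
-/

set_option linter.all false

noncomputable section

namespace Vale.Agent.P097F.J

open Filter Topology Set Metric Complex MeasureTheory

/-- **a locally dominated parameter integral is holomorphic** (no derivative in the hypotheses) -/
theorem diffOn_integral {Y : Type*} [MeasurableSpace Y] {ν : Measure Y} {U : Set ℂ}
    (hU : IsOpen U) {F : ℂ → Y → ℂ} (hmeas : ∀ z ∈ U, AEStronglyMeasurable (F z) ν)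
    (hd : ∀ᵐ y ∂ν, DifferentiableOn ℂ (fun z => F z y) U)
    (hb : ∀ z ∈ U, ∃ r > 0, ∃ g : Y → ℝ, Integrable g ν ∧
      ∀ᵐ y ∂ν, ∀ w ∈ Metric.ball z r, ‖F w y‖ ≤ g y) :
    DifferentiableOn ℂ (fun z => ∫ y, F z y ∂ν) U := by
  intro z0 hz0
  obtain ⟨r1, hr1, hrU⟩ := Metric.isOpen_iff.1 hU z0 hz0
  obtain ⟨r2, hr2, g, hg, hgb⟩ := hb z0 hz0
  set R := min r1 r2 / 2 with hR
  have hR0 : 0 < R := by
    have := lt_min hr1 hr2
    positivity
  have hR1 : R < r1 := by
    have := min_le_left r1 r2
    rw [hR]
    linarith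
  have hR2 : R < r2 := by
    have := min_le_right r1 r2
    rw [hR]
    linarith
  have hRU : Metric.closedBall z0 R ⊆ U := (Metric.closedBall_subset_ball hR1).trans hrU
  have hRb : Metric.closedBall z0 R ⊆ Metric.ball z0 r2 := Metric.closedBall_subset_ball hR2
  have key := hasDerivAt_integral_of_dominated_loc_of_deriv_le (μ := ν) (𝕜 := ℂ)
    (F := F) (F' := fun z y => deriv (fun z => F z y) z) (x₀ := z0)
    (s := Metric.ball z0 (R / 2)) (bound := fun y => g y / (R / 2))
    (Metric.ball_mem_nhds z0 (by positivity))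
    (by
      filter_upwards [hU.mem_nhds hz0] with z hz
      exact hmeas z hz)
    (by
      refine Integrable.mono' hg (hmeas z0 hz0) ?_
      filter_upwards [hgb] with y hy
      exact hy z0 (Metric.mem_ball_self hr2))
    (by
      refine aestronglyMeasurable_of_tendsto_ae (u := atTop)
        (f := fun (n : ℕ) y => ((R / ((n : ℝ) + 1) : ℝ) : ℂ)⁻¹ *
          (F (z0 + ((R / ((n : ℝ) + 1) : ℝ) : ℂ)) y - F z0 y)) ?_ ?_
      · intro n
        refine AEStronglyMeasurable.const_mul ((hmeas _ (hRU ?_)).sub (hmeas z0 hz0)) _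
        rw [Metric.mem_closedBall, dist_eq_norm, add_sub_cancel_left, Complex.norm_real,
          Real.norm_of_nonneg (by positivity)]
        exact div_le_self hR0.le (by linarith [Nat.cast_nonneg (α := ℝ) n])
      · filter_upwards [hd] with y hy
        have h1 : HasDerivAt (fun z => F z y) (deriv (fun z => F z y) z0) z0 :=
          (hy.differentiableAt (hU.mem_nhds hz0)).hasDerivAt
        have h2 := h1.tendsto_slope_zero
        have h3 : Tendsto (fun n : ℕ => ((R / ((n : ℝ) + 1) : ℝ) : ℂ)) atTop (𝓝[≠] 0) := by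
          rw [tendsto_nhdsWithin_iff]
          constructor
          · have h4 : Tendsto (fun n : ℕ => R / ((n : ℝ) + 1)) atTop (𝓝 0) :=
              tendsto_const_nhds.div_atTop
                (tendsto_atTop_add_const_right _ _ tendsto_natCast_atTop_atTop)
            have h5 := (Complex.continuous_ofReal.tendsto 0).comp h4
            rw [Complex.ofReal_zero] at h5
            exact h5
          · refine Eventually.of_forall fun n => ?_
            have : R / ((n : ℝ) + 1) ≠ 0 := by positivity
            rw [mem_compl_singleton_iff, Ne, Complex.ofReal_eq_zero]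
            exact this
        exact (h2.comp h3).congr fun n => by simp [smul_eq_mul])
    (by
      filter_upwards [hd, hgb] with y hy hgy
      intro z hz
      have hsub : Metric.closedBall z (R / 2) ⊆ Metric.closedBall z0 R := by
        intro w hw
        rw [Metric.mem_closedBall] at hw ⊢
        rw [Metric.mem_ball] at hz
        linarith [dist_triangle w z z0]
      refine Complex.norm_deriv_le_of_forall_mem_sphere_norm_le (by positivity) ?_ ?_
      · refine DifferentiableOn.diffContOnCl ?_
        rw [closure_ball _ (by positivity)]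
        exact hy.mono (hsub.trans hRU)
      · intro w hw
        exact hgy w (hRb (hsub (Metric.sphere_subset_closedBall hw))))
    (hg.div_const _)
    (by
      filter_upwards [hd] with y hy
      intro z hz
      have hzU : z ∈ U := hRU (Metric.ball_subset_closedBall
        (Metric.ball_subset_ball (by linarith) hz))
      exact (hy.differentiableAt (hU.mem_nhds hzU)).hasDerivAt)
  exact key.2.differentiableAt.differentiableWithinAt

theorem pure : S_PURE := by
  intro T a φ B C η hT ha hφ hC ⟨hB, ⟨M, hM⟩, hs⟩ hη hm ε hε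
  have ae : ∀ᵐ t ∂(volume.restrict T), t ∈ T := ae_restrict_mem hT
  have ms : ∀ z : ℂ, -η < z.re → |z.im| < η →
      AEStronglyMeasurable (fun t => a t * B (φ t + z)) (volume.restrict T) := fun z h1 h2 =>
    ha.aestronglyMeasurable.mul ((hB.continuousOn.comp (hφ.add continuousOn_const)
      fun t ht => hm t ht z h1 h2).aestronglyMeasurable hT)
  have bd : ∀ t ∈ T, ∀ z : ℂ, -η < z.re → |z.im| < η → ‖a t * B (φ t + z)‖ ≤ ‖a t‖ * M :=
    fun t ht z h1 h2 => by
      rw [norm_mul]
      exact mul_le_mul_of_nonneg_left (hM _ (hm t ht z h1 h2)) (norm_nonneg _)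
  have o : IsOpen {z : ℂ | -η < z.re ∧ |z.im| < η} :=
    (isOpen_lt continuous_const continuous_re).inter
      (isOpen_lt (continuous_abs.comp continuous_im) continuous_const)
  have d : DifferentiableOn ℂ (fun z => ∫ t in T, a t * B (φ t + z))
      {z : ℂ | -η < z.re ∧ |z.im| < η} := by
    refine diffOn_integral o (F := fun z t => a t * B (φ t + z)) (fun z hz => ms z hz.1 hz.2) ?_ ?_
    · filter_upwards [ae] with t ht
      exact (hB.comp ((differentiableOn_const _).add differentiableOn_id)
        fun z hz => hm t ht z hz.1 hz.2).const_mul _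
    · intro z hz
      obtain ⟨r, hr, hb⟩ := Metric.isOpen_iff.1 o z hz
      refine ⟨r, hr, fun t => ‖a t‖ * M, ha.norm.mul_const M, ?_⟩
      filter_upwards [ae] with t ht w hw
      exact bd t ht w (hb hw).1 (hb hw).2
  have re0 : ∀ᶠ R : ℝ in atTop, -η < (R : ℂ).re ∧ |(R : ℂ).im| < η := by
    filter_upwards [eventually_ge_atTop 0] with R hR
    exact ⟨by rw [ofReal_re]; linarith, by rw [ofReal_im, abs_zero]; exact hη⟩
  have lim : Tendsto (fun R : ℝ => ∫ t in T, a t * B (φ t + R)) atTop
      (𝓝 (∫ t in T, (0 : ℂ))) := by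
    refine tendsto_integral_filter_of_dominated_convergence (fun t => ‖a t‖ * M)
      (re0.mono fun R h => ms R h.1 h.2) (re0.mono fun R h => ?_) (ha.norm.mul_const M) ?_
    · filter_upwards [ae] with t ht
      exact bd t ht R h.1 h.2
    · filter_upwards [ae] with t ht
      have : Tendsto (fun R : ℝ => B (φ t + R)) atTop (𝓝 0) := by
        rw [NormedAddGroup.tendsto_nhds_zero]
        intro e he
        obtain ⟨R₀, h₀⟩ := hs (e / 2) (by linarith)
        filter_upwards [re0, eventually_ge_atTop (R₀ - (φ t).re)] with R h1 h2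
        refine (h₀ _ (hm t ht R h1.1 h1.2) ?_).trans_lt (by linarith)
        rw [add_re, ofReal_re]
        linarith
      simpa using this.const_mul (a t)
  rw [integral_zero] at lim
  filter_upwards [NormedAddGroup.tendsto_nhds_zero.1 lim ε hε] with R hR
  exact ⟨η, hη, _, d.mono fun z hz => ⟨hz.1, hz.2.2⟩, EventuallyEq.rfl, hR.le⟩

theorem prim : S_PRIM := by
  intro f C ho hc hf
  obtain ⟨G, hG⟩ := hc.exists_forall_hasDerivWithinAt hf
  have dG : ∀ z ∈ C, HasDerivAt G (f z) z := fun z hz => (hG z hz).hasDerivAt (ho.mem_nhds hz)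
  refine ⟨G, dG, fun a ha b hb => ?_⟩
  have m : ∀ t ∈ uIcc (0 : ℝ) 1, a + t * (b - a) ∈ C := fun t ht => by
    rw [uIcc_of_le zero_le_one] at ht
    have := hc.add_smul_sub_mem ha hb ht
    rwa [real_smul] at this
  have k : ∀ t ∈ uIcc (0 : ℝ) 1, HasDerivAt (fun t : ℝ => G (a + t * (b - a)))
      ((b - a) * f (a + t * (b - a))) t := fun t ht => by
    have h1 : HasDerivAt (fun u : ℂ => a + u * (b - a)) (b - a) (t : ℂ) := by
      simpa using ((hasDerivAt_id (t : ℂ)).mul_const (b - a)).const_add a
    have h2 := ((dG _ (m t ht)).comp (t : ℂ) h1).comp_ofReal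
    rw [mul_comm] at h2
    exact h2
  have c : ContinuousOn (fun t : ℝ => (b - a) * f (a + t * (b - a))) (uIcc 0 1) :=
    continuousOn_const.mul (hf.continuousOn.comp (by fun_prop) m)
  rw [intervalIntegral.integral_eq_sub_of_hasDerivAt k c.intervalIntegrable]
  simp

theorem rho_of (hP : S_PRIM) : S_RHO := by
  intro g D W₀ y hg hy hD h0
  have o : IsOpen LH := isOpen_lt continuous_im continuous_const
  have cg : ContinuousAt g y := (hg.differentiableAt (o.mem_nhds hy)).continuousAt
  have cs : ContinuousAt (fun p : ℂ × ℂ => sg g p.1 p.2) (W₀, y) :=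
    ((continuousAt_fst.mul (ContinuousAt.comp (x := (W₀, y)) cg continuousAt_snd)).pow 3).div_const _
  have e : ∀ᶠ σ in 𝓝 (sg g W₀ y), AnalyticAt ℂ D σ ∧ D σ ≠ 0 :=
    hD.eventually_analyticAt.and (hD.continuousAt.eventually_ne h0)
  have e2 := cs.eventually e
  rw [nhds_prod_eq] at e2
  obtain ⟨pa, ha, pb, hb, hab⟩ := eventually_prod_iff.1 e2
  obtain ⟨r, hr, hs⟩ := Metric.eventually_nhds_iff_ball.1 (hb.and (o.mem_nhds hy))
  refine ⟨r, hr, fun b hb => (hs b hb).2, ha.mono fun W hW => ?_⟩
  have gd : DifferentiableOn ℂ g (ball y r) := hg.mono fun b hb => (hs b hb).2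
  have d : DifferentiableOn ℂ (fun b => g b * (2 * D (sg g W b))⁻¹) (ball y r) := by
    refine gd.mul (DifferentiableOn.inv ?_ fun b hb =>
      mul_ne_zero two_ne_zero (hab hW (hs b hb).1).2)
    refine DifferentiableOn.const_mul (fun b hb => ?_) _
    exact (hab hW (hs b hb).1).1.differentiableAt.comp_differentiableWithinAt b
      (f := fun b => sg g W b) ((((gd b hb).const_mul W).pow 3).div_const 24)
  obtain ⟨G, h1, h2⟩ := hP _ _ isOpen_ball (convex_ball y r) d
  exact ⟨G, fun b hb => ⟨(hab hW (hs b hb).1).2, h1 b hb⟩, h2⟩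

end Vale.Agent.P097F.J
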