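import Vale.Agent.P097F.J.Defs

/-!
# P097F.J: inverse branches on star shaped sets and along a trail
-/

set_option linter.all false

noncomputable section

namespace Vale.Agent.P097F.J

open Filter Topology Set Metric Complex MeasureTheory

namespace Star

/-- the end point of the lift of the segment -/
def ee (f h : ℂ → ℂ) (U : Set ℂ) (p y₀ q : ℂ) : ℂ :=
  Classical.epsilon (Lft f U (fun t => h (p + t * (q - p))) y₀ (Icc 0 1)) 1

theorem seg {p q : ℂ} {t : ℝ} (ht : t ∈ Icc (0 : ℝ) 1) : p + t * (q - p) ∈ segment ℝ p q := by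
  rw [segment_eq_image']
  exact ⟨t, ht, by simp⟩

theorem key (hU : S_UNIQ) {f h φ : ℂ → ℂ} {U K : Set ℂ} {p y₀ : ℂ} (hR : Rg f U)
    (hK : Convex ℝ K) (hp : p ∈ K) (hc : ContinuousOn φ K)
    (hφ : ∀ m ∈ K, φ m ∈ U ∧ f (φ m) = h m) (h0 : φ p = y₀) : EqOn (ee f h U p y₀) φ K := by
  intro q hq
  have m : ∀ t ∈ Icc (0 : ℝ) 1, p + t * (q - p) ∈ K := fun t ht =>
    hK.segment_subset hp hq (seg ht)
  have L : Lft f U (fun t => h (p + t * (q - p))) y₀ (Icc 0 1) fun t => φ (p + t * (q - p)) :=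
    ⟨hc.comp (by fun_prop) m, fun t ht => (hφ _ (m t ht)).1, fun t ht => (hφ _ (m t ht)).2,
      by simpa using h0⟩
  have L' := Classical.epsilon_spec ⟨_, L⟩
  have := hU f U ℝ (Icc 0 1) _ _ 0 hR isPreconnected_Icc L'.1 L.1 L'.2.1
    (fun t ht => (L'.2.2.1 t ht).trans (L.2.2.1 t ht).symm) (by simp)
    (L'.2.2.2.trans L.2.2.2.symm) (show (1 : ℝ) ∈ Icc 0 1 by simp)
  simpa [ee] using this

theorem nb (hU : S_UNIQ) (hT : S_THIN) {f h : ℂ → ℂ} {U : Set ℂ} {p q y₀ : ℂ} {Γ : ℝ → ℂ}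
    (hR : Rg f U) (hh : Differentiable ℂ h) (hpq : p ≠ q) (hi : InjOn h (segment ℝ p q))
    (L : Lft f U (fun t => h (p + t * (q - p))) y₀ (Icc 0 1) Γ) :
    ∃ K : Set ℂ, IsOpen K ∧ segment ℝ p q ⊆ K ∧ DifferentiableOn ℂ (ee f h U p y₀) K ∧
      (∀ m ∈ K, ee f h U p y₀ m ∈ U ∧ f (ee f h U p y₀ m) = h m) ∧
      ∀ t ∈ Icc (0 : ℝ) 1, ee f h U p y₀ (p + t * (q - p)) = Γ t := by
  obtain ⟨δ, hδ, φ, h1, h2, h3⟩ := hT f h U p q y₀ Γ hR hh hpq hi L
  have s := self_subset_thickening hδ (segment ℝ p q)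
  have e := key hU hR ((convex_segment p q).thickening δ) (s (left_mem_segment ℝ p q))
    h1.continuousOn h2 (y₀ := y₀) (by simpa [L.2.2.2] using h3 0 (by simp))
  exact ⟨_, isOpen_thickening, s, h1.congr e, fun m hm => e hm ▸ h2 m hm,
    fun t ht => (e (s (seg ht))).trans (h3 t ht)⟩

end Star

open Star

theorem star (hU : S_UNIQ) (hT : S_THIN) : S_STAR := by
  intro f h U C p y₀ hR hh hC hc hp hi _ _ hL
  have main : ∀ q ∈ C, ∃ K : Set ℂ, IsOpen K ∧ q ∈ K ∧ DifferentiableOn ℂ (ee f h U p y₀) K ∧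
      (∀ m ∈ K, ee f h U p y₀ m ∈ U ∧ f (ee f h U p y₀ m) = h m) ∧ ee f h U p y₀ p = y₀ := by
    intro q hq
    obtain ⟨q', h1, h2, h3⟩ : ∃ q' ∈ C, p ≠ q' ∧ q ∈ segment ℝ p q' := by
      by_cases e : p = q
      · obtain ⟨q', a, b⟩ := ((mem_nhdsWithin_of_mem_nhds (t := {p}ᶜ) (hC.mem_nhds hp)) |>
          fun k => Filter.nonempty_of_mem (inter_mem k self_mem_nhdsWithin))
        exact ⟨q', a, Ne.symm b, e ▸ left_mem_segment ℝ p q'⟩
      · exact ⟨q, hq, e, right_mem_segment ℝ p q⟩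
    obtain ⟨Γ, L⟩ := hL q' h1
    obtain ⟨K, k1, k2, k3, k4, k5⟩ := nb hU hT hR hh h2 (hi.mono (hc.segment_subset hp h1)) L
    exact ⟨K, k1, k2 h3, k3, k4, by simpa [L.2.2.2] using k5 0 (by simp)⟩
  refine ⟨ee f h U p y₀, fun q hq => ?_, fun q hq => ?_, ?_⟩
  · obtain ⟨K, k1, k2, k3, -⟩ := main q hq
    exact (k3.differentiableAt (k1.mem_nhds k2)).differentiableWithinAt
  · obtain ⟨K, -, k2, -, k4, -⟩ := main q hq
    exact k4 q k2
  · obtain ⟨K, -, -, -, -, k5⟩ := main p hp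
    exact k5

theorem ray (hU : S_UNIQ) (hT : S_THIN) : S_RAY := by
  rintro g y hg g0 ⟨Γ, c, h0, hΓ, hI⟩
  have oL : IsOpen LH := isOpen_lt continuous_im continuous_const
  let U : Set ℂ := {z | z ∈ LH ∧ deriv g z ≠ 0}
  have hR : Rg g U := ⟨((hg.analyticOnNhd oL).deriv.continuousOn.isOpen_inter_preimage oL
    isOpen_compl_singleton :), hg.mono fun z hz => hz.1, fun z hz => hz.2⟩
  let h : ℂ → ℂ := fun z => g y * exp (-(kap * z))
  have hh : Differentiable ℂ h := by fun_prop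
  have main : ∀ R : ℝ, 0 ≤ R → ∃ K : Set ℂ, IsOpen K ∧ (R : ℂ) ∈ K ∧
      DifferentiableOn ℂ (ee g h U 0 y) K ∧
      (∀ m ∈ K, ee g h U 0 y m ∈ U ∧ g (ee g h U 0 y m) = h m) ∧ ee g h U 0 y R = Γ R := by
    intro R R0
    have m : ∀ t ∈ Icc (0 : ℝ) 1, 0 ≤ t * (R + 1) := fun t ht => mul_nonneg ht.1 (by linarith)
    have r : R / (R + 1) ∈ Icc (0 : ℝ) 1 := ⟨by positivity, by
      rw [div_le_one (by linarith)]; linarith⟩
    have r1 : R / (R + 1) * (R + 1) = R := div_mul_cancel₀ _ (by linarith)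
    have r2 : (0 : ℂ) + (R / (R + 1) : ℝ) * (((R + 1 : ℝ) : ℂ) - 0) = R := by
      rw [zero_add, sub_zero, ← ofReal_mul, r1]
    obtain ⟨K, k1, k2, k3, k4, k5⟩ := nb hU hT (p := 0) (q := ((R + 1 : ℝ) : ℂ)) (y₀ := y)
      (Γ := fun t => Γ (t * (R + 1))) hR hh (ofReal_ne_zero.2 (by linarith)).symm (by
        rw [segment_eq_image']
        rintro _ ⟨s, -, rfl⟩ _ ⟨t, -, rfl⟩ e
        have := congrArg norm (mul_left_cancel₀ g0 e)
        simp only [norm_exp, Real.exp_eq_exp] at this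
        have : s = t := by
          simp [kap] at this
          exact mul_right_cancel₀ (show R + 1 ≠ 0 by linarith) (by linarith)
        rw [this])
      ⟨c.comp (by fun_prop) m, fun t ht => ⟨(hΓ _ (m t ht)).1, (hΓ _ (m t ht)).2.1⟩,
        fun t ht => by simpa [h] using (hΓ _ (m t ht)).2.2, by simpa using h0⟩
    refine ⟨K, k1, k2 (r2 ▸ seg r), k3, k4, ?_⟩
    have := k5 _ r
    rwa [r2, r1] at this
  choose! K k1 k2 k3 k4 k5 using main
  have hO : ∀ z ∈ ⋃ R ∈ Ici (0 : ℝ), K R, DifferentiableAt ℂ (ee g h U 0 y) z ∧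
      ∀ᶠ m in 𝓝 z, ee g h U 0 y m ∈ U ∧ g (ee g h U 0 y m) = h m := fun z hz => by
    obtain ⟨R, R0, hz⟩ := mem_iUnion₂.1 hz
    exact ⟨(k3 R R0).differentiableAt ((k1 R R0).mem_nhds hz),
      eventually_of_mem ((k1 R R0).mem_nhds hz) (k4 R R0)⟩
  have hm : ∀ t : ℝ, 0 ≤ t → (t : ℂ) ∈ ⋃ R ∈ Ici (0 : ℝ), K R := fun t ht =>
    mem_iUnion₂.2 ⟨t, ht, k2 t ht⟩
  refine ⟨⋃ R ∈ Ici (0 : ℝ), K R, ee g h U 0 y, isOpen_biUnion k1, hm,
    fun z hz => (hO z hz).1.differentiableWithinAt, fun z hz => ?_, ?_, ?_⟩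
  · have := (hO z hz).2.self_of_nhds
    exact ⟨this.1.1, this.1.2, this.2⟩
  · simpa [h0] using k5 0 le_rfl
  · refine IntegrableOn.congr_fun (hI.const_mul ‖kap‖) (fun t ht => ?_) measurableSet_Ici
    obtain ⟨d1, d2⟩ := hO _ (hm t ht)
    have u := d2.self_of_nhds
    have a1 : HasDerivAt (fun m => g (ee g h U 0 y m))
        (deriv g (ee g h U 0 y t) * deriv (ee g h U 0 y) t) t :=
      HasDerivAt.comp (h₂ := g) (t : ℂ)
        (hg.differentiableAt (oL.mem_nhds u.1.1)).hasDerivAt d1.hasDerivAt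
    have a2 : HasDerivAt h (g y * (exp (-(kap * t)) * -(kap * 1))) t :=
      (((hasDerivAt_id (t : ℂ)).const_mul kap).neg.cexp).const_mul _
    have a3 := a1.unique (a2.congr_of_eventuallyEq (d2.mono fun m hm => hm.2))
    have n := u.1.2
    have u2 : g (ee g h U 0 y t) = g y * exp (-(kap * t)) := u.2
    rw [← k5 t ht, ← norm_mul, ← norm_neg]
    congr 1
    field_simp
    linear_combination (-g (ee g h U 0 y t)) * a3 - kap * g (ee g h U 0 y t) * u2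

end Vale.Agent.P097F.J
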