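import Vale.Agent.P097F.J.Defs

/-!
# P097F.J: the decay propagates along the path, and the statement of the block
-/

set_option linter.all false

noncomputable section

namespace Vale.Agent.P097F.J

open Filter Topology Set Metric Complex MeasureTheory
open Vale.Agent.P097Mo (Sf)

namespace StepA

lemma ww (W₀ : ℂ) : Tendsto (Ww W₀) (𝓝 0) (𝓝 W₀) := by
  have c : Continuous (Ww W₀) := by
    unfold Ww
    fun_prop
  have := c.tendsto 0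
  rwa [show Ww W₀ 0 = W₀ by simp [Ww]] at this

lemma lh_op : IsOpen LH := isOpen_lt continuous_im continuous_const

lemma sg_ct {g : ℂ → ℂ} {W y : ℂ} (h : ContinuousAt g y) :
    ContinuousAt (fun p : ℂ × ℂ => sg g p.1 p.2) (W, y) := by
  have : ContinuousAt (fun p : ℂ × ℂ => g p.2) (W, y) :=
    ContinuousAt.comp (g := g) (f := fun p : ℂ × ℂ => p.2) h continuousAt_snd
  exact ((continuousAt_fst.mul this).pow 3).div_const 24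

lemma rho_cg {g D D' : ℂ → ℂ} {W₀ y : ℂ} (h : ContinuousAt g y) (e : D =ᶠ[𝓝 (sg g W₀ y)] D') :
    ∃ r : ℝ, 0 < r ∧ ∀ᶠ W in 𝓝 W₀, ∀ a ∈ ball y r, ∀ b ∈ ball y r,
      rho g D W a b = rho g D' W a b := by
  have t : ∀ᶠ p : ℂ × ℂ in 𝓝 (W₀, y), D (sg g p.1 p.2) = D' (sg g p.1 p.2) :=
    (sg_ct (W := W₀) h).tendsto.eventually e
  obtain ⟨r, r0, hr⟩ := Metric.eventually_nhds_iff_ball.1 t
  refine ⟨r, r0, ?_⟩
  filter_upwards [ball_mem_nhds W₀ r0] with W hW a ha b hb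
  refine intervalIntegral.integral_congr fun t ht => ?_
  rw [uIcc_of_le zero_le_one] at ht
  have m : a + t * (b - a) ∈ ball y r := by
    have := (convex_ball y r).add_smul_sub_mem ha hb ht
    rwa [real_smul] at this
  have := hr (W, a + t * (b - a)) (by rw [← ball_prod_same]; exact ⟨hW, m⟩)
  simp only at this ⊢
  rw [this]

lemma cst {f : ℂ → ℂ} {S : Set ℂ} (o : IsOpen S) (c : Convex ℝ S)
    (h : ∀ x ∈ S, HasDerivAt f 0 x) {x y : ℂ} (hx : x ∈ S) (hy : y ∈ S) : f x = f y :=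
  o.is_const_of_deriv_eq_zero c.isPreconnected
    (fun z hz => (h z hz).differentiableAt.differentiableWithinAt) (fun z hz => (h z hz).deriv) hx hy

/-- the time along a leaf is the difference of the primitive -/
lemma box {g : ℂ → ℂ} {Ω : Set (ℂ × ℂ)} {Y D : ℂ × ℂ → ℂ} (F : Fam g Ω Y D) {D0 G : ℂ → ℂ}
    {x₀ y₀ W : ℂ} {e r : ℝ} (W0 : W ≠ 0)
    (h : ∀ x ∈ ball x₀ e, (x, W) ∈ Ω ∧ Y (x, W) ∈ ball y₀ r ∧ D (x, W) = D0 (sg g W (Y (x, W))))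
    (hG : ∀ b ∈ ball y₀ r, D0 (sg g W b) ≠ 0 ∧ HasDerivAt G (g b * (2 * D0 (sg g W b))⁻¹) b)
    {a b : ℂ} (ha : a ∈ ball x₀ e) (hb : b ∈ ball x₀ e) :
    (b - a) / W = G (Y (b, W)) - G (Y (a, W)) := by
  have k : ∀ x ∈ ball x₀ e, HasDerivAt (fun x => x / W - G (Y (x, W))) 0 x := by
    intro x hx
    obtain ⟨m, n, q⟩ := h x hx
    obtain ⟨Y', d1, o⟩ := F.ode _ m
    obtain ⟨n0, d2⟩ := hG _ n
    have d3 : HasDerivAt (fun x => G (Y (x, W)))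
        (g (Y (x, W)) * (2 * D0 (sg g W (Y (x, W))))⁻¹ * Y') x :=
      HasDerivAt.comp (h₂ := G) (h := fun x => Y (x, W)) x d2 d1
    have d4 := ((hasDerivAt_id' x).div_const W).sub d3
    refine d4.congr_deriv ?_
    have o' : W * g (Y (x, W)) * Y' = 2 * D0 (sg g W (Y (x, W))) := by
      rw [← q]
      exact o
    field_simp
    linear_combination -o'
  have := cst isOpen_ball (convex_ball _ _) k ha hb
  linear_combination -this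

section

variable {g : ℂ → ℂ} {Ω : Set (ℂ × ℂ)} {Y D : ℂ × ℂ → ℂ} {W₀ : ℂ} {ρ : ℝ} {V : Set ℂ}
  {ξ y d : ℝ × ℂ → ℂ}

lemma nb (P : Pth g Ω Y D W₀ ρ V ξ y d) {t : ℝ} (ht : t ∈ Ioo (0 : ℝ) 1) :
    Icc (0 : ℝ) 1 ×ˢ V ∈ 𝓝 (t, W₀) :=
  prod_mem_nhds (Icc_mem_nhds ht.1 ht.2) P.nb

lemma sl {f : ℝ × ℂ → ℂ} {t : ℝ} (h : ContinuousAt f (t, W₀)) :
    ContinuousAt (fun s => f (s, W₀)) t :=
  ContinuousAt.comp (g := f) (f := fun s : ℝ => (s, W₀)) h (by fun_prop)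

lemma sl' {f : ℝ × ℂ → ℂ} {t : ℝ} (h : ContinuousAt f (t, W₀)) :
    ContinuousAt (fun W => f (t, W)) W₀ :=
  ContinuousAt.comp (g := f) (f := fun W : ℂ => (t, W)) h (by fun_prop)

/-- the increments of the position along the path -/
lemma inc (W0 : W₀ ≠ 0) (F : Fam g Ω Y D) (P : Pth g Ω Y D W₀ ρ V ξ y d) {t₀ : ℝ}
    (ht : t₀ ∈ Ioo (0 : ℝ) 1) {D0 : ℂ → ℂ} (hD : IsDv (d (t₀, W₀)) D0) {r : ℝ} (r0 : 0 < r)
    (hR : ∀ᶠ W in 𝓝 W₀, ∃ G : ℂ → ℂ, (∀ b ∈ ball (y (t₀, W₀)) r, D0 (sg g W b) ≠ 0 ∧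
      HasDerivAt G (g b * (2 * D0 (sg g W b))⁻¹) b) ∧
      ∀ a ∈ ball (y (t₀, W₀)) r, ∀ b ∈ ball (y (t₀, W₀)) r, rho g D0 W a b = G b - G a) :
    ∀ᶠ t in 𝓝 t₀, ∀ᶠ W in 𝓝 W₀, ∀ b ∈ ball (y (t₀, W₀)) r,
      ξ (t, W) / W + rho g D0 W (y (t, W)) b = ξ (t₀, W) / W + rho g D0 W (y (t₀, W)) b := by
  have V0 : W₀ ∈ V := mem_of_mem_nhds P.nb
  obtain ⟨m0, y0, d0⟩ := P.mem t₀ ht W₀ V0
  have n0 : Ω ∈ 𝓝 (ξ (t₀, W₀), W₀) := F.op.mem_nhds m0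
  have cY := (F.cY.continuousAt n0).tendsto
  have cD := (F.cD.continuousAt n0).tendsto
  rw [← y0] at cY
  rw [← d0] at cD
  have ev : ∀ᶠ p in 𝓝 (ξ (t₀, W₀), W₀), p ∈ Ω ∧ Y p ∈ ball (y (t₀, W₀)) r ∧
      D p = D0 (sg g p.2 (Y p)) := by
    filter_upwards [n0, cY.eventually (ball_mem_nhds _ r0), cD.eventually hD.2.2.2] with p a b c
    refine ⟨a, b, ?_⟩
    rw [← F.law p a, c]
  obtain ⟨e, e0, he⟩ := Metric.eventually_nhds_iff_ball.1 ev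
  have cx := (P.cx.continuousAt (nb P ht)).tendsto.eventually (ball_mem_nhds _ e0)
  have cx0 := (sl' (P.cx.continuousAt (nb P ht))).tendsto.eventually (ball_mem_nhds _ e0)
  filter_upwards [cx.curry_nhds, Ioo_mem_nhds ht.1 ht.2] with t h1 h2
  filter_upwards [h1, cx0, hR, P.nb, ball_mem_nhds W₀ e0, isOpen_ne.mem_nhds W0] with W a1 a0
    ⟨G, hG, hG'⟩ hV hW hW0 b hb
  have hb' : ∀ x ∈ ball (ξ (t₀, W₀)) e, (x, W) ∈ Ω ∧ Y (x, W) ∈ ball (y (t₀, W₀)) r ∧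
      D (x, W) = D0 (sg g W (Y (x, W))) := fun x hx =>
    he (x, W) (by rw [← ball_prod_same]; exact ⟨hx, hW⟩)
  have k := box F hW0 hb' hG a0 a1
  have e1 := (P.mem t h2 W hV).2.1
  have e2 := (P.mem t₀ ht W hV).2.1
  rw [← e1, ← e2] at k
  rw [hG' _ (by rw [e1]; exact (hb' _ a1).2.1) b hb, hG' _ (by rw [e2]; exact (hb' _ a0).2.1) b hb]
  linear_combination k

lemma main (hL : S_LOC) (hG : S_GEN) (hV : S_DV) (hR : S_RHO) (X : ℂ → ℂ)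
    (hg : DifferentiableOn ℂ g LH) (W0 : W₀ ≠ 0) (F : Fam g Ω Y D)
    (P : Pth g Ω Y D W₀ ρ V ξ y d) {t₀ : ℝ} (ht : t₀ ∈ Ioo (0 : ℝ) 1) :
    ∃ Q : Prop, ∀ᶠ t in 𝓝 t₀, (Gd g W₀ ρ ξ y d X t ↔ Q) := by
  have dv : ∀ z : ℂ, sin z ≠ 0 → IsDv z (Dv z) := fun z hz =>
    hV.1 z (mul_ne_zero (fun h => hz (by rw [h, sin_zero])) hz)
  have s0 := P.reg t₀ ht
  obtain ⟨D0, eD⟩ : ∃ D0, D0 = Dv (d (t₀, W₀)) := ⟨_, rfl⟩
  have i0 : IsDv (d (t₀, W₀)) D0 := eD ▸ dv _ s0.2.2.2.1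
  obtain ⟨r, r0, -, hr⟩ := hR g D0 W₀ (y (t₀, W₀)) hg s0.1 (s0.2.2.2.2.1 ▸ i0.1)
    (by rw [← s0.2.2.2.2.1, i0.2.1]; exact fun h => s0.2.2.2.1 (by rw [h, sin_zero]))
  have k := inc W0 F P ht i0 r0 hr
  have lo := hL g W₀ _ _ ρ hg W0 s0 (P.aim t₀ (Ioo_subset_Icc_self ht))
  rw [← eD] at lo
  obtain ⟨e, e0, he⟩ := Metric.eventually_nhds_iff_ball.1 lo
  obtain ⟨r', r'0, h1, h2⟩ : ∃ r' : ℝ, 0 < r' ∧ r' ≤ r ∧ r' ≤ e :=
    ⟨min r e, lt_min r0 e0, min_le_left _ _, min_le_right _ _⟩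
  have sb : ball (y (t₀, W₀)) r' ⊆ ball (y (t₀, W₀)) r := ball_subset_ball h1
  obtain ⟨N, eN⟩ : ∃ N : ℂ → ℂ → ℂ, N = fun b z => (ξ (t₀, Ww W₀ z) - X (Ww W₀ z)) / Ww W₀ z +
    rho g D0 (Ww W₀ z) (y (t₀, Ww W₀ z)) b := ⟨_, rfl⟩
  have y0 : ∀ᶠ W in 𝓝 W₀, y (t₀, W) ∈ ball (y (t₀, W₀)) r :=
    (sl' (P.cy.continuousAt (nb P ht))).tendsto.eventually (ball_mem_nhds _ r0)
  have tr : ∀ a ∈ ball (y (t₀, W₀)) r', ∀ b ∈ ball (y (t₀, W₀)) r', Gen g W₀ ρ a → Gen g W₀ ρ b →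
      Dec (N a) → Dec (N b) := by
    intro a ha b hb ga gb na
    have := he (a, b) (by
      rw [← ball_prod_same]
      exact ⟨ball_subset_ball h2 ha, ball_subset_ball h2 hb⟩) ga gb
    refine (na.add this).congr ?_
    filter_upwards [(ww W₀).eventually hr, (ww W₀).eventually y0] with z ⟨G, _, hG'⟩ m
    rw [eN]
    simp only
    rw [hG' _ m _ (sb ha), hG' _ m _ (sb hb), hG' _ (sb ha) _ (sb hb)]
    ring
  refine ⟨∀ b ∈ ball (y (t₀, W₀)) r', Gen g W₀ ρ b → Dec (N b), ?_⟩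
  filter_upwards [k, Ioo_mem_nhds ht.1 ht.2,
    (sl (P.cy.continuousAt (nb P ht))).tendsto.eventually (ball_mem_nhds _ r'0),
    (sl (P.cd.continuousAt (nb P ht))).tendsto.eventually (hV.2.2 _ _ i0)] with t kt tI yt it
  have st := P.reg t tI
  have eq := hV.2.1 _ _ _ (dv _ st.2.2.2.1) it
  rw [st.2.2.2.2.1] at eq
  obtain ⟨u, u0, hu⟩ := rho_cg (hg.continuousOn.continuousAt (lh_op.mem_nhds st.1)) eq
  have yW : ∀ᶠ W in 𝓝 W₀, y (t, W) ∈ ball (y (t, W₀)) u :=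
    (sl' (P.cy.continuousAt (nb P tI))).tendsto.eventually (ball_mem_nhds _ u0)
  have nbr : ball (y (t₀, W₀)) r' ∈ 𝓝 (y (t, W₀)) := isOpen_ball.mem_nhds yt
  have ee : ∀ᶠ b in 𝓝 (y (t, W₀)), b ∈ ball (y (t₀, W₀)) r' ∧
      (fun z => (ξ (t, Ww W₀ z) - X (Ww W₀ z)) / Ww W₀ z +
        rho g (Dv (d (t, W₀))) (Ww W₀ z) (y (t, Ww W₀ z)) b) =ᶠ[𝓝 0] N b := by
    filter_upwards [nbr, ball_mem_nhds _ u0] with b hb hb'
    refine ⟨hb, ?_⟩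
    filter_upwards [(ww W₀).eventually kt, (ww W₀).eventually hu, (ww W₀).eventually yW] with z a1
      a2 a3
    rw [eN, a2 _ a3 _ hb']
    have := a1 b (sb hb)
    simp only
    linear_combination this
  constructor
  · intro h b hb gb
    obtain ⟨a, ga, ha, ⟨ma, ea⟩⟩ :=
      ((hG g W₀ _ ρ hg st.1 st.2.1 st.2.2.1).and_eventually (Eventually.and h ee)).exists
    exact tr a ma b hb ga gb ((ha ga).congr ea)
  · intro h
    filter_upwards [ee] with b ⟨mb, eb⟩ gb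
    exact (h b mb gb).congr eb.symm

/-- the reversed family of paths -/
lemma rev (P : Pth g Ω Y D W₀ ρ V ξ y d) : Pth g Ω Y D W₀ ρ V (fun p => ξ (1 - p.1, p.2))
    (fun p => y (1 - p.1, p.2)) fun p => d (1 - p.1, p.2) := by
  have c : Continuous fun p : ℝ × ℂ => ((1 - p.1, p.2) : ℝ × ℂ) := by fun_prop
  have m : MapsTo (fun p : ℝ × ℂ => ((1 - p.1, p.2) : ℝ × ℂ)) (Icc 0 1 ×ˢ V) (Icc 0 1 ×ˢ V) :=
    fun p hp => ⟨⟨by linarith [hp.1.2], by linarith [hp.1.1]⟩, hp.2⟩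
  have o : ∀ t ∈ Ioo (0 : ℝ) 1, 1 - t ∈ Ioo (0 : ℝ) 1 := fun t h =>
    ⟨by linarith [h.2], by linarith [h.1]⟩
  exact ⟨P.nb, P.cx.comp c.continuousOn m, P.cy.comp c.continuousOn m, P.cd.comp c.continuousOn m,
    fun t h W hW => P.mem (1 - t) (o t h) W hW, fun t h => P.reg (1 - t) (o t h),
    fun t h => P.aim (1 - t) ⟨by linarith [h.2], by linarith [h.1]⟩⟩

end

end StepA

open StepA in
theorem step (hL : S_LOC) (hG : S_GEN) (hV : S_DV) (hR : S_RHO) : S_STEP := by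
  intro g Ω Y D W₀ ρ V ξ y d X hg W0 F P t₀ ht
  obtain ⟨Q, h⟩ := main hL hG hV hR X hg W0 F P ht
  exact h.mono fun t k => k.trans h.self_of_nhds.symm

open StepA in
theorem j0 (hS : S_STEP) (hZ : S_ZEND) (hF : S_FEND) (hG : S_GEN) : Spec_J0 := by
  intro g Ω Y D W₀ c ρ V ξ y d hg W0 F P o0 o1 hc
  have en : ∀ ξ y d : ℝ × ℂ → ℂ, Pth g Ω Y D W₀ ρ V ξ y d → Ob g W₀ ρ V y d 0 →
      ∃ t ∈ Ioo (0 : ℝ) 1, Gd g W₀ ρ ξ y d (fun W => ξ (0, W)) t := fun ξ y d P o =>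
    o.2.elim (hZ g Ω Y D W₀ ρ V ξ y d hg W0 F P o.1) (hF g Ω Y D W₀ ρ V ξ y d hg W0 F P o.1)
  obtain ⟨s, hs, g0⟩ := en ξ y d P o0
  obtain ⟨t, ht, g1⟩ := en _ _ _ (rev P) (by
    show Ob g W₀ ρ V y d (1 - 0)
    rwa [sub_zero])
  have g1' : Gd g W₀ ρ ξ y d (fun W => ξ (1 - 0, W)) (1 - t) := g1
  rw [sub_zero] at g1'
  have tI : 1 - t ∈ Ioo (0 : ℝ) 1 := ⟨by linarith [ht.2], by linarith [ht.1]⟩
  have g0' : Gd g W₀ ρ ξ y d (fun W => ξ (0, W)) (1 - t) :=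
    isPreconnected_Ioo.induction₂'
      (fun a b => Gd g W₀ ρ ξ y d (fun W => ξ (0, W)) a → Gd g W₀ ρ ξ y d (fun W => ξ (0, W)) b)
      (fun a ha => ((hS g Ω Y D W₀ ρ V ξ y d _ hg W0 F P a ha).mono fun b h =>
        ⟨h.2, h.1⟩).filter_mono nhdsWithin_le_nhds)
      (fun _ _ _ _ _ _ p q h => q (p h)) hs tI g0
  have st := P.reg _ tI
  obtain ⟨b, gb, h0, h1⟩ :=
    ((hG g W₀ _ ρ hg st.1 st.2.1 st.2.2.1).and_eventually (Eventually.and g0' g1')).exists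
  refine Dec.const (((h0 gb).sub (h1 gb)).congr ?_)
  filter_upwards [(ww W₀).eventually hc, (ww W₀).eventually (isOpen_ne.mem_nhds W0)] with z a a0
  have a0' : Ww W₀ z ≠ 0 := a0
  field_simp
  linear_combination a

end Vale.Agent.P097F.J
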