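import Vale.Agent.P097F.J.Defs

/-!
# P097F.J: the strand which ends at the obstacle decays
-/

set_option linter.all false

noncomputable section

namespace Vale.Agent.P097F.J

open Filter Topology Set Metric Complex MeasureTheory

namespace StrandA

theorem diffOn_integral {Y : Type*} [MeasurableSpace Y] {ν : Measure Y} {U : Set ℂ}
    (hU : IsOpen U) {F : ℂ → Y → ℂ} (hmeas : ∀ z ∈ U, AEStronglyMeasurable (F z) ν)
    (hd : ∀ᵐ y ∂ν, DifferentiableOn ℂ (fun z => F z y) U)
    (hb : ∀ z ∈ U, ∃ r > 0, ∃ g : Y → ℝ, Integrable g ν ∧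
      ∀ᵐ y ∂ν, ∀ w ∈ Metric.ball z r, ‖F w y‖ ≤ g y) :
    DifferentiableOn ℂ (fun z => ∫ y, F z y ∂ν) U := by
  intro z0 hz0
  obtain ⟨r1, hr1, hrU⟩ := Metric.isOpen_iff.1 hU z0 hz0
  obtain ⟨r2, hr2, g, hg, hgb⟩ := hb z0 hz0
  set R := min r1 r2 / 2 with hR
  have hR0 : 0 < R := by
    have := lt_min hr1 hr2
    positivity
  have hR1 : R < r1 := by
    have := min_le_left r1 r2
    rw [hR]
    linarith
  have hR2 : R < r2 := by
    have := min_le_right r1 r2
    rw [hR]
    linarith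
  have hRU : Metric.closedBall z0 R ⊆ U := (Metric.closedBall_subset_ball hR1).trans hrU
  have hRb : Metric.closedBall z0 R ⊆ Metric.ball z0 r2 := Metric.closedBall_subset_ball hR2
  have key := hasDerivAt_integral_of_dominated_loc_of_deriv_le (μ := ν) (𝕜 := ℂ)
    (F := F) (F' := fun z y => deriv (fun z => F z y) z) (x₀ := z0)
    (s := Metric.ball z0 (R / 2)) (bound := fun y => g y / (R / 2))
    (Metric.ball_mem_nhds z0 (by positivity))
    (by
      filter_upwards [hU.mem_nhds hz0] with z hz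
      exact hmeas z hz)
    (by
      refine Integrable.mono' hg (hmeas z0 hz0) ?_
      filter_upwards [hgb] with y hy
      exact hy z0 (Metric.mem_ball_self hr2))
    (by
      refine aestronglyMeasurable_of_tendsto_ae (u := atTop)
        (f := fun (n : ℕ) y => ((R / ((n : ℝ) + 1) : ℝ) : ℂ)⁻¹ *
          (F (z0 + ((R / ((n : ℝ) + 1) : ℝ) : ℂ)) y - F z0 y)) ?_ ?_
      · intro n
        refine AEStronglyMeasurable.const_mul ((hmeas _ (hRU ?_)).sub (hmeas z0 hz0)) _
        rw [Metric.mem_closedBall, dist_eq_norm, add_sub_cancel_left, Complex.norm_real,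
          Real.norm_of_nonneg (by positivity)]
        exact div_le_self hR0.le (by linarith [Nat.cast_nonneg (α := ℝ) n])
      · filter_upwards [hd] with y hy
        have h1 : HasDerivAt (fun z => F z y) (deriv (fun z => F z y) z0) z0 :=
          (hy.differentiableAt (hU.mem_nhds hz0)).hasDerivAt
        have h2 := h1.tendsto_slope_zero
        have h3 : Tendsto (fun n : ℕ => ((R / ((n : ℝ) + 1) : ℝ) : ℂ)) atTop (𝓝[≠] 0) := by
          rw [tendsto_nhdsWithin_iff]
          constructor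
          · have h4 : Tendsto (fun n : ℕ => R / ((n : ℝ) + 1)) atTop (𝓝 0) :=
              tendsto_const_nhds.div_atTop
                (tendsto_atTop_add_const_right _ _ tendsto_natCast_atTop_atTop)
            have h5 := (Complex.continuous_ofReal.tendsto 0).comp h4
            rw [Complex.ofReal_zero] at h5
            exact h5
          · refine Eventually.of_forall fun n => ?_
            have : R / ((n : ℝ) + 1) ≠ 0 := by positivity
            rw [mem_compl_singleton_iff, Ne, Complex.ofReal_eq_zero]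
            exact this
        exact (h2.comp h3).congr fun n => by simp [smul_eq_mul])
    (by
      filter_upwards [hd, hgb] with y hy hgy
      intro z hz
      have hsub : Metric.closedBall z (R / 2) ⊆ Metric.closedBall z0 R := by
        intro w hw
        rw [Metric.mem_closedBall] at hw ⊢
        rw [Metric.mem_ball] at hz
        linarith [dist_triangle w z z0]
      refine Complex.norm_deriv_le_of_forall_mem_sphere_norm_le (by positivity) ?_ ?_
      · refine DifferentiableOn.diffContOnCl ?_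
        rw [closure_ball _ (by positivity)]
        exact hy.mono (hsub.trans hRU)
      · intro w hw
        exact hgy w (hRb (hsub (Metric.sphere_subset_closedBall hw))))
    (hg.div_const _)
    (by
      filter_upwards [hd] with y hy
      intro z hz
      have hzU : z ∈ U := hRU (Metric.ball_subset_closedBall
        (Metric.ball_subset_ball (by linarith) hz))
      exact (hy.differentiableAt (hU.mem_nhds hzU)).hasDerivAt)
  exact key.2.differentiableAt.differentiableWithinAt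

theorem dI {U : Set ℂ} (hU : IsOpen U) {Φ : ℂ → ℝ → ℂ} {K : ℝ}
    (hd : ∀ u ∈ Ioo (0 : ℝ) 1, DifferentiableOn ℂ (fun z => Φ z u) U)
    (hc : ∀ z ∈ U, ContinuousOn (Φ z) (Ioo 0 1)) (hb : ∀ z ∈ U, ∀ u ∈ Ioo (0 : ℝ) 1, ‖Φ z u‖ ≤ K) :
    DifferentiableOn ℂ (fun z => ∫ u in (0 : ℝ)..1, Φ z u) U := by
  have ae : ∀ᵐ u ∂(volume.restrict (Ioo (0 : ℝ) 1)), u ∈ Ioo (0 : ℝ) 1 :=
    ae_restrict_mem measurableSet_Ioo
  refine (diffOn_integral (ν := volume.restrict (Ioo (0 : ℝ) 1)) hU
    (fun z hz => (hc z hz).aestronglyMeasurable measurableSet_Ioo) (ae.mono hd) fun z hz => ?_).congr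
    fun z _ => by rw [intervalIntegral.integral_of_le zero_le_one, integral_Ioc_eq_integral_Ioo]
  obtain ⟨r, r0, hr⟩ := Metric.isOpen_iff.1 hU z hz
  exact ⟨r, r0, fun _ => K, integrable_const K, ae.mono fun u hu w hw => hb w (hr hw) u hu⟩

theorem iI {φ : ℝ → ℂ} {K : ℝ} (hc : ContinuousOn φ (Ioo 0 1))
    (hb : ∀ u ∈ Ioo (0 : ℝ) 1, ‖φ u‖ ≤ K) : IntervalIntegrable φ volume 0 1 :=
  (intervalIntegrable_iff_integrableOn_Ioo_of_le zero_le_one).2
    (Integrable.mono' (integrable_const K) (hc.aestronglyMeasurable measurableSet_Ioo)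
      ((ae_restrict_mem measurableSet_Ioo).mono hb))

/-- a bounded holomorphic function has a primitive up to the boundary -/
theorem prim' (hP : S_PRIM) {f : ℂ → ℂ} {C : Set ℂ} {K : ℝ} (ho : IsOpen C) (hc : Convex ℝ C)
    (hf : DifferentiableOn ℂ f C) (K0 : 0 ≤ K) (hb : ∀ z ∈ C, ‖f z‖ ≤ K) :
    ∃ G : ℂ → ℂ, ∀ p q : ℂ, (∀ u ∈ Ioo (0 : ℝ) 1, p + u * (q - p) ∈ C) →
      ∫ u in (0 : ℝ)..1, (q - p) * f (p + u * (q - p)) = G q - G p := by
  obtain ⟨G, hG, -⟩ := hP f C ho hc hf
  obtain ⟨G', l, e⟩ := (hc.lipschitzOnWith_of_nnnorm_hasDerivWithin_le (C := ⟨K, K0⟩)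
    (fun x hx => (hG x hx).hasDerivWithinAt) fun x hx => hb x hx).extend_finite_dimension
  refine ⟨G', fun p q h => ?_⟩
  have c1 : Continuous fun u : ℝ => p + u * (q - p) := by fun_prop
  have := intervalIntegral.integral_eq_sub_of_hasDerivAt_of_le zero_le_one
    (f := fun u : ℝ => G' (p + u * (q - p))) (f' := fun u => (q - p) * f (p + u * (q - p)))
    (l.continuous.comp c1).continuousOn (fun u hu => ?_)
    (iI (K := ‖q - p‖ * K) (continuousOn_const.mul (hf.continuousOn.comp c1.continuousOn h))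
      fun u hu => by
        rw [norm_mul]
        exact mul_le_mul_of_nonneg_left (hb _ (h u hu)) (norm_nonneg _))
  · simpa using this
  · have h1 : HasDerivAt G' (f (p + u * (q - p))) (p + u * (q - p)) :=
      (hG _ (h u hu)).congr_of_eventuallyEq
        (mem_of_superset (ho.mem_nhds (h u hu)) fun x hx => (e hx).symm)
    have h2 : HasDerivAt (fun z : ℂ => p + z * (q - p)) (q - p) u := by
      simpa using ((hasDerivAt_id (u : ℂ)).mul_const (q - p)).const_add p
    exact ((h1.comp (u : ℂ) h2).comp_ofReal).congr_deriv (mul_comm _ _)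

theorem Sd_open (s δ : ℝ) : IsOpen (Sd s δ) :=
  (isOpen_lt continuous_const continuous_re).inter
    ((isOpen_lt continuous_const (continuous_const.mul continuous_im)).inter
      (isOpen_lt (continuous_const.mul continuous_im) continuous_const))

theorem Sd_convex (s δ : ℝ) : Convex ℝ (Sd s δ) := by
  have l : IsLinearMap ℝ fun μ : ℂ => s * μ.im :=
    ⟨fun x y => by simp [mul_add], fun c x => by simp; ring⟩
  exact (convex_halfSpace_re_gt _).inter ((convex_halfSpace_gt l 0).inter (convex_halfSpace_lt l δ))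

theorem Sd_mul {s δ u : ℝ} {μ : ℂ} (δ0 : 0 < δ) (h : μ ∈ Sd s δ) (hu : u ∈ Ioo (0 : ℝ) 1) :
    (1 - u) * μ ∈ Sd s δ := by
  obtain ⟨a, b, c⟩ := h
  obtain ⟨u0, u1⟩ := hu
  have e1 : ((1 - u) * μ).re = (1 - u) * μ.re := by simp
  have e2 : s * ((1 - u) * μ).im = (1 - u) * (s * μ.im) := by simp; ring
  refine ⟨?_, ?_, ?_⟩
  · rw [e1]
    nlinarith
  · rw [e2]
    exact mul_pos (by linarith) b
  · rw [e2]
    nlinarith

theorem Rc_open (R η : ℝ) : IsOpen (Rc R η) :=
  (isOpen_lt continuous_const continuous_re).inter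
    ((isOpen_lt continuous_re continuous_const).inter
      (isOpen_lt (continuous_abs.comp continuous_im) continuous_const))

theorem Rc_near {R η : ℝ} {z : ℂ} (R0 : 0 ≤ R) (h : z ∈ Rc R η) :
    ∃ τ ∈ Icc (0 : ℝ) R, ‖z - τ‖ ≤ 2 * η := by
  obtain ⟨a, b, c⟩ := h
  refine ⟨max 0 (min R z.re), ⟨le_max_left _ _, max_le R0 (min_le_left _ _)⟩,
    (norm_le_abs_re_add_abs_im _).trans ?_⟩
  have η0 : 0 < η := (abs_nonneg _).trans_lt c
  have : |z.re - max 0 (min R z.re)| ≤ η := by
    rcases le_total R z.re with h | h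
    · rw [min_eq_left h, max_eq_right R0, abs_le]
      constructor <;> linarith
    · rw [min_eq_right h]
      rcases le_total 0 z.re with k | k
      · rw [max_eq_right k, sub_self, abs_zero]
        exact η0.le
      · rw [max_eq_left k, abs_le]
        constructor <;> linarith
  simp only [sub_re, ofReal_re, sub_im, ofReal_im, sub_zero]
  linarith

theorem tot {γ : ℝ → ℝ} {R : ℝ} (R0 : 0 < R) (h0 : ∀ t, 0 ≤ γ t) (hi : IntegrableOn γ (Ici 0)) :
    IntervalIntegrable (fun u => γ (u * R)) volume 0 1 ∧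
      R * ∫ u in (0 : ℝ)..1, γ (u * R) ≤ ∫ t in Ici 0, γ t := by
  have sub : Ioc 0 R ⊆ Ici 0 := fun t ht => ht.1.le
  constructor
  · have := ((intervalIntegrable_iff_integrableOn_Ioc_of_le R0.le).2
      (hi.mono_set sub)).comp_mul_right (c := R)
    rwa [zero_div, div_self R0.ne'] at this
  · rw [← smul_eq_mul, intervalIntegral.smul_integral_comp_mul_right, zero_mul, one_mul,
      intervalIntegral.integral_of_le R0.le]
    exact setIntegral_mono_set hi (Eventually.of_forall h0) sub.eventuallyLE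

theorem nu {u : ℝ} (hu : u ∈ Icc (0 : ℝ) 1) (w : ℂ) :
    ‖(u : ℂ) * w‖ ≤ ‖w‖ ∧ ‖(1 - (u : ℂ)) * w‖ ≤ ‖w‖ := by
  constructor
  · rw [norm_mul, norm_real, Real.norm_eq_abs, abs_of_nonneg hu.1]
    exact mul_le_of_le_one_left (norm_nonneg _) hu.2
  · rw [norm_mul, ← ofReal_one, ← ofReal_sub, norm_real, Real.norm_eq_abs,
      abs_of_nonneg (by linarith [hu.2])]
    exact mul_le_of_le_one_left (norm_nonneg _) (by linarith [hu.1])

theorem ar1 {x y e M : ℝ} (x0 : 0 ≤ x) (e0 : 0 < e) (h : y ≤ M) : x * y ≤ e * x + M * x := by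
  nlinarith

theorem ar2 {x y e z : ℝ} (x0 : 0 ≤ x) (z0 : 0 ≤ z) (h : y ≤ e) : x * y ≤ e * x + z := by
  nlinarith

theorem ar3 {R R₀ R₁ δ u l : ℝ} {a : ℂ} (a1 : |a.re| < δ / 2) (hu : u ∈ Ioo (0 : ℝ) 1) (l0 : 0 < l)
    (l1 : l ≤ 1) (r1 : R₀ + R₁ + δ ≤ R) (hc : u * R ≤ R₁) :
    R₀ ≤ ((R : ℂ) - (l * a + u * (R - l * a))).re := by
  have b1 := abs_lt.1 a1
  have b2 : (1 - u) * l * a.re ≤ δ := by
    have : (1 - u) * l ≤ 1 := by nlinarith [hu.1, hu.2]
    have : 0 ≤ (1 - u) * l := mul_nonneg (by linarith [hu.2]) l0.le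
    nlinarith
  have e : ((R : ℂ) - (l * a + u * (R - l * a))).re = R - u * R - (1 - u) * l * a.re := by
    simp
    ring
  rw [e]
  linarith

theorem ar4 {t l x δ : ℝ} (l0 : 0 < l) (t1 : l ≤ t) (t2 : t ≤ 1) (h : |x| < δ / 2) :
    t * x ≤ δ / 2 := by
  have := abs_lt.1 h
  nlinarith

theorem ar5 {u l : ℝ} (l0 : 0 < l) (l1 : l ≤ 1) (hu : u ∈ Icc (0 : ℝ) 1) :
    1 - u * (1 - l) ∈ Icc l 1 := ⟨by nlinarith [hu.1, hu.2], by nlinarith [hu.1, hu.2]⟩

theorem ar6 {m x : ℝ} (m0 : 0 < m) (x0 : 0 ≤ x) : m / (x + 1) * x < m := by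
  rw [div_mul_eq_mul_div, div_lt_iff₀ (by positivity)]
  nlinarith

end StrandA

open StrandA in
theorem strand (hP : S_PRIM) : S_STRAND := by
  intro s δ A B O a hs δ0 hO hR hb hA hI ⟨hB, ⟨M₀, hM₀⟩, hD⟩ ha hsa ε ε0
  obtain ⟨M, M0, hM⟩ : ∃ M : ℝ, 0 < M ∧ ∀ μ ∈ Sd s δ, ‖B μ‖ ≤ M :=
    ⟨|M₀| + 1, by positivity, fun μ h => (hM₀ μ h).trans (by linarith [le_abs_self M₀])⟩
  have hb' : closedBall (0 : ℂ) (3 * δ / 4) ⊆ O :=
    (closedBall_subset_ball (by linarith)).trans hb
  obtain ⟨K, hK⟩ := (isCompact_closedBall (0 : ℂ) (3 * δ / 4)).exists_bound_of_continuousOn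
    (hA.continuousOn.mono hb')
  have K0 : 0 ≤ K := (norm_nonneg _).trans (hK 0 (mem_closedBall_self (by positivity)))
  set J := ∫ t in Ici (0 : ℝ), ‖A t‖ with hJ
  have J0 : 0 ≤ J := integral_nonneg fun t => norm_nonneg _
  obtain ⟨e, e0, he⟩ : ∃ e : ℝ, 0 < e ∧ e * (δ * K + 2 * J) ≤ ε / 3 := by
    exact ⟨ε / 3 / (δ * K + 2 * J + 1), by positivity, (ar6 (by positivity) (by positivity)).le⟩
  obtain ⟨R₀, hR₀⟩ := hD e e0
  obtain ⟨R₁, hR₁, R1⟩ := (((tendsto_integral_Ioi_zero (f := fun t : ℝ => ‖A t‖) (μ := volume)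
    tendsto_id).eventually (gt_mem_nhds (show 0 < ε / (6 * M) by positivity))).and
    (eventually_ge_atTop 0)).exists
  filter_upwards [eventually_ge_atTop (R₀ + R₁ + δ), eventually_ge_atTop δ,
    eventually_ge_atTop (R₀ + δ)] with R r1 r2 r3
  have R0 : 0 < R := by linarith
  have cS : IsCompact ((fun t : ℝ => (t : ℂ)) '' Icc 0 R) := isCompact_Icc.image continuous_ofReal
  obtain ⟨κ, κ0, hκ⟩ := cS.exists_cthickening_subset_open hO
    (by rintro _ ⟨t, ht, rfl⟩; exact hR t ht.1)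
  set T := cthickening κ ((fun t : ℝ => (t : ℂ)) '' Icc 0 R) with hT
  have cT : IsCompact T := cS.cthickening
  obtain ⟨K', hK'⟩ := cT.exists_bound_of_continuousOn (hA.continuousOn.mono hκ)
  obtain ⟨κ', κ1, hκ'⟩ := Metric.uniformContinuousOn_iff.1
    (cT.uniformContinuousOn_of_continuous (hA.continuousOn.mono hκ)) (ε / (6 * R * M))
    (by positivity)
  obtain ⟨l, l0, l1, l2, l3⟩ : ∃ l : ℝ, 0 < l ∧ l ≤ 1 ∧ l * ‖a‖ < κ / 2 ∧ l * ‖a‖ < κ' := by
    have m0 : 0 < min (κ / 2) κ' := lt_min (by positivity) κ1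
    have h1 : min 1 (min (κ / 2) κ' / (‖a‖ + 1)) * ‖a‖ < min (κ / 2) κ' := by
      exact (mul_le_mul_of_nonneg_right (min_le_right _ _) (norm_nonneg a)).trans_lt
        (ar6 m0 (norm_nonneg a))
    exact ⟨_, lt_min one_pos (by positivity), min_le_left _ _, h1.trans_le (min_le_left _ _),
      h1.trans_le (min_le_right _ _)⟩
  obtain ⟨η, η0, η1, η2, η3⟩ : ∃ η : ℝ, 0 < η ∧ η ≤ l * -(s * a.im) ∧ η ≤ δ / 4 ∧ η ≤ κ / 4 :=
    ⟨min (l * -(s * a.im)) (min (δ / 4) (κ / 4)),
      lt_min (mul_pos l0 (by linarith)) (lt_min (by positivity) (by positivity)), min_le_left _ _,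
      (min_le_right _ _).trans (min_le_left _ _), (min_le_right _ _).trans (min_le_right _ _)⟩
  have s1 : ∀ x : ℝ, |s * x| = |x| := fun x => by rcases hs with rfl | rfl <;> simp
  have a1 : |a.re| < δ / 2 := (abs_re_le_norm a).trans_lt ha
  have a2 : |s * a.im| < δ / 2 := (s1 _).trans_lt ((abs_im_le_norm a).trans_lt ha)
  have mS : ∀ z ∈ Rc R η, ∀ t ∈ Icc l 1, z - t * a ∈ Sd s δ ∧ z.re - δ ≤ (z - t * a).re := by
    intro z ⟨z1, z2, z3⟩ t ⟨t1, t2⟩
    have e1 : (z - t * a).re = z.re - t * a.re := by simp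
    have e2 : s * (z - t * a).im = s * z.im + t * -(s * a.im) := by simp; ring
    have b1 := abs_lt.1 a1
    have b2 := abs_lt.1 a2
    have b3 := abs_lt.1 ((s1 _).trans_lt z3)
    have b4 : t * a.re ≤ δ / 2 := ar4 l0 t1 t2 a1
    have b5 : l * -(s * a.im) ≤ t * -(s * a.im) := mul_le_mul_of_nonneg_right t1 (by linarith)
    have b6 : t * -(s * a.im) ≤ -(s * a.im) := mul_le_of_le_one_left (by linarith) t2
    refine ⟨⟨?_, ?_, ?_⟩, ?_⟩ <;> simp only [e1, e2] <;> linarith
  have nt : ∀ t ∈ Icc l 1, ‖(t : ℂ) * a‖ < δ / 2 := fun t ht =>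
    (nu ⟨l0.le.trans ht.1, ht.2⟩ a).1.trans_lt ha
  have ll : l ∈ Icc l 1 := ⟨le_rfl, l1⟩
  have na : ‖(l : ℂ) * a‖ = l * ‖a‖ := by rw [norm_mul, norm_real, Real.norm_eq_abs, abs_of_pos l0]
  have p1 : ∀ u ∈ Icc (0 : ℝ) 1, ∃ t ∈ Icc l 1, a + u * (l * a - a) = (t : ℂ) * a := fun u hu =>
    ⟨1 - u * (1 - l), ar5 l0 l1 hu, by push_cast; ring⟩
  have p2 : ∀ (z w : ℂ) (u : ℝ), z - (w + u * (z - w)) = (1 - u) * (z - w) := fun z w u => by ring
  have mT : ∀ z ∈ Rc R η, ∀ u ∈ Icc (0 : ℝ) 1, l * a + u * (z - l * a) ∈ T := fun z hz u hu => by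
    obtain ⟨τ, hτ, h⟩ := Rc_near R0.le hz
    refine mem_cthickening_of_dist_le _ ((u * τ : ℝ) : ℂ) _ _ ⟨u * τ, ⟨mul_nonneg hu.1 hτ.1,
      (mul_le_of_le_one_left hτ.1 hu.2).trans hτ.2⟩, rfl⟩ ?_
    rw [dist_eq_norm, show l * a + u * (z - l * a) - ((u * τ : ℝ) : ℂ) =
      (1 - u) * (l * a) + u * (z - τ) by push_cast; ring]
    linarith [norm_add_le ((1 - u) * (l * a)) (u * (z - τ)), (nu hu (l * a)).2, (nu hu (z - τ)).1]
  have nz : ∀ z ∈ Rc R η, ‖z - l * a‖ ≤ R + δ := fun z hz => by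
    obtain ⟨τ, hτ, h⟩ := Rc_near R0.le hz
    have h1 : ‖(τ : ℂ)‖ ≤ R := by
      rw [norm_real, Real.norm_eq_abs, abs_of_nonneg hτ.1]
      exact hτ.2
    linarith [norm_sub_le z (l * a), norm_le_norm_add_norm_sub' z τ, nt l ll]
  have nl : ‖(l : ℂ) * a - a‖ ≤ δ := by linarith [norm_sub_le (l * a) a, nt l ll]
  have io : ∀ {u : ℝ}, u ∈ Ioo (0 : ℝ) 1 → u ∈ Icc (0 : ℝ) 1 := fun h => Ioo_subset_Icc_self h
  have m1 : ∀ u ∈ Icc (0 : ℝ) 1, a + u * (l * a - a) ∈ closedBall (0 : ℂ) (3 * δ / 4) :=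
    fun u hu => by
      obtain ⟨t, ht, e⟩ := p1 u hu
      rw [e, mem_closedBall_zero_iff]
      linarith [nt t ht]
  have m2 : ∀ z ∈ Rc R η, ∀ u ∈ Icc (0 : ℝ) 1, z - (a + u * (l * a - a)) ∈ Sd s δ ∧
      z.re - δ ≤ (z - (a + u * (l * a - a))).re := fun z hz u hu => by
    obtain ⟨t, ht, e⟩ := p1 u hu
    rw [e]
    exact mS z hz t ht
  have m3 : ∀ z ∈ Rc R η, ∀ t ∈ Icc l 1, ∀ u ∈ Ioo (0 : ℝ) 1,
      z - (t * a + u * (z - t * a)) ∈ Sd s δ := fun z hz t ht u hu => by
    rw [p2]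
    exact Sd_mul δ0 (mS z hz t ht).1 hu
  have hRR : (R : ℂ) ∈ Rc R η := ⟨by simp; linarith, by simpa using η0, by simpa using η0⟩
  refine ⟨η, η0, fun z => (∫ u in (0 : ℝ)..1, (l * a - a) *
      (A (a + u * (l * a - a)) * B (z - (a + u * (l * a - a))))) +
    ∫ u in (0 : ℝ)..1, (z - l * a) *
      (A (l * a + u * (z - l * a)) * B (z - (l * a + u * (z - l * a)))), ?_, ?_, ?_⟩
  · refine (dI (K := δ * (K * M)) (Rc_open R η) (fun u hu => ?_) (fun z hz => ?_)
      fun z hz u hu => ?_).add (dI (K := (R + δ) * (K' * M)) (Rc_open R η) (fun u hu => ?_)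
      (fun z hz => ?_) fun z hz u hu => ?_)
    · exact ((hB.comp (by fun_prop) fun z hz => (m2 z hz u (io hu)).1).const_mul _).const_mul _
    · exact continuousOn_const.mul
        ((hA.continuousOn.comp (by fun_prop) fun u hu => hb' (m1 u (io hu))).mul
          (hB.continuousOn.comp (by fun_prop) fun u hu => (m2 z hz u (io hu)).1))
    · rw [norm_mul, norm_mul]
      exact mul_le_mul nl (mul_le_mul (hK _ (m1 u (io hu))) (hM _ (m2 z hz u (io hu)).1)
        (norm_nonneg _) K0) (by positivity) δ0.le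
    · exact DifferentiableOn.mul (by fun_prop)
        ((hA.comp (by fun_prop) fun z hz => hκ (mT z hz u (io hu))).mul
          (hB.comp (by fun_prop) fun z hz => m3 z hz l ll u hu))
    · exact continuousOn_const.mul
        ((hA.continuousOn.comp (by fun_prop) fun u hu => hκ (mT z hz u (io hu))).mul
          (hB.continuousOn.comp (by fun_prop) fun u hu => m3 z hz l ll u hu))
    · rw [norm_mul, norm_mul]
      have := hK' _ (mT z hz u (io hu))
      exact mul_le_mul (nz z hz) (mul_le_mul this (hM _ (m3 z hz l ll u hu))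
        (norm_nonneg _) ((norm_nonneg _).trans this)) (by positivity) (by positivity)
  · filter_upwards [ball_mem_nhds (0 : ℂ) η0] with z hz
    rw [mem_ball_zero_iff] at hz
    have hz' : z ∈ Rc R η := by
      have := abs_lt.1 ((abs_re_le_norm z).trans_lt hz)
      exact ⟨this.1, by linarith [this.2], (abs_im_le_norm z).trans_lt hz⟩
    have cv : Convex ℝ {ζ : ℂ | z - ζ ∈ Sd s δ} := fun x hx y hy p q hp hq hpq => by
      have h1 := Sd_convex s δ hx hy hp hq hpq
      have h2 : (p : ℂ) + q = 1 := by exact_mod_cast hpq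
      show z - (p • x + q • y) ∈ Sd s δ
      rwa [show z - (p • x + q • y) = p • (z - x) + q • (z - y) by
        simp only [real_smul]
        linear_combination (-z) * h2]
    obtain ⟨G, hG⟩ := prim' hP (f := fun ζ => A ζ * B (z - ζ)) (K := K * M)
      (C := ball 0 (3 * δ / 4) ∩ {ζ : ℂ | z - ζ ∈ Sd s δ})
      (isOpen_ball.inter ((Sd_open s δ).preimage (by fun_prop))) ((convex_ball _ _).inter cv)
      ((hA.mono fun ζ h => hb' (ball_subset_closedBall h.1)).mul
        (hB.comp (by fun_prop) fun ζ h => h.2)) (by positivity) fun ζ h => by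
          rw [norm_mul]
          exact mul_le_mul (hK _ (ball_subset_closedBall h.1)) (hM _ h.2) (norm_nonneg _) K0
    have g1 := hG a (l * a) fun u hu => ⟨by
      obtain ⟨t, ht, e⟩ := p1 u (io hu)
      rw [e, mem_ball_zero_iff]
      linarith [nt t ht], (m2 z hz' u (io hu)).1⟩
    have g2 : ∀ t ∈ Icc l 1, _ := fun t ht => hG (t * a) z fun u hu => ⟨by
      rw [mem_ball_zero_iff, show t * a + u * (z - t * a) = (1 - u) * (t * a) + u * z by ring]
      linarith [norm_add_le ((1 - u) * (t * a)) (u * z), (nu (io hu) (t * a)).2, (nu (io hu) z).1,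
        nt t ht], m3 z hz' t ht u hu⟩
    have g3 := g2 1 ⟨l1, le_rfl⟩
    simp only [ofReal_one, one_mul, p2] at g3
    rw [g1, g2 l ll, g3]
    ring
  · have q1 := intervalIntegral.norm_integral_le_of_norm_le_const (a := 0) (b := 1)
      (C := δ * (K * e)) (f := fun u : ℝ => (l * a - a) *
        (A (a + u * (l * a - a)) * B (R - (a + u * (l * a - a))))) fun u hu => by
          rw [uIoc_of_le zero_le_one] at hu
          have hu' := Ioc_subset_Icc_self hu
          have h1 := m2 R hRR u hu'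
          rw [norm_mul, norm_mul]
          exact mul_le_mul nl (mul_le_mul (hK _ (m1 u hu'))
            (hR₀ _ h1.1 (le_trans (by simp; linarith) h1.2)) (norm_nonneg _) K0) (by positivity)
            δ0.le
    let β : ℝ → ℝ := (Ioi R₁).indicator fun t : ℝ => ‖A t‖
    have β0 : ∀ t, 0 ≤ β t := fun t => indicator_nonneg (fun _ _ => norm_nonneg _) t
    obtain ⟨i1, j1⟩ := tot R0 (fun t => norm_nonneg (A t)) hI
    obtain ⟨i2, j2⟩ := tot R0 β0 (hI.indicator measurableSet_Ioi)
    rw [setIntegral_indicator measurableSet_Ioi, inter_eq_right.2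
      (show Ioi R₁ ⊆ Ici 0 from fun t ht => R1.trans (le_of_lt ht))] at j2
    have q2 := intervalIntegral.norm_integral_le_of_norm_le (μ := volume) zero_le_one
      (f := fun u : ℝ => (R - l * a) *
        (A (l * a + u * (R - l * a)) * B (R - (l * a + u * (R - l * a)))))
      (g := fun u => 2 * R * e * ‖A (u * R : ℝ)‖ + 2 * R * M * β (u * R) + ε / 3)
      (((countable_singleton (1 : ℝ)).ae_notMem volume).mono fun u hu1 hu => by
        have hu' : u ∈ Ioo (0 : ℝ) 1 := ⟨hu.1, lt_of_le_of_ne hu.2 hu1⟩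
        have h1 := m3 R hRR l ll u hu'
        have h2 : ‖A (l * a + u * (R - l * a))‖ ≤ ‖A (u * R : ℝ)‖ + ε / (6 * R * M) := by
          have := hκ' _ (mT R hRR u (io hu')) ((u * R : ℝ) : ℂ) (self_subset_cthickening _
            ⟨u * R, ⟨mul_nonneg hu.1.le R0.le, mul_le_of_le_one_left R0.le hu.2⟩, rfl⟩) (by
              rw [dist_eq_norm, show l * a + u * (R - l * a) - ((u * R : ℝ) : ℂ) =
                (1 - u) * (l * a) by push_cast; ring]
              linarith [(nu (io hu') (l * a)).2])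
          rw [dist_eq_norm] at this
          linarith [norm_le_norm_add_norm_sub' (A (l * a + u * (R - l * a))) (A (u * R : ℝ))]
        have h3 := hM _ h1
        have h4 : ‖A (u * R : ℝ)‖ * ‖B (R - (l * a + u * (R - l * a)))‖ ≤
            e * ‖A (u * R : ℝ)‖ + M * β (u * R) := by
          by_cases hc : R₁ < u * R
          · rw [show β (u * R) = ‖A (u * R : ℝ)‖ from indicator_of_mem (s := Ioi R₁) hc _]
            exact ar1 (norm_nonneg _) e0 h3
          · exact ar2 (norm_nonneg _) (mul_nonneg M0.le (β0 (u * R)))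
              (hR₀ _ h1 (ar3 a1 hu' l0 l1 r1 (not_lt.1 hc)))
        have h6 : ε / (6 * R * M) * ‖B (R - (l * a + u * (R - l * a)))‖ ≤ ε / (6 * R) :=
          (mul_le_mul_of_nonneg_left h3 (by positivity)).trans_eq (by field_simp)
        have h7 := mul_le_mul_of_nonneg_right h2 (norm_nonneg (B (R - (l * a + u * (R - l * a)))))
        rw [norm_mul, norm_mul]
        refine (mul_le_mul ((nz R hRR).trans (show R + δ ≤ 2 * R by linarith))
          (show _ ≤ e * ‖A (u * R : ℝ)‖ + M * β (u * R) + ε / (6 * R) by linarith)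
          (by positivity) (by positivity)).trans_eq ?_
        field_simp
        ring)
      (((i1.const_mul _).add (i2.const_mul _)).add intervalIntegrable_const)
    refine (norm_add_le _ _).trans ((add_le_add q1 q2).trans ?_)
    rw [intervalIntegral.integral_add ((i1.const_mul _).add (i2.const_mul _))
      intervalIntegrable_const, intervalIntegral.integral_add (i1.const_mul _) (i2.const_mul _),
      intervalIntegral.integral_const_mul, intervalIntegral.integral_const_mul,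
      intervalIntegral.integral_const, sub_zero, abs_one, smul_eq_mul]
    have k1 := mul_le_mul_of_nonneg_left j1 e0.le
    have k2 := mul_le_mul_of_nonneg_left (j2.trans hR₁.le) M0.le
    have k3 : M * (ε / (6 * M)) = ε / 6 := by field_simp
    rw [← hJ] at k1
    linarith

end Vale.Agent.P097F.J
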