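import Vale.Agent.P097F.J.Defs

/-!
# P097F.J: uniqueness of lifts, and the holomorphic lift round a segment
-/

set_option linter.all false

noncomputable section

namespace Vale.Agent.P097F.J

open Filter Topology Set Metric Complex

theorem Rg.strict {f : ℂ → ℂ} {U : Set ℂ} (h : Rg f U) {y : ℂ} (hy : y ∈ U) :
    HasStrictDerivAt f (deriv f y) y :=
  (h.2.1.analyticAt (h.1.mem_nhds hy)).hasStrictDerivAt

theorem Rg.inj {f : ℂ → ℂ} {U : Set ℂ} (h : Rg f U) {y : ℂ} (hy : y ∈ U) :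
    ∃ u ∈ 𝓝 y, InjOn f u := by
  refine ⟨_, (h.strict hy).eventually_left_inverse (h.2.2 y hy), fun a ha b hb e => ?_⟩
  have ha' := ha
  have hb' := hb
  simp only [mem_setOf_eq] at ha' hb'
  rw [← ha', ← hb', e]

theorem uniq : S_UNIQ := by
  intro f U X _ T Γ₁ Γ₂ x₀ hf hT h1 h2 hU he hx₀ h0
  have hp : PreconnectedSpace T := isPreconnected_iff_preconnectedSpace.1 hT
  have c1 : Continuous fun x : T => Γ₁ x := continuousOn_iff_continuous_restrict.1 h1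
  have c2 : Continuous fun x : T => Γ₂ x := continuousOn_iff_continuous_restrict.1 h2
  have hc : IsClopen {x : T | Γ₁ x = Γ₂ x} := by
    refine ⟨isClosed_eq c1 c2, isOpen_iff_mem_nhds.2 fun x hx => ?_⟩
    obtain ⟨u, hu, hi⟩ := hf.inj (hU x.2)
    have hx' : Γ₁ x = Γ₂ x := hx
    have a : ∀ᶠ z : T in 𝓝 x, Γ₁ z ∈ u := c1.continuousAt.eventually hu
    have hu2 : u ∈ 𝓝 (Γ₂ x) := by rw [← hx']; exact hu
    have b : ∀ᶠ z : T in 𝓝 x, Γ₂ z ∈ u := c2.continuousAt.eventually hu2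
    filter_upwards [a, b] with z a b
    exact hi a b (he z z.2)
  have hu := hc.eq_univ ⟨⟨x₀, hx₀⟩, h0⟩
  intro x hx
  have : (⟨x, hx⟩ : T) ∈ {x : T | Γ₁ x = Γ₂ x} := hu ▸ mem_univ _
  exact this

theorem thin : S_THIN := by
  intro f h U p q y₀ Γ hf hh hpq hi ⟨hc, hU, hl, _⟩
  have hs : ∀ m, m ∈ segment ℝ p q ↔ ∃ t ∈ Icc (0 : ℝ) 1, p + t * (q - p) = m := by
    intro m
    rw [segment_eq_image']
    simp only [mem_image, real_smul]
  have hK : IsCompact (Γ '' Icc 0 1) := isCompact_Icc.image_of_continuousOn hc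
  have hKU : Γ '' Icc 0 1 ⊆ U := hU.image_subset
  have hinj : InjOn f (Γ '' Icc 0 1) := by
    rintro _ ⟨t, ht, rfl⟩ _ ⟨s, hs', rfl⟩ e
    rw [hl t ht, hl s hs'] at e
    have e2 := hi ((hs _).2 ⟨t, ht, rfl⟩) ((hs _).2 ⟨s, hs', rfl⟩) e
    have e3 : (t : ℂ) = s :=
      mul_right_cancel₀ (sub_ne_zero.2 hpq.symm) (add_left_cancel e2)
    rw [ofReal_injective e3]
  obtain ⟨O', hO', hKO', hiO'⟩ := hinj.exists_isOpen_superset hK
    (fun x hx => (hf.strict (hKU hx)).hasDerivAt.continuousAt) (fun x hx => hf.inj (hKU hx))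
  have hO : IsOpen (O' ∩ U) := hO'.inter hf.1
  have hiO : InjOn f (O' ∩ U) := hiO'.mono inter_subset_left
  have hfO : IsOpen (f '' (O' ∩ U)) := by
    refine isOpen_iff_mem_nhds.2 ?_
    rintro _ ⟨y, hy, rfl⟩
    rw [← (hf.strict hy.2).map_nhds_eq (hf.2.2 y hy.2)]
    exact image_mem_map (hO.mem_nhds hy)
  have hψ : ∀ y ∈ O' ∩ U, Function.invFunOn f (O' ∩ U) (f y) = y := fun y hy =>
    hiO.leftInvOn_invFunOn hy
  have hseg : IsCompact (segment ℝ p q) := by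
    rw [segment_eq_image']
    exact isCompact_Icc.image (by fun_prop)
  have hsub : segment ℝ p q ⊆ h ⁻¹' (f '' (O' ∩ U)) := by
    intro m hm
    obtain ⟨t, ht, rfl⟩ := (hs m).1 hm
    exact ⟨Γ t, ⟨hKO' ⟨t, ht, rfl⟩, hU ht⟩, hl t ht⟩
  obtain ⟨δ, hδ, hth⟩ := hseg.exists_thickening_subset_open (hfO.preimage hh.continuous) hsub
  refine ⟨δ, hδ, fun m => Function.invFunOn f (O' ∩ U) (h m), fun m hm => ?_, fun m hm => ?_,
    fun t ht => ?_⟩
  · obtain ⟨y, hy, e⟩ := hth hm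
    have hd := ((hf.strict hy.2).to_local_left_inverse (hf.2.2 y hy.2)
      (g := Function.invFunOn f (O' ∩ U))
      (Filter.mem_of_superset (hO.mem_nhds hy) hψ)).hasDerivAt.differentiableAt
    rw [e] at hd
    exact (hd.comp m (hh m)).differentiableWithinAt
  · obtain ⟨y, hy, e⟩ := hth hm
    show Function.invFunOn f (O' ∩ U) (h m) ∈ U ∧ f (Function.invFunOn f (O' ∩ U) (h m)) = h m
    rw [← e, hψ y hy]
    exact ⟨hy.2, rfl⟩
  · show Function.invFunOn f (O' ∩ U) (h (p + t * (q - p))) = Γ t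
    have e : f (Γ t) = h (p + t * (q - p)) := hl t ht
    rw [← e]
    exact hψ _ ⟨hKO' ⟨t, ht, rfl⟩, hU ht⟩

end Vale.Agent.P097F.J
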