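import Vale.Agent.P097F.J.Defs

/-!
# P097F.J: a lift of a spiral through `Sf` does not escape
-/

set_option linter.all false

noncomputable section

namespace Vale.Agent.P097F.J

open Filter Topology Set Metric Complex MeasureTheory
open Vale.Agent.P097Mo (Sf)

theorem Trap.der (hD : ∀ z, HasDerivAt Sf (z * sin z) z) {Γ : ℝ → ℂ} {σ v : ℂ} {t : ℝ}
    (hc : ContinuousAt Γ t) (he : ∀ᶠ s in 𝓝 t, Sf (Γ s) = σ * exp (s * v)) (h0 : Γ t ≠ 0)
    (hs : sin (Γ t) ≠ 0) :
    HasDerivAt (fun s => cos (Γ s)) (v * (cos (Γ t) - sin (Γ t) / Γ t)) t := by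
  have hdiff : Differentiable ℂ Sf := fun z => (hD z).differentiableAt
  have hst : HasStrictDerivAt Sf (Γ t * sin (Γ t)) (Γ t) := by
    have h1 := (hdiff.analyticAt (Γ t)).hasStrictDerivAt
    rwa [(hD _).deriv] at h1
  have hne : Γ t * sin (Γ t) ≠ 0 := mul_ne_zero h0 hs
  have hl := hst.eventually_left_inverse hne
  have hi := (hst.to_localInverse hne).hasDerivAt
  set J := hst.localInverse Sf _ _ hne with hJ
  have het : Sf (Γ t) = σ * exp (t * v) := he.self_of_nhds
  have hC : HasDerivAt (fun z : ℂ => σ * exp (z * v)) (σ * (exp (t * v) * v)) (t : ℂ) := by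
    have h1 : HasDerivAt (fun z : ℂ => z * v) v (t : ℂ) := by
      simpa using (hasDerivAt_id (t : ℂ)).mul_const v
    exact h1.cexp.const_mul σ
  rw [het] at hi
  have h2 := (hi.comp (t : ℂ) hC).comp_ofReal
  have h3 : Γ =ᶠ[𝓝 t] fun s : ℝ => (J ∘ fun z : ℂ => σ * exp (z * v)) (s : ℂ) := by
    filter_upwards [he, hc.tendsto.eventually hl] with s a b
    simp only [Function.comp]
    rw [← a, b]
  have h4 := h2.congr_of_eventuallyEq h3
  have h5 := (Complex.hasDerivAt_cos (Γ t)).comp_of_eq t (h := Γ) (by exact h4) rfl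
  refine h5.congr_deriv ?_
  have e : σ * (exp (t * v) * v) = (sin (Γ t) - Γ t * cos (Γ t)) * v := by
    have : Sf (Γ t) = sin (Γ t) - Γ t * cos (Γ t) := rfl
    rw [← this, het]
    ring
  rw [e]
  field_simp
  ring

theorem Trap.sinle {z : ℂ} (h : 1 ≤ ‖cos z‖) : ‖sin z‖ ≤ 2 * ‖cos z‖ := by
  have e : sin z ^ 2 = 1 - cos z ^ 2 := by rw [← Complex.sin_sq_add_cos_sq z]; ring
  have h1 : ‖sin z‖ ^ 2 ≤ 1 + ‖cos z‖ ^ 2 := by
    rw [← norm_pow, e, ← norm_pow]
    exact (norm_sub_le _ _).trans (by rw [norm_one])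
  by_contra hh
  push Not at hh
  nlinarith [norm_nonneg (sin z), norm_nonneg (cos z)]

theorem Trap.pos {z v : ℂ} (h : 1 ≤ ‖cos z‖) (h5 : 5 ≤ ‖z‖) (hv : ‖v‖ ≤ 2 * v.re) :
    0 ≤ inner ℝ (cos z) (v * (cos z - sin z / z)) := by
  have hs := Trap.sinle h
  have hr : 0 ≤ v.re := by linarith [norm_nonneg v]
  have e1 : inner ℝ (cos z) (v * cos z) = v.re * ‖cos z‖ ^ 2 := by
    rw [Complex.sq_norm, Complex.normSq_apply]
    simp only [Complex.inner, mul_re, mul_im, conj_re, conj_im]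
    ring
  have e2 : inner ℝ (cos z) (v * (sin z / z)) ≤ ‖cos z‖ * ‖v * (sin z / z)‖ :=
    real_inner_le_norm _ _
  have e3 : ‖v * (sin z / z)‖ ≤ 2 * v.re * (2 * ‖cos z‖ / 5) := by
    rw [norm_mul, norm_div]
    refine mul_le_mul hv ?_ (by positivity) (by positivity)
    exact div_le_div₀ (by positivity) hs (by norm_num) h5
  rw [mul_sub, inner_sub_right, e1]
  have e4 := mul_le_mul_of_nonneg_left e3 (norm_nonneg (cos z))
  have e5 : 0 ≤ v.re * ‖cos z‖ ^ 2 := by positivity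
  nlinarith

theorem Trap.strip {z : ℂ} (h : ‖cos z‖ ≤ 1) (hs : sin z ≠ 0) :
    Real.sin z.re ≠ 0 ∧ |z.im| ≤ 1 := by
  have e : ‖cos z‖ ^ 2 = Real.cos z.re ^ 2 + Real.sinh z.im ^ 2 := by
    rw [Complex.sq_norm, Complex.normSq_apply, Complex.cos_eq z]
    simp only [← Complex.ofReal_cos, ← Complex.ofReal_sin, ← Complex.ofReal_cosh,
      ← Complex.ofReal_sinh, sub_re, sub_im, mul_re, mul_im, ofReal_re, ofReal_im, I_re, I_im]
    have a := Real.sin_sq_add_cos_sq z.re
    have b := Real.cosh_sq z.im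
    have c : Real.sin z.re ^ 2 = 1 - Real.cos z.re ^ 2 := by linarith
    linear_combination Real.cos z.re ^ 2 * b + Real.sinh z.im ^ 2 * c
  have h1 : ‖cos z‖ ^ 2 ≤ 1 := by nlinarith [norm_nonneg (cos z)]
  have a := Real.sin_sq_add_cos_sq z.re
  constructor
  · intro h0
    have h2 : Real.sinh z.im ^ 2 ≤ 0 := by
      rw [h0] at a
      linarith
    have h3 : Real.sinh z.im = 0 := by nlinarith [sq_nonneg (Real.sinh z.im)]
    have h4 : z.im = 0 := Real.sinh_eq_zero.1 h3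
    apply hs
    have h5 : z = (z.re : ℂ) := Complex.ext rfl (by simpa using h4)
    rw [h5, ← Complex.ofReal_sin, h0, Complex.ofReal_zero]
  · have h2 : |Real.sinh z.im| ≤ 1 := by
      rw [← sq_le_one_iff_abs_le_one]
      nlinarith [sq_nonneg (Real.cos z.re)]
    rw [Real.abs_sinh] at h2
    exact (Real.self_le_sinh_iff.2 (abs_nonneg _)).trans h2

theorem trap (hB : S_BND) (hL : S_LIFT) : S_TRAP := by
  intro ρ d v hd hρ hv hav h0
  obtain ⟨hRg, hD, -, -, -⟩ := hB
  have hSc : Continuous Sf := continuous_iff_continuousAt.2 fun z => (hD z).continuousAt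
  have hcc : Continuous fun t : ℝ => Sf d * exp (t * v) := by fun_prop
  have hρ0 : 0 ≤ ρ := (norm_nonneg d).trans hρ
  refine hL Sf US _ d hRg hcc.continuousOn hd (by simp) ?_
  rintro T ⟨hT0, hT1⟩ Γ ⟨hc, hm, he, hi⟩
  have hev : ∀ a, a < T → ∀ᶠ t in 𝓝[<] T, t ∈ Ioo a T := fun a ha => Ioo_mem_nhdsLT ha
  have hval : ∀ z, MapClusterPt z (𝓝[<] T) Γ → Sf z = Sf d * exp (T * v) := by
    intro z hz
    have h1 := hz.continuousAt_comp hSc.continuousAt
    have h2 : Tendsto (Sf ∘ Γ) (𝓝[<] T) (𝓝 (Sf d * exp (T * v))) := by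
      refine ((hcc.tendsto T).mono_left nhdsWithin_le_nhds).congr' ?_
      filter_upwards [hev 0 hT0] with t ht
      exact (he t ⟨ht.1.le, ht.2⟩).symm
    exact eq_of_nhds_neBot (h1.clusterPt.mono h2)
  have hA : (∃ᶠ t in 𝓝[<] T, Γ t ∈ closedBall (0 : ℂ) (ρ + 10)) →
      ∃ z ∈ US, MapClusterPt z (𝓝[<] T) Γ := by
    intro hf
    obtain ⟨z, hz, hcl⟩ := (isCompact_closedBall (0 : ℂ) (ρ + 10)).exists_mapClusterPt_of_frequently hf
    refine ⟨z, fun hs => ?_, hcl⟩
    obtain ⟨k, rfl⟩ := Complex.sin_eq_zero_iff.1 hs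
    have h1 := hval _ hcl
    by_cases hk : k = 0
    · subst hk
      have : Sf d * exp (T * v) = 0 := by rw [← h1]; simp [Sf]
      exact mul_ne_zero h0 (exp_ne_zero _) this
    · refine hav k hk ?_ T ⟨hT0.le, hT1⟩ h1.symm
      rw [mem_closedBall_zero_iff, norm_mul, Complex.norm_intCast, Complex.norm_real,
        Real.norm_of_nonneg Real.pi_pos.le] at hz
      exact hz
  set r := max ρ 5 with hr
  have hr5 : 5 ≤ r := le_max_right _ _
  have hrρ : r ≤ ρ + 5 := max_le (by linarith) (by linarith)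
  by_cases h1 : ∃ᶠ t in 𝓝[<] T, ‖Γ t‖ ≤ r
  · exact hA (h1.mono fun t ht => mem_closedBall_zero_iff.2 (by linarith))
  rw [not_frequently] at h1
  obtain ⟨a, haT, ha⟩ := mem_nhdsLT_iff_exists_Ioo_subset.1 h1
  have haT' : a < T := haT
  set b := max a 0 with hb
  have hbT : b < T := max_lt haT' hT0
  have hcb : ContinuousOn Γ (Icc 0 b) := hc.mono fun t ht => ⟨ht.1, ht.2.trans_lt hbT⟩
  have hK : IsCompact (Icc 0 b ∩ Γ ⁻¹' closedBall 0 r) :=
    isCompact_Icc.of_isClosed_subset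
      (hcb.preimage_isClosed_of_isClosed isClosed_Icc isClosed_closedBall) inter_subset_left
  obtain ⟨t₁, ⟨⟨h10, h1b⟩, h1r⟩, hgr⟩ := hK.exists_isGreatest
    ⟨0, ⟨le_rfl, le_max_right _ _⟩, by
      rw [mem_preimage, hi, mem_closedBall_zero_iff]; exact hρ.trans (le_max_left _ _)⟩
  have h1r' : ‖Γ t₁‖ ≤ r := mem_closedBall_zero_iff.1 h1r
  have h1T : t₁ < T := h1b.trans_lt hbT
  have hbig : ∀ t ∈ Ioo t₁ T, r < ‖Γ t‖ := by
    intro t ht
    by_contra hh
    push Not at hh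
    by_cases htb : t ≤ b
    · have := hgr ⟨⟨h10.trans ht.1.le, htb⟩, mem_closedBall_zero_iff.2 hh⟩
      exact absurd ht.1 (not_lt.2 this)
    · push Not at htb
      exact ha ⟨(le_max_left _ _).trans_lt htb, ht.2⟩ hh
  have hin : ∀ t ∈ Ioo t₁ T, t ∈ Ico 0 T := fun t ht => ⟨h10.trans ht.1.le, ht.2⟩
  by_cases h2 : ∃ t₂ ∈ Ioo t₁ T, 1 < ‖cos (Γ t₂)‖
  · obtain ⟨t₂, ht₂, hN⟩ := h2
    set A := ‖cos (Γ t₂)‖ ^ 2 with hA'
    have hA1 : 1 < A := by nlinarith
    have hder : ∀ t ∈ Ioo t₁ T, HasDerivAt (fun s => -‖cos (Γ s)‖ ^ 2)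
        (-(2 * inner ℝ (cos (Γ t)) (v * (cos (Γ t) - sin (Γ t) / Γ t)))) t := by
      intro t ht
      have hnb : Ico 0 T ∈ 𝓝 t := Ico_mem_nhds (h10.trans_lt ht.1) ht.2
      have hz : Γ t ≠ 0 := by
        intro h
        have := hbig t ht
        rw [h, norm_zero] at this
        linarith
      exact (Trap.der hD (hc.continuousAt hnb) (mem_of_superset hnb he) hz
        (hm (hin t ht))).norm_sq.neg
    have hlow : ∀ t ∈ Ioo t₂ T, (A + 1) / 2 ≤ ‖cos (Γ t)‖ ^ 2 := by
      intro t ht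
      have hsub : ∀ x ∈ Icc t₂ t, x ∈ Ioo t₁ T := fun x hx =>
        ⟨ht₂.1.trans_le hx.1, hx.2.trans_lt ht.2⟩
      have hle : ∀ x ∈ Icc t₂ t, (A - 1) / 2 * (x - t₂) ≤ (A - 1) / 2 := by
        intro x hx
        have := (hsub x hx).2
        have := (hin t₂ ht₂).1
        nlinarith
      have key := image_le_of_deriv_right_lt_deriv_boundary (a := t₂) (b := t)
        (f := fun s => -‖cos (Γ s)‖ ^ 2)
        (f' := fun s => -(2 * inner ℝ (cos (Γ s)) (v * (cos (Γ s) - sin (Γ s) / Γ s))))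
        (B := fun s => -A + (A - 1) / 2 * (s - t₂)) (B' := fun _ => (A - 1) / 2)
        (fun x hx => (hder x (hsub x hx)).continuousAt.continuousWithinAt)
        (fun x hx => (hder x (hsub x ⟨hx.1, hx.2.le⟩)).hasDerivWithinAt) (by simp [hA'])
        (fun x => by
          simpa using (((hasDerivAt_id x).sub_const t₂).const_mul ((A - 1) / 2)).const_add (-A))
        (fun x hx hxe => by
          have hx' : x ∈ Icc t₂ t := ⟨hx.1, hx.2.le⟩
          have h3 := hle x hx'
          have h4 : 1 ≤ ‖cos (Γ x)‖ := by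
            by_contra hh
            push Not at hh
            have h5 : -‖cos (Γ x)‖ ^ 2 = -A + (A - 1) / 2 * (x - t₂) := hxe
            nlinarith [norm_nonneg (cos (Γ x))]
          have h6 := Trap.pos h4 (hr5.trans (hbig x (hsub x hx')).le) hv
          show -(2 * _) < (A - 1) / 2
          linarith)
        (right_mem_Icc.2 ht.1.le)
      have h3 := hle t (right_mem_Icc.2 ht.1.le)
      have h4 : -‖cos (Γ t)‖ ^ 2 ≤ -A + (A - 1) / 2 * (t - t₂) := key
      linarith
    obtain ⟨M, hM⟩ := isCompact_Icc.exists_bound_of_continuousOn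
      (hcc.continuousOn (s := Icc (0 : ℝ) 1))
    have hK2 : IsCompact (closedBall (0 : ℂ) (2 + M) ∩ {z | (A + 1) / 2 ≤ ‖cos z‖ ^ 2}) :=
      (isCompact_closedBall _ _).inter_right (isClosed_le continuous_const (by fun_prop))
    obtain ⟨z, hz, hcl⟩ := hK2.exists_mapClusterPt_of_frequently (l := 𝓝[<] T) (f := Γ) (by
      refine Eventually.frequently ?_
      filter_upwards [hev t₂ ht₂.2] with t ht
      have h3 := hlow t ht
      refine ⟨mem_closedBall_zero_iff.2 ?_, h3⟩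
      have ht' : t ∈ Ico 0 T := hin t ⟨ht₂.1.trans ht.1, ht.2⟩
      have h4 : 1 ≤ ‖cos (Γ t)‖ := by
        by_contra hh
        push Not at hh
        nlinarith [norm_nonneg (cos (Γ t))]
      have h5 := Trap.sinle h4
      have h6 : ‖Sf (Γ t)‖ ≤ M := by
        rw [he t ht']
        exact hM t ⟨ht'.1, ht'.2.le.trans hT1⟩
      have h7 : ‖Γ t‖ * ‖cos (Γ t)‖ ≤ ‖sin (Γ t)‖ + ‖Sf (Γ t)‖ := by
        have e : Γ t * cos (Γ t) = sin (Γ t) - Sf (Γ t) := by simp [Sf]
        rw [← norm_mul, e]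
        exact norm_sub_le _ _
      have hM0 : 0 ≤ M := (norm_nonneg _).trans h6
      have h8 : ‖Γ t‖ * ‖cos (Γ t)‖ ≤ (2 + M) * ‖cos (Γ t)‖ := by nlinarith
      exact le_of_mul_le_mul_right h8 (by linarith))
    refine ⟨z, fun hs => ?_, hcl⟩
    have h3 : (A + 1) / 2 ≤ ‖cos z‖ ^ 2 := hz.2
    have e : cos z ^ 2 = 1 := by
      have := Complex.sin_sq_add_cos_sq z
      rw [hs] at this
      simpa using this
    rw [← norm_pow, e, norm_one] at h3
    linarith
  · push Not at h2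
    have hst := fun t ht => Trap.strip (h2 t ht) (hm (hin t ht))
    refine hA (Eventually.frequently ?_)
    filter_upwards [hev t₁ h1T] with t ht
    have hre : |(Γ t).re| ≤ r + Real.pi := by
      by_contra hh
      push Not at hh
      have hcI : ContinuousOn (fun s => |(Γ s).re|) (Icc t₁ t) :=
        (Complex.continuous_re.comp_continuousOn
          (hc.mono fun s hs => ⟨h10.trans hs.1, hs.2.trans_lt ht.2⟩)).abs
      set k : ℤ := ⌊r / Real.pi⌋ + 1 with hk
      have k1 : r < k * Real.pi := by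
        rw [← div_lt_iff₀ Real.pi_pos, hk]
        push_cast
        exact Int.lt_floor_add_one _
      have k2 : k * Real.pi ≤ r + Real.pi := by
        have := (le_div_iff₀ Real.pi_pos).1 (Int.floor_le (r / Real.pi))
        rw [hk]
        push_cast
        linarith
      have k3 : |(Γ t₁).re| ≤ r := (Complex.abs_re_le_norm _).trans h1r'
      obtain ⟨s, hs, hse⟩ := intermediate_value_Ioc ht.1.le hcI
        (⟨by linarith, by linarith⟩ : (k * Real.pi : ℝ) ∈ Ioc |(Γ t₁).re| |(Γ t).re|)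
      refine (hst s ⟨hs.1, hs.2.trans_lt ht.2⟩).1 ?_
      have hse' : |(Γ s).re| = k * Real.pi := hse
      rcases abs_choice (Γ s).re with h | h
      · rw [← h, hse']
        exact Real.sin_int_mul_pi k
      · have : (Γ s).re = -(k * Real.pi) := by linarith
        rw [this, Real.sin_neg, Real.sin_int_mul_pi, neg_zero]
    have him := (hst t ht).2
    have := Complex.norm_le_abs_re_add_abs_im (Γ t)
    rw [mem_closedBall_zero_iff]
    linarith [Real.pi_le_four]

end Vale.Agent.P097F.J
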