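import Vale.Agent.P097F.J.Defs

/-!
# P097F.J: the end of a path at a non principal zero
-/

set_option linter.all false

noncomputable section

namespace Vale.Agent.P097F.J

open Filter Topology Set Metric Complex MeasureTheory
open Vale.Agent.P097Mo (Sf)

theorem zend_LH : IsOpen LH := isOpen_lt continuous_im continuous_const

theorem zend_Ww (W₀ : ℂ) : Tendsto (Ww W₀) (𝓝 0) (𝓝 W₀) := by
  have h : Continuous (Ww W₀) := by
    unfold Ww
    fun_prop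
  have := h.tendsto 0
  simpa [Ww] using this

theorem zend_norm_exp (τ : ℝ) : ‖exp (-(kap * τ))‖ = Real.exp (-τ) := by
  rw [norm_exp]
  simp [kap]

theorem zend_sg (g : ℂ → ℂ) (W₀ z y b : ℂ) (τ : ℝ) (h : g y = g b * exp (-(kap * τ))) :
    sg g (Ww W₀ z) y = sg g W₀ b * exp (3 * kap * (-(τ : ℂ) + z)) := by
  have e : exp (3 * kap * (-(τ : ℂ) + z)) = (exp (kap * z) * exp (-(kap * τ))) ^ 3 := by
    rw [← Complex.exp_add, ← Complex.exp_nat_mul]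
    congr 1
    push_cast
    ring
  unfold sg Ww
  rw [h, e]
  ring

/-- local inverse of an analytic germ -/
theorem zend_inv {g : ℂ → ℂ} {y : ℂ} (ag : AnalyticAt ℂ g y) (h : deriv g y ≠ 0) :
    ∃ ι : ℂ → ℂ, AnalyticAt ℂ ι (g y) ∧ ι (g y) = y ∧ (∀ᶠ v in 𝓝 (g y), g (ι v) = v) ∧
      ∀ᶠ b in 𝓝 y, ι (g b) = b := by
  have hS := ag.hasStrictDerivAt
  refine ⟨hS.localInverse g _ y h, ?_, (hS.hasStrictFDerivAt_equiv h).localInverse_apply_image,
    (hS.hasStrictFDerivAt_equiv h).eventually_right_inverse,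
    (hS.hasStrictFDerivAt_equiv h).eventually_left_inverse⟩
  have := ag.contDiffAt (n := ⊤)
  exact (this.to_localInverse (hS.hasStrictFDerivAt_equiv h).hasFDerivAt (by simp)).analyticAt

/-- the time from a non principal zero to a generic node decays -/
theorem zend_key (hDISC : S_DISC) (hPURE : S_PURE) (hBEXT : S_BEXT) (hRHO : S_RHO)
    {g D₀ : ℂ → ℂ} {W₀ y₀ d₀ : ℂ} {ρ : ℝ} (hg : DifferentiableOn ℂ g LH) (hW : W₀ ≠ 0)
    (hy : y₀ ∈ LH) (g0 : g y₀ = 0) (g1 : deriv g y₀ ≠ 0) (hD : IsDv d₀ D₀) (S0 : Sf d₀ = 0)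
    (d0 : d₀ ≠ 0) (s0 : sin d₀ ≠ 0) (dρ : ‖d₀‖ < ρ) :
    ∀ᶠ b in 𝓝 y₀, g b ≠ 0 → Gen g W₀ ρ b → Dec fun z => rho g D₀ (Ww W₀ z) y₀ b := by
  obtain ⟨aD, D0, Dr, -⟩ := hD
  rw [S0] at aD D0 Dr
  have ag : AnalyticAt ℂ g y₀ := hg.analyticAt (zend_LH.mem_nhds hy)
  have sg0 : sg g W₀ y₀ = 0 := by simp [sg, g0]
  obtain ⟨r, hr, -, hG⟩ := hRHO g D₀ W₀ y₀ hg hy (sg0 ▸ aD) (by rw [sg0, D0]; exact d0)
  obtain ⟨ι, aι, ι0, ιr, ιl⟩ := zend_inv ag g1
  rw [g0] at aι ι0 ιr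
  have tι : Tendsto ι (𝓝 0) (𝓝 y₀) := ι0 ▸ aι.continuousAt
  have tD : Tendsto D₀ (𝓝 0) (𝓝 d₀) := D0 ▸ aD.continuousAt
  set L : ℝ := ‖deriv ι 0‖ + 1 with hL
  set M : ℝ := ‖(2 * d₀)⁻¹‖ + 1 with hM
  obtain ⟨s, hs, hι⟩ := Metric.eventually_nhds_iff_ball.1 (aι.eventually_analyticAt.and
    (ιr.and ((tι.eventually (ball_mem_nhds y₀ hr)).and
      (aι.deriv.continuousAt.norm.eventually (gt_mem_nhds (lt_add_one ‖deriv ι 0‖))))))
  have c1 : ContinuousAt (fun w : ℂ => ‖(2 * w)⁻¹‖) d₀ :=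
    ((continuousAt_const.mul continuousAt_id).inv₀ (mul_ne_zero two_ne_zero d0)).norm
  obtain ⟨s', hs', hD'⟩ := Metric.eventually_nhds_iff_ball.1 (aD.eventually_analyticAt.and
    (Dr.and (tD.eventually ((Complex.continuous_sin.continuousAt.eventually_ne s0).and
      ((continuous_norm.continuousAt.eventually (gt_mem_nhds dρ)).and
        (c1.eventually (gt_mem_nhds (lt_add_one ‖(2 * d₀)⁻¹‖))))))))
  have tg : Tendsto g (𝓝 y₀) (𝓝 0) := g0 ▸ ag.continuousAt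
  have tsg : Tendsto (fun b => ‖sg g W₀ b‖ * Real.exp 4) (𝓝 y₀) (𝓝 0) := by
    have h1 : ContinuousAt (fun b => ‖sg g W₀ b‖ * Real.exp 4) y₀ := by
      unfold sg
      exact (((continuousAt_const.mul ag.continuousAt).pow 3).div_const _).norm.mul
        continuousAt_const
    have h2 := h1.tendsto
    simpa only [sg0, norm_zero, zero_mul] using h2
  filter_upwards [ιl, tg.eventually (ball_mem_nhds 0 hs), tsg.eventually (gt_mem_nhds hs'),
    ball_mem_nhds y₀ hr] with b b1 b2 b3 b4 hb hgen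
  set σ := sg g W₀ b with hσ
  have σ0 : σ ≠ 0 := div_ne_zero (pow_ne_zero _ (mul_ne_zero hW hb)) (by norm_num)
  obtain ⟨δ, hδ, hδ'⟩ := hDISC σ ρ
  set r₁ : ℝ := min δ 1 with hr₁
  have r0 : 0 < r₁ := lt_min hδ one_pos
  have r1 : r₁ ≤ 1 := min_le_right _ _
  have rδ : r₁ ≤ δ := min_le_left _ _
  set C : Set ℂ := {μ | |μ.im| < r₁ / 10} with hC
  have oC : IsOpen C := isOpen_lt (continuous_abs.comp continuous_im) continuous_const
  have cC : Convex ℝ C := by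
    have e : C = {z : ℂ | -(r₁ / 10) < z.im} ∩ {z : ℂ | z.im < r₁ / 10} := by
      ext z
      simp only [hC, mem_setOf_eq, mem_inter_iff, abs_lt]
    rw [e]
    exact (convex_halfSpace_im_gt _).inter (convex_halfSpace_im_lt _)
  have hball : ∀ μ ∈ C, μ.re < r₁ → σ * exp (3 * kap * μ) ∈ ball (0 : ℂ) s' := by
    intro μ h1 h2
    rw [mem_ball_zero_iff, norm_mul, norm_exp]
    refine lt_of_le_of_lt (mul_le_mul_of_nonneg_left (Real.exp_le_exp.2 ?_) (norm_nonneg _)) b3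
    have h3 := (abs_lt.1 (show |μ.im| < r₁ / 10 from h1)).1
    simp [kap]
    linarith
  obtain ⟨B, hB, hB'⟩ := hBEXT σ 0 ρ r₁ C (fun μ => D₀ (σ * exp (3 * kap * μ))) σ0 r0 r1 oC cC
    (fun μ h => h) (by
      rw [Set.disjoint_left]
      intro μ h1 h2
      have h3 := (hδ' μ h2).1 (lt_of_lt_of_le (show |μ.im| < r₁ / 10 from h1) (by linarith))
      have h4 : μ = (μ.re : ℂ) := Complex.ext (by simp) (by simp [h3])
      exact hgen μ.re (h4 ▸ h2))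
    (by show |(0 : ℂ).im| < r₁ / 10; simp; exact r0) (by simp; exact r0)
    (fun μ h => (DifferentiableAt.comp (g := D₀) (f := fun μ => σ * exp (3 * kap * μ)) μ
      (hD' _ (hball μ h.1 h.2)).1.differentiableAt (by fun_prop)).differentiableWithinAt)
    (fun μ h1 h2 => ⟨(hD' _ (hball μ h1 h2)).2.2.1, (hD' _ (hball μ h1 h2)).2.1⟩)
    (hD' _ (hball 0 (by show |(0 : ℂ).im| < r₁ / 10; simp; exact r0)
      (by simpa using r0))).2.2.2.1.le
    ⟨M, fun μ h1 h2 => (hD' _ (hball μ h1 h2)).2.2.2.2.le⟩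
  set v : ℝ → ℂ := fun τ => g b * exp (-(kap * τ)) with hv
  have nb : ‖g b‖ < s := mem_ball_zero_iff.1 b2
  have nv : ∀ τ, ‖v τ‖ = ‖g b‖ * Real.exp (-τ) := fun τ => by
    simp only [hv, norm_mul, zend_norm_exp]
  have nv1 : ∀ τ, 0 ≤ τ → ‖v τ‖ ≤ ‖g b‖ := fun τ h => by
    rw [nv]
    exact mul_le_of_le_one_right (norm_nonneg _) (Real.exp_le_one_iff.2 (by linarith))
  have mv : ∀ τ, 0 ≤ τ → v τ ∈ ball (0 : ℂ) s := fun τ h =>
    mem_ball_zero_iff.2 ((nv1 τ h).trans_lt nb)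
  have dv : ∀ τ : ℝ, HasDerivAt v (-(kap * v τ)) τ := fun τ => by
    have h1 : HasDerivAt (fun ζ : ℂ => g b * exp (-(kap * ζ)))
        (g b * (exp (-(kap * τ)) * -(kap * 1))) (τ : ℂ) :=
      (((hasDerivAt_id (τ : ℂ)).const_mul kap).neg.cexp).const_mul _
    exact h1.comp_ofReal.congr_deriv (by simp only [hv]; ring)
  have cv : Continuous v := continuous_iff_continuousAt.2 fun τ => (dv τ).continuousAt
  set a : ℝ → ℂ := fun τ => kap * v τ * (v τ * deriv ι (v τ)) with ha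
  have ca : ContinuousOn a (Ioi 0) := by
    refine (continuous_const.mul cv).continuousOn.mul (cv.continuousOn.mul fun τ h => ?_)
    exact (ContinuousAt.comp (g := deriv ι) (f := v)
      (hι _ (mv τ (le_of_lt h))).1.deriv.continuousAt cv.continuousAt).continuousWithinAt
  have na : ∀ τ, 0 ≤ τ → ‖a τ‖ ≤ ‖kap‖ * s * (s * L) * Real.exp (-1 * τ) := by
    intro τ h
    have h1 := (hι _ (mv τ h)).2.2.2
    have h2 : ‖v τ‖ ≤ s * Real.exp (-1 * τ) := by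
      rw [nv, neg_one_mul]
      exact mul_le_mul_of_nonneg_right nb.le (Real.exp_pos _).le
    have h3 : ‖v τ‖ ≤ s := (nv1 τ h).trans nb.le
    simp only [ha, norm_mul]
    calc ‖kap‖ * ‖v τ‖ * (‖v τ‖ * ‖deriv ι (v τ)‖)
        ≤ ‖kap‖ * (s * Real.exp (-1 * τ)) * (s * L) := by gcongr
      _ = _ := by ring
  have ia : IntegrableOn a (Ioi 0) :=
    Integrable.mono' ((exp_neg_integrableOn_Ioi 0 one_pos).const_mul (‖kap‖ * s * (s * L)))
      (ca.aestronglyMeasurable measurableSet_Ioi)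
      ((ae_restrict_iff' measurableSet_Ioi).2 (Eventually.of_forall fun τ h => na τ (le_of_lt h)))
  have hmem : ∀ (t : ℝ) (z : ℂ), |z.im| < r₁ / 10 → -(t : ℂ) + z ∈ C := fun t z h => by
    show |(-(t : ℂ) + z).im| < r₁ / 10
    simpa using h
  have hP := hPURE (Ioi 0) a (fun τ => -(τ : ℂ)) B C (r₁ / 10) measurableSet_Ioi ia
    (continuous_ofReal.neg.continuousOn) oC hB (by linarith) (fun t _ z _ h => hmem t z h)
  refine hP.congr ?_
  filter_upwards [(zend_Ww W₀).eventually hG, ball_mem_nhds (0 : ℂ) (by linarith : 0 < r₁ / 10)]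
    with z hz1 hz2
  obtain ⟨G, G1, G2⟩ := hz1
  have z1 : |z.im| < r₁ / 10 := (abs_im_le_norm z).trans_lt (mem_ball_zero_iff.1 hz2)
  have z2 : z.re < r₁ / 10 := ((le_abs_self _).trans (abs_re_le_norm z)).trans_lt
    (mem_ball_zero_iff.1 hz2)
  rw [G2 y₀ (mem_ball_self hr) b b4]
  have hd : ∀ τ ∈ Ici (0 : ℝ), HasDerivAt (fun τ => -G (ι (v τ))) (a τ * B (-(τ : ℂ) + z)) τ := by
    intro τ h
    obtain ⟨i1, i2, i3, -⟩ := hι _ (mv τ h)
    have h1 := ((G1 _ i3).2.comp (v τ) i1.differentiableAt.hasDerivAt).scomp τ (dv τ)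
    refine h1.neg.congr_deriv ?_
    have h2 : (-(τ : ℂ) + z).re < r₁ := by
      have : (0 : ℝ) ≤ τ := h
      simp only [add_re, neg_re, ofReal_re]
      linarith
    rw [hB' _ (hmem τ z z1) h2, zend_sg g W₀ z (ι (v τ)) b τ i2, i2]
    simp only [ha, smul_eq_mul, hσ]
    ring
  obtain ⟨hB1, ⟨M', hM'⟩, -⟩ := hB
  have cB : ContinuousOn (fun τ : ℝ => B (-(τ : ℂ) + z)) (Ioi 0) :=
    hB1.continuousOn.comp (continuous_ofReal.neg.add continuous_const).continuousOn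
      fun τ _ => hmem τ z z1
  have ii : IntegrableOn (fun τ : ℝ => a τ * B (-(τ : ℂ) + z)) (Ioi 0) :=
    Integrable.mono' (ia.norm.mul_const M') ((ca.mul cB).aestronglyMeasurable measurableSet_Ioi)
      (Eventually.of_forall fun τ => by
        rw [norm_mul]
        exact mul_le_mul_of_nonneg_left (hM' _ (hmem τ z z1)) (norm_nonneg _))
  have tv : Tendsto v atTop (𝓝 0) := by
    rw [tendsto_zero_iff_norm_tendsto_zero]
    simp only [nv]
    simpa using Real.tendsto_exp_neg_atTop_nhds_zero.const_mul ‖g b‖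
  have tt : Tendsto (fun τ => -G (ι (v τ))) atTop (𝓝 (-G y₀)) :=
    ((G1 y₀ (mem_ball_self hr)).2.continuousAt.tendsto.comp (tι.comp tv)).neg
  rw [integral_Ioi_of_hasDerivAt_of_tendsto' hd ii tt]
  have v0 : ι (v 0) = b := by simpa [hv] using b1
  rw [v0]
  ring

/-- the time along a model leaf is the increment of the primitive -/
theorem zend_loc {g D₀ G : ℂ → ℂ} {Ω : Set (ℂ × ℂ)} {Y D : ℂ × ℂ → ℂ} (F : Fam g Ω Y D)
    {W x : ℂ} (hW : W ≠ 0) {U₁ U₂ : Set ℂ} (o₁ : IsOpen U₁) (o₂ : IsOpen U₂)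
    (hG : ∀ b ∈ U₁, D₀ (sg g W b) ≠ 0 ∧ HasDerivAt G (g b * (2 * D₀ (sg g W b))⁻¹) b)
    (hD : ∀ z ∈ U₂, D₀ (Sf z) = z) (hx : (x, W) ∈ Ω) (h₁ : Y (x, W) ∈ U₁) (h₂ : D (x, W) ∈ U₂) :
    ∀ᶠ x' in 𝓝 x, x' / W - G (Y (x', W)) = x / W - G (Y (x, W)) := by
  have t : Tendsto (fun x' : ℂ => (x', W)) (𝓝 x) (𝓝 (x, W)) := (Continuous.prodMk_left W).tendsto x
  have n := F.op.mem_nhds hx
  obtain ⟨ε, hε, hb⟩ := Metric.eventually_nhds_iff_ball.1 (t.eventually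
    ((show ∀ᶠ p in 𝓝 (x, W), p ∈ Ω from n).and
      (((F.cY.continuousAt n).eventually (o₁.mem_nhds h₁)).and
        ((F.cD.continuousAt n).eventually (o₂.mem_nhds h₂)))))
  have hd : ∀ w ∈ ball x ε, HasDerivAt (fun x' => x' / W - G (Y (x', W))) 0 w := by
    intro w hw
    obtain ⟨m, m1, m2⟩ := hb w hw
    obtain ⟨Y', k1, k2⟩ := F.ode _ m
    have k3 := hD _ m2
    rw [F.law _ m] at k3
    obtain ⟨k4, k5⟩ := hG _ m1
    have k6 := ((hasDerivAt_id w).div_const W).sub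
      (HasDerivAt.comp (h₂ := G) (h := fun x => Y (x, W)) w k5 k1)
    refine k6.congr_deriv ?_
    simp only at k2 k3
    rw [k3] at k4 ⊢
    field_simp
    linear_combination -k2
  filter_upwards [ball_mem_nhds x hε] with w hw
  exact (convex_ball x ε).is_const_of_fderivWithin_eq_zero (𝕜 := ℂ)
    (f := fun x' => x' / W - G (Y (x', W)))
    (fun u hu => (hd u hu).differentiableAt.differentiableWithinAt)
    (fun u hu => by
      rw [fderivWithin_of_isOpen isOpen_ball hu, (hd u hu).hasFDerivAt.fderiv]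
      simp) hw (mem_ball_self hε)

theorem zend (hDISC : S_DISC) (hDV : S_DV) (hBND : S_BND) (hPURE : S_PURE) (hBEXT : S_BEXT)
    (hRHO : S_RHO) : S_ZEND := by
  intro g Ω Y D W₀ ρ V ξ y d hg hW F P O hz
  obtain ⟨hy, g1, d0, dρ⟩ := O
  have V0 : W₀ ∈ V := mem_of_mem_nhds P.nb
  have g0 := hz W₀ V0
  have ag : AnalyticAt ℂ g (y (0, W₀)) := hg.analyticAt (zend_LH.mem_nhds hy)
  have cS : Continuous Sf := by
    unfold Sf
    fun_prop
  have m0 : ((0 : ℝ), W₀) ∈ Icc (0 : ℝ) 1 ×ˢ V := ⟨⟨le_rfl, zero_le_one⟩, V0⟩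
  have eN : 𝓝[Icc (0 : ℝ) 1 ×ˢ V] ((0 : ℝ), W₀) = 𝓝[Icc (0 : ℝ) 1] 0 ×ˢ 𝓝 W₀ := by
    rw [nhdsWithin_prod_eq, nhdsWithin_eq_nhds.2 P.nb]
  have ty : Tendsto y (𝓝[Icc (0 : ℝ) 1] 0 ×ˢ 𝓝 W₀) (𝓝 (y (0, W₀))) := eN ▸ P.cy _ m0
  have td : Tendsto d (𝓝[Icc (0 : ℝ) 1] 0 ×ˢ 𝓝 W₀) (𝓝 (d (0, W₀))) := eN ▸ P.cd _ m0
  have sg0 : sg g W₀ (y (0, W₀)) = 0 := by simp [sg, g0]
  have csg : ∀ c ∈ LH, ContinuousAt (fun p : ℂ × ℂ => sg g p.1 p.2) (W₀, c) := by
    intro c hc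
    unfold sg
    exact ((continuousAt_fst.mul (ContinuousAt.comp (g := g) (f := fun p : ℂ × ℂ => p.2)
      (hg.continuousOn.continuousAt (zend_LH.mem_nhds hc)) continuousAt_snd)).pow 3).div_const _
  have S0 : Sf (d (0, W₀)) = 0 := by
    have t0 : Tendsto (fun t : ℝ => (t, W₀)) (𝓝[>] 0) (𝓝[Icc (0 : ℝ) 1] 0 ×ˢ 𝓝 W₀) := by
      refine Tendsto.prodMk ?_ tendsto_const_nhds
      rw [nhdsWithin_Icc_eq_nhdsGE zero_lt_one]
      exact tendsto_id'.2 (nhdsWithin_mono _ Ioi_subset_Ici_self)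
    have t1 := (cS.tendsto _).comp (td.comp t0)
    have t2 := (csg _ hy).tendsto.comp (tendsto_const_nhds.prodMk_nhds (ty.comp t0))
    simp only [sg0] at t2
    refine tendsto_nhds_unique_of_eventuallyEq t1 t2 ?_
    filter_upwards [Ioo_mem_nhdsGT (zero_lt_one' ℝ)] with t ht
    exact (P.reg t ht).2.2.2.2.1
  have s0 : sin (d (0, W₀)) ≠ 0 := by
    intro h
    have h1 : cos (d (0, W₀)) = 0 := by
      unfold Sf at S0
      rw [h, zero_sub, neg_eq_zero] at S0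
      exact (mul_eq_zero.1 S0).resolve_left d0
    have := Complex.sin_sq_add_cos_sq (d (0, W₀))
    rw [h, h1] at this
    norm_num at this
  have hD := hDV.1 _ (mul_ne_zero d0 s0)
  set D₀ := Dv (d (0, W₀)) with hD₀
  have K := zend_key hDISC hPURE hBEXT hRHO hg hW hy g0 g1 hD S0 d0 s0 dρ
  obtain ⟨r, hr, hLH, hG⟩ := hRHO g D₀ W₀ _ hg hy (by rw [sg0.trans S0.symm]; exact hD.1)
    (by rw [sg0.trans S0.symm, hD.2.1]; exact d0)
  obtain ⟨ι, -, -, -, ιl⟩ := zend_inv ag g1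
  obtain ⟨U₁, u1, o₁, n₁⟩ := _root_.eventually_nhds_iff.1 (K.and (ιl.and
    (show ∀ᶠ b in 𝓝 (y (0, W₀)), b ∈ ball (y (0, W₀)) r from ball_mem_nhds _ hr)))
  obtain ⟨U₂, u2, o₂, n₂⟩ := _root_.eventually_nhds_iff.1 (hD.2.2.2.and ((hDV.2.2 _ _ hD).and
    (eventually_ne_nhds d0)))
  obtain ⟨pa, ha, pb, hb, hab⟩ := eventually_prod_iff.1
    ((ty.eventually (o₁.mem_nhds n₁)).and (td.eventually (o₂.mem_nhds n₂)))
  rw [nhdsWithin_Icc_eq_nhdsGE zero_lt_one] at ha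
  obtain ⟨t₁, ht₁, hpa⟩ := mem_nhdsGE_iff_exists_Icc_subset.1 ha
  set t : ℝ := min t₁ (1 / 2) with ht
  have t0 : 0 < t := lt_min ht₁ (by norm_num)
  have t1 : t < 1 := (min_le_right _ _).trans_lt (by norm_num)
  have hU : ∀ u ∈ Icc 0 t, ∀ W, pb W → y (u, W) ∈ U₁ ∧ d (u, W) ∈ U₂ := fun u hu W h =>
    hab (hpa ⟨hu.1, hu.2.trans (min_le_left _ _)⟩) h
  have mt : t ∈ Icc 0 t := ⟨t0.le, le_rfl⟩
  have hinc : ∀ᶠ W in 𝓝 W₀, ∀ b ∈ ball (y (0, W₀)) r, (ξ (t, W) - ξ (0, W)) / W +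
      rho g D₀ W (y (t, W)) b = rho g D₀ W (y (0, W₀)) b := by
    filter_upwards [hG, hb, P.nb, eventually_ne_nhds hW] with W k1 k2 k3 k4 b k5
    obtain ⟨G, G1, G2⟩ := k1
    have e0 : y (0, W) = y (0, W₀) := by
      have a1 := (u1 _ (hU 0 ⟨le_rfl, t0.le⟩ W k2).1).2.1
      have a2 := (u1 _ n₁).2.1
      rw [← a1, ← a2, hz W k3, g0]
    have mp : MapsTo (fun u : ℝ => (u, W)) (Icc 0 t) (Icc (0 : ℝ) 1 ×ˢ V) :=
      fun u hu => ⟨⟨hu.1, hu.2.trans t1.le⟩, k3⟩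
    have cp : ContinuousOn (fun u : ℝ => (u, W)) (Icc 0 t) :=
      (Continuous.prodMk_left W).continuousOn
    have cξ := P.cx.comp cp mp
    have cG : ContinuousOn G (ball (y (0, W₀)) r) :=
      fun c hc => (G1 c hc).2.continuousAt.continuousWithinAt
    have cφ : ContinuousOn (fun u : ℝ => ξ (u, W) / W - G (y (u, W))) (Icc 0 t) :=
      (cξ.div_const W).sub (cG.comp (P.cy.comp cp mp) fun u hu => (u1 _ (hU u hu W k2).1).2.2)
    have dφ : ∀ u ∈ Ioo 0 t, HasDerivAt (fun u : ℝ => ξ (u, W) / W - G (y (u, W))) 0 u := by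
      intro u hu
      have hu1 : u ∈ Ioo (0 : ℝ) 1 := ⟨hu.1, hu.2.trans t1⟩
      obtain ⟨a1, a2, a3⟩ := P.mem u hu1 W k3
      obtain ⟨a4, a5⟩ := hU u (Ioo_subset_Icc_self hu) W k2
      have a6 := zend_loc F k4 o₁ o₂ (fun c hc => G1 c (u1 c hc).2.2) (fun z h => (u2 z h).1) a1
        (a2 ▸ a4) (a3 ▸ a5)
      have a7 : ContinuousAt (fun u : ℝ => ξ (u, W)) u :=
        cξ.continuousAt (Icc_mem_nhds hu.1 hu.2)
      refine (hasDerivAt_const u (ξ (u, W) / W - G (Y (ξ (u, W), W)))).congr_of_eventuallyEq ?_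
      filter_upwards [a7.eventually a6, Ioo_mem_nhds hu1.1 hu1.2] with u' b1 b2
      rw [(P.mem u' b2 W k3).2.1, b1]
    have := intervalIntegral.integral_eq_sub_of_hasDerivAt_of_le t0.le cφ dφ
      intervalIntegrable_const
    simp only [intervalIntegral.integral_zero, e0] at this
    rw [G2 _ (u1 _ (hU t mt W k2).1).2.2 b k5, G2 _ (mem_ball_self hr) b k5]
    linear_combination -this
  refine ⟨t, ⟨t0, t1⟩, ?_⟩
  obtain ⟨q1, q2, -, q4, q5, -⟩ := P.reg t ⟨t0, t1⟩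
  obtain ⟨q6, q7⟩ := hU t mt W₀ hb.self_of_nhds
  have eD := hDV.2.1 _ _ _ (hDV.1 _ (mul_ne_zero (u2 _ q7).2.2 q4)) (u2 _ q7).2.1
  rw [q5] at eD
  obtain ⟨pc, hc, pd, hd, hcd⟩ := (nhds_prod_eq (x := W₀) (y := y (t, W₀)) ▸
    ((csg _ q1).tendsto.eventually eD) |> eventually_prod_iff.1)
  obtain ⟨ε, hε, hpd⟩ := Metric.eventually_nhds_iff_ball.1 hd
  have cyt : Tendsto (fun W => y (t, W)) (𝓝 W₀) (𝓝 (y (t, W₀))) := by
    have a1 : ContinuousAt y (t, W₀) := P.cy.continuousAt (prod_mem_nhds (Icc_mem_nhds t0 t1) P.nb)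
    exact a1.tendsto.comp ((Continuous.prodMk_right t).tendsto W₀)
  filter_upwards [o₁.mem_nhds q6, ball_mem_nhds _ hε,
    (hg.continuousOn.continuousAt (zend_LH.mem_nhds q1)).eventually_ne q2] with b b1 b2 b3 b4
  refine ((u1 b b1).1 b3 b4).congr ?_
  filter_upwards [(zend_Ww W₀).eventually (hinc.and (hc.and (cyt.eventually (ball_mem_nhds _ hε))))]
    with z ⟨z1, z2, z3⟩
  rw [← z1 b (u1 b b1).2.2]
  congr 1
  unfold rho
  refine intervalIntegral.integral_congr fun u hu => ?_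
  rw [uIcc_of_le zero_le_one] at hu
  have hm := (convex_ball (y (t, W₀)) ε).add_smul_sub_mem z3 b2 hu
  rw [real_smul] at hm
  have := hcd z2 (hpd _ hm)
  simp only at this ⊢
  rw [this]

end Vale.Agent.P097F.J
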